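import Vale.Agent.P219.CoDefs

open MeasureTheory Matrix
open scoped ENNReal NNReal

namespace Vale.Agent.P219.Co

/-- A smooth compactly supported vector field with `|X|_g ≤ 1` everywhere. -/
structure TestField {n : ℕ} (M : RiemMetric n) (X : E n → Fin n → ℝ) : Prop where
  smooth : ∀ i, Smooth fun x => X x i
  compact : HasCompactSupport X
  le_one : ∀ x, X x ⬝ᵥ M.g x *ᵥ X x ≤ 1

/-- The perimeter (De Giorgi) of a set: the supremum of `∫_S div X dvol` over the smooth compactly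
supported vector fields `X` with `|X|_g ≤ 1`. -/
noncomputable def perimeter {n : ℕ} (M : RiemMetric n) (S : Set (E n)) : ℝ≥0∞ :=
  ⨆ (X : E n → Fin n → ℝ) (_ : TestField M X),
    ENNReal.ofReal (∫ x in S, divg M X x * volDensity M x ∂leb n)

/-- `∫ |df|_g^p dvol_g`. -/
noncomputable def energy {n : ℕ} (M : RiemMetric n) (p : ℝ) (f : E n → ℝ) : ℝ≥0∞ :=
  ∫⁻ x, ENNReal.ofReal (gradNorm M f x ^ p * volDensity M x) ∂leb n

/-- `∫ |f|^q dvol_g`. -/
noncomputable def mass {n : ℕ} (M : RiemMetric n) (q : ℝ) (f : E n → ℝ) : ℝ≥0∞ :=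
  ∫⁻ x, ENNReal.ofReal (|f x| ^ q * volDensity M x) ∂leb n

/-- The decreasing rearrangement of `|f|` on the space form of curvature `κ`, as a function of the
distance `r` to the centre: the supremum of the levels `t ≥ 0` such that `{|f| > t}` has a larger
volume than the geodesic ball of radius `r` of the space form. -/
noncomputable def rearr {n : ℕ} (M : RiemMetric n) (κ : ℝ) (f : E n → ℝ) (r : ℝ) : ℝ :=
  sSup {t : ℝ | 0 ≤ t ∧ ENNReal.ofReal (modelVol n κ r) < riemVol M {x | t < |f x|}}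

/-- `∫ |∇φ|^p` for the radial function `φ(r)` on the space form of curvature `κ`. -/
noncomputable def radEnergy (n : ℕ) (κ p : ℝ) (φ : ℝ → ℝ) : ℝ≥0∞ :=
  ∫⁻ r in Set.Ioi (0 : ℝ), ENNReal.ofReal (|deriv φ r| ^ p * modelArea n κ r)

/-- `∫ |φ|^q` for the radial function `φ(r)` on the space form of curvature `κ`. -/
noncomputable def radMass (n : ℕ) (κ q : ℝ) (φ : ℝ → ℝ) : ℝ≥0∞ :=
  ∫⁻ r in Set.Ioi (0 : ℝ), ENNReal.ofReal (|φ r| ^ q * modelArea n κ r)

/-- The sharp constant `c` of the Sobolev inequality `c (∫ |φ|^q)^{p/q} ≤ ∫ |∇φ|^p` on the geodesic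
ball of radius `R` of the space form of curvature `κ`: the infimum over the Lipschitz radial
functions `φ(r)` which vanish for `r ≥ R`. For `q = p` it is the first Dirichlet eigenvalue of the
`p`-Laplacian of the ball. -/
noncomputable def sobConst (n : ℕ) (κ p q R : ℝ) : ℝ≥0∞ :=
  ⨅ (φ : ℝ → ℝ) (_ : (∃ C : ℝ≥0, LipschitzWith C φ) ∧ (∀ r, R ≤ r → φ r = 0) ∧
      radMass n κ q φ ≠ 0), radEnergy n κ p φ / radMass n κ q φ ^ (p / q)

end Vale.Agent.P219.Co
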