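import Vale.Agent.P219.CoDefs

open MeasureTheory
open scoped ENNReal

namespace Vale.Agent.P219.Co

/-- The total variation `∫ |df|_g dvol_g` of a continuously differentiable function. -/
noncomputable def gradMass {n : ℕ} (M : RiemMetric n) (f : E n → ℝ) : ℝ≥0∞ :=
  ∫⁻ x, ENNReal.ofReal (gradNorm M f x * volDensity M x) ∂leb n

/-- The model isoperimetric profile `I_κ(V) = A_κ(V_κ⁻¹(V))` (infinite if `V` is infinite): the
supremum of the areas of the geodesic balls of the space form with volume at most `V`. -/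
noncomputable def isoProfile (n : ℕ) (κ : ℝ) (V : ℝ≥0∞) : ℝ≥0∞ :=
  ⨆ (r : ℝ) (_ : 0 ≤ r ∧ ENNReal.ofReal (modelVol n κ r) ≤ V), ENNReal.ofReal (modelArea n κ r)

end Vale.Agent.P219.Co
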