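import Mathlib

open MeasureTheory Set Filter Topology
open scoped ENNReal ContDiff Convolution

namespace Vale.Agent.P219.Co

/-- Moving an even kernel to the other factor. -/
theorem conv_swap {n : ℕ} {ρ u h : EuclideanSpace ℝ (Fin n) → ℝ} (hρc : Continuous ρ)
    (hρi : Integrable ρ) (hρe : ∀ x, ρ (-x) = ρ x) (hu : Measurable u) (hub : ∀ x, |u x| ≤ 1)
    (hui : Integrable u) (hh : Continuous h) (hhc : HasCompactSupport h) :
    ∫ x, (∫ t, ρ t * u (x - t)) * h x = ∫ x, u x * ∫ t, ρ t * h (x - t) := by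
  have hhi : Integrable h := hh.integrable_of_hasCompactSupport hhc
  obtain ⟨C, hC⟩ := hh.bounded_above_of_compact_support hhc
  have h1 : Integrable (Function.uncurry fun x t => ρ t * u (x - t) * h x)
      ((volume : Measure (EuclideanSpace ℝ (Fin n))).prod volume) := by
    refine Integrable.mono' (hhi.norm.mul_prod hρi.norm) ?_ ?_
    · refine Measurable.aestronglyMeasurable ?_
      exact ((hρc.measurable.comp measurable_snd).mul (hu.comp (measurable_fst.sub
        measurable_snd))).mul (hh.measurable.comp measurable_fst)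
    · refine Eventually.of_forall fun z => ?_
      simp only [Function.uncurry]
      rw [norm_mul, norm_mul, Real.norm_eq_abs (u _)]
      have := hub (z.1 - z.2)
      have h2 : ‖ρ z.2‖ * |u (z.1 - z.2)| ≤ ‖ρ z.2‖ * 1 :=
        mul_le_mul_of_nonneg_left this (norm_nonneg _)
      calc ‖ρ z.2‖ * |u (z.1 - z.2)| * ‖h z.1‖ ≤ ‖ρ z.2‖ * 1 * ‖h z.1‖ :=
            mul_le_mul_of_nonneg_right h2 (norm_nonneg _)
        _ = ‖h z.1‖ * ‖ρ z.2‖ := by ring
  have h3 : Integrable (Function.uncurry fun t z => ρ t * u z * h (z + t))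
      ((volume : Measure (EuclideanSpace ℝ (Fin n))).prod volume) := by
    refine Integrable.mono' ((hρi.norm.mul_prod hui.norm).mul_const C) ?_ ?_
    · refine Measurable.aestronglyMeasurable ?_
      exact ((hρc.measurable.comp measurable_fst).mul (hu.comp measurable_snd)).mul
        (hh.measurable.comp (measurable_snd.add measurable_fst))
    · refine Eventually.of_forall fun z => ?_
      simp only [Function.uncurry]
      rw [norm_mul, norm_mul]
      exact mul_le_mul_of_nonneg_left (hC _) (by positivity)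
  calc ∫ x, (∫ t, ρ t * u (x - t)) * h x = ∫ x, ∫ t, ρ t * u (x - t) * h x := by
        refine integral_congr_ae (Eventually.of_forall fun x => ?_)
        exact (integral_mul_const _ _).symm
    _ = ∫ t, ∫ x, ρ t * u (x - t) * h x := integral_integral_swap h1
    _ = ∫ t, ∫ z, ρ t * u z * h (z + t) := by
        refine integral_congr_ae (Eventually.of_forall fun t => ?_)
        have := integral_sub_right_eq_self (μ := volume)
          (fun z : EuclideanSpace ℝ (Fin n) => ρ t * u z * h (z + t)) t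
        simp only [sub_add_cancel] at this
        exact this
    _ = ∫ z, ∫ t, ρ t * u z * h (z + t) := integral_integral_swap h3
    _ = ∫ z, u z * ∫ t, ρ t * h (z - t) := by
        refine integral_congr_ae (Eventually.of_forall fun z => ?_)
        show ∫ t, ρ t * u z * h (z + t) = u z * ∫ t, ρ t * h (z - t)
        rw [← integral_const_mul]
        rw [← integral_neg_eq_self (fun t => u z * (ρ t * h (z - t)))]
        refine integral_congr_ae (Eventually.of_forall fun t => ?_)
        show ρ t * u z * h (z + t) = u z * (ρ (-t) * h (z - -t))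
        rw [hρe, sub_neg_eq_add]
        ring

theorem mollify {n : ℕ} {u : EuclideanSpace ℝ (Fin n) → ℝ} (hu : Measurable u)
    (hub : ∀ x, |u x| ≤ 1) {L : Set (EuclideanSpace ℝ (Fin n))} (hL : IsCompact L)
    (hu0 : ∀ x, x ∉ L → u x = 0) :
    ∃ (ν : ℕ → Measure (EuclideanSpace ℝ (Fin n))) (f : ℕ → EuclideanSpace ℝ (Fin n) → ℝ),
      (∀ k, IsProbabilityMeasure (ν k)) ∧
      (∀ k : ℕ, ∀ᵐ y ∂ν k, ‖y‖ < 1 / ((k : ℝ) + 1)) ∧
      (∀ k, ContDiff ℝ ∞ (f k)) ∧ (∀ k x, |f k x| ≤ 1) ∧
      (∀ k x, f k x ≠ 0 → x ∈ Metric.cthickening (1 / ((k : ℝ) + 1)) L) ∧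
      (∀ᵐ x : EuclideanSpace ℝ (Fin n), Tendsto (fun k => f k x) atTop (𝓝 (u x))) ∧
      ∀ (k : ℕ) (w : EuclideanSpace ℝ (Fin n) → ℝ), ContDiff ℝ ∞ w → HasCompactSupport w →
        ContDiff ℝ ∞ (fun x => ∫ y, w (x - y) ∂ν k) ∧
        HasCompactSupport (fun x => ∫ y, w (x - y) ∂ν k) ∧
        ∀ i : Fin n, ∫ x, f k x * fderiv ℝ w x (EuclideanSpace.single i 1) =
          ∫ x, u x * fderiv ℝ (fun x => ∫ y, w (x - y) ∂ν k) x (EuclideanSpace.single i 1) := by
  have hrk : ∀ k : ℕ, (0 : ℝ) < 1 / ((k : ℝ) + 1) := fun k => by positivity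
  let φ : ℕ → ContDiffBump (0 : EuclideanSpace ℝ (Fin n)) := fun k =>
    ⟨1 / ((k : ℝ) + 1) / 2, 1 / ((k : ℝ) + 1), half_pos (hrk k), half_lt_self (hrk k)⟩
  set ρ : ℕ → EuclideanSpace ℝ (Fin n) → ℝ := fun k => (φ k).normed volume with hρ
  have hρc : ∀ k, Continuous (ρ k) := fun k => (φ k).continuous_normed
  have hρs : ∀ k, ContDiff ℝ ∞ (ρ k) := fun k => (φ k).contDiff_normed
  have hρcs : ∀ k, HasCompactSupport (ρ k) := fun k => (φ k).hasCompactSupport_normed
  have hρ0 : ∀ k x, 0 ≤ ρ k x := fun k x => (φ k).nonneg_normed x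
  have hρi : ∀ k, Integrable (ρ k) := fun k => (φ k).integrable_normed
  have hρ1 : ∀ k, ∫ x, ρ k x = 1 := fun k => (φ k).integral_normed
  have hρe : ∀ k x, ρ k (-x) = ρ k x := fun k x => (φ k).normed_neg x
  have hρsupp : ∀ k x, ρ k x ≠ 0 → ‖x‖ < 1 / ((k : ℝ) + 1) := by
    intro k x hx
    have h1 : x ∈ Function.support (ρ k) := hx
    rw [hρ] at h1
    simp only at h1
    rw [(φ k).support_normed_eq, Metric.mem_ball, dist_zero_right] at h1
    exact h1
  have hui : Integrable u := by
    have h1 : IntegrableOn u L := by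
      refine Measure.integrableOn_of_bounded (M := 1) hL.measure_lt_top.ne
        hu.aestronglyMeasurable ?_
      exact Eventually.of_forall fun x => hub x
    refine (integrableOn_iff_integrable_of_support_subset ?_).1 h1
    intro x hx
    by_contra h
    exact hx (hu0 x h)
  have hul : LocallyIntegrable u := hui.locallyIntegrable
  set f : ℕ → EuclideanSpace ℝ (Fin n) → ℝ := fun k =>
    (ρ k ⋆[ContinuousLinearMap.lsmul ℝ ℝ, volume] u) with hf
  have hfx : ∀ k x, f k x = ∫ t, ρ k t * u (x - t) := fun k x => rfl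
  set ν : ℕ → Measure (EuclideanSpace ℝ (Fin n)) := fun k =>
    volume.withDensity fun y => ENNReal.ofReal (ρ k y) with hν
  have hTw : ∀ (k : ℕ) (w : EuclideanSpace ℝ (Fin n) → ℝ),
      (fun x => ∫ y, w (x - y) ∂ν k) = (ρ k ⋆[ContinuousLinearMap.lsmul ℝ ℝ, volume] w) := by
    intro k w
    funext x
    rw [hν]
    simp only
    rw [integral_withDensity_eq_integral_toReal_smul (hρc k).measurable.ennreal_ofReal
      (Eventually.of_forall fun y => ENNReal.ofReal_lt_top)]
    refine integral_congr_ae (Eventually.of_forall fun y => ?_)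
    show (ENNReal.ofReal (ρ k y)).toReal • w (x - y) = _
    rw [ENNReal.toReal_ofReal (hρ0 k y)]
    rfl
  refine ⟨ν, f, fun k => ⟨?_⟩, fun k => ?_, fun k => ?_, fun k x => ?_, fun k x hx => ?_, ?_,
    fun k w hw hwc => ⟨?_, ?_, fun i => ?_⟩⟩
  · rw [hν]
    simp only
    rw [withDensity_apply _ MeasurableSet.univ, Measure.restrict_univ,
      ← ofReal_integral_eq_lintegral_ofReal (hρi k) (Eventually.of_forall (hρ0 k)), hρ1,
      ENNReal.ofReal_one]
  · rw [hν]
    simp only
    rw [ae_withDensity_iff (hρc k).measurable.ennreal_ofReal]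
    refine Eventually.of_forall fun y hy => hρsupp k y fun h => ?_
    rw [h, ENNReal.ofReal_zero] at hy
    exact hy rfl
  · exact (hρcs k).contDiff_convolution_left (ContinuousLinearMap.lsmul ℝ ℝ) (hρs k) hul
  · rw [hfx, ← Real.norm_eq_abs, ← hρ1 k]
    refine norm_integral_le_of_norm_le (hρi k) (Eventually.of_forall fun t => ?_)
    rw [norm_mul, Real.norm_of_nonneg (hρ0 k t)]
    have := hub (x - t)
    rw [Real.norm_eq_abs]
    nlinarith [hρ0 k t]
  · by_contra h
    apply hx
    rw [hfx]
    have h1 : ∀ t, ρ k t * u (x - t) = 0 := by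
      intro t
      by_cases ht : ρ k t = 0
      · rw [ht, zero_mul]
      · rw [hu0 (x - t), mul_zero]
        intro h2
        refine h (Metric.mem_cthickening_of_dist_le x (x - t) _ _ h2 ?_)
        rw [dist_eq_norm, sub_sub_cancel]
        exact (hρsupp k t ht).le
    simp only [h1, integral_zero]
  · refine ContDiffBump.ae_convolution_tendsto_right_of_locallyIntegrable (K := 2) (φ := φ) ?_ ?_
      hul
    · exact tendsto_one_div_add_atTop_nhds_zero_nat
    · refine Eventually.of_forall fun k => ?_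
      show 1 / ((k : ℝ) + 1) ≤ 2 * (1 / ((k : ℝ) + 1) / 2)
      linarith
  · rw [hTw]
    exact (hρcs k).contDiff_convolution_left (ContinuousLinearMap.lsmul ℝ ℝ) (hρs k)
      hw.continuous.locallyIntegrable
  · rw [hTw]
    exact (hρcs k).convolution (ContinuousLinearMap.lsmul ℝ ℝ) hwc
  · rw [hTw]
    set e : EuclideanSpace ℝ (Fin n) := EuclideanSpace.single i 1 with he
    set h : EuclideanSpace ℝ (Fin n) → ℝ := fun x => fderiv ℝ w x e with hh
    have hhc : Continuous h := (hw.continuous_fderiv (by simp)).clm_apply continuous_const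
    have hhs : HasCompactSupport h := hwc.fderiv_apply (𝕜 := ℝ) e
    have hd : ∀ x, fderiv ℝ (ρ k ⋆[ContinuousLinearMap.lsmul ℝ ℝ, volume] w) x e =
        ∫ t, ρ k t * h (x - t) := by
      intro x
      have h1 := hwc.hasFDerivAt_convolution_right (ContinuousLinearMap.lsmul ℝ ℝ)
        (hρc k).locallyIntegrable (μ := volume) (hw.of_le (by simp)) x
      rw [h1.fderiv, convolution_precompR_apply _ (hρc k).locallyIntegrable (hwc.fderiv ℝ)
        (hw.continuous_fderiv (by simp))]
      rfl
    simp only [hd, hfx]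
    exact conv_swap (hρc k) (hρi k) (hρe k) hu hub hui hhc hhs

end Vale.Agent.P219.Co
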