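import Vale.Agent.P219.H817.T13

open MeasureTheory Set Filter Topology Matrix
open scoped ENNReal ContDiff

noncomputable section

namespace Vale.Agent.P219.Co

variable {n : ℕ}

/-- Bounded sets of finite perimeter are limits of smooth functions supported in a fixed compact
set. -/
theorem perimeter_approx_cpt (M : RiemMetric n) {S L₀ : Set (E n)} (hS : MeasurableSet S)
    (hL₀ : IsCompact L₀) (hSL : S ⊆ L₀) (hP : perimeter M S ≠ ⊤) {δ : ℝ} (hδ : 0 < δ) :
    ∃ f : E n → ℝ, ContDiff ℝ 1 f ∧ (∀ x, x ∉ Metric.cthickening 1 L₀ → f x = 0) ∧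
      ∫⁻ x, ENNReal.ofReal (|f x - S.indicator (fun _ => (1 : ℝ)) x| * volDensity M x) ∂leb n
        ≤ ENNReal.ofReal δ ∧ gradMass M f ≤ perimeter M S + ENNReal.ofReal δ := by
  have hlc := leb_compacts n
  set P : ℝ := (perimeter M S).toReal with hPdef
  have hP0 : 0 ≤ P := ENNReal.toReal_nonneg
  set c : ℝ := 1 + δ / (P + 1) with hc
  have hc1 : 1 < c := by
    rw [hc]
    have : 0 < δ / (P + 1) := by positivity
    linarith
  have hcB : c * P ≤ P + δ := by
    have h1 : δ / (P + 1) * P ≤ δ := by
      rw [div_mul_eq_mul_div, div_le_iff₀ (by positivity)]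
      nlinarith
    rw [hc, add_mul, one_mul]
    linarith
  set u : E n → ℝ := S.indicator (fun _ => (1 : ℝ)) with hu
  have hum : Measurable u := measurable_const.indicator hS
  have hu1 : ∀ x, |u x| ≤ 1 := by
    intro x
    by_cases hx : x ∈ S
    · rw [hu, indicator_of_mem hx, abs_one]
    · rw [hu, indicator_of_notMem hx, abs_zero]
      exact zero_le_one
  have hu0 : ∀ x, x ∉ L₀ → u x = 0 := fun x hx => indicator_of_notMem (fun h => hx (hSL h)) _
  obtain ⟨ν, f, hν, hνb, hfs, hf1, hfsupp, hflim, hw⟩ : Mollified u L₀ := mollify hum hu1 hL₀ hu0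
  set L : Set (E n) := Metric.cthickening 1 L₀ with hL
  have hLc : IsCompact L := hL₀.cthickening
  have hf0 : ∀ k x, x ∉ L → f k x = 0 := by
    intro k x hx
    by_contra h
    refine hx (Metric.cthickening_mono ?_ _ (hfsupp k x h))
    rw [div_le_one (by positivity)]
    linarith [(Nat.cast_nonneg k : (0 : ℝ) ≤ k)]
  have hfc : ∀ k, HasCompactSupport (f k) := fun k => HasCompactSupport.intro hLc (hf0 k)
  obtain ⟨ε, hε, hav⟩ := average_norm M hLc hc1
  -- the total variation
  have hgrad : ∀ k : ℕ, 1 / ((k : ℝ) + 1) < ε → gradMass M (f k) ≤ ENNReal.ofReal (P + δ) := by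
    intro k hk
    have hνk := hν k
    refine (gradMass_le_of_flux M (hfs k) (hfc k) (B := c * P) ?_).trans
      (ENNReal.ofReal_le_ofReal hcB)
    intro w hws hw0 hwn
    have hwL : ∀ i x, x ∉ L → w i x = 0 := by
      intro i x hx
      refine hw0 i x fun h => hx ?_
      exact closure_minimal (fun y hy => by
        by_contra h2
        exact hy (hf0 k y h2)) hLc.isClosed h
    have hwc : ∀ i, HasCompactSupport (w i) := fun i => HasCompactSupport.intro hLc (hwL i)
    have hνε : ∀ᵐ y ∂ν k, ‖y‖ < ε := by
      filter_upwards [hνb k] with y hy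
      exact hy.trans hk
    have hnorm := hav (ν k) (hν k) hνε w (fun i => (hws i).continuous) hwL hwn
    set W : Fin n → E n → ℝ := fun i x => ∫ y, w i (x - y) ∂ν k with hW
    have hWs : ∀ i, ContDiff ℝ ∞ (W i) := fun i => (hw k (w i) (hws i) (hwc i)).1
    have hWc : ∀ i, HasCompactSupport (W i) := fun i => (hw k (w i) (hws i) (hwc i)).2.1
    have hWe : ∀ i, ∫ x, f k x * pd i (w i) x ∂leb n = ∫ x, u x * pd i (W i) x ∂leb n := by
      intro i
      have h1 := (hw k (w i) (hws i) (hwc i)).2.2 i
      have e1 : ∀ x, pd i (w i) x = fderiv ℝ (w i) x (EuclideanSpace.single i 1) := fun x =>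
        pd_eq ((hws i).differentiable (by simp) x) i
      have e2 : ∀ x, pd i (W i) x = fderiv ℝ (W i) x (EuclideanSpace.single i 1) := fun x =>
        pd_eq ((hWs i).differentiable (by simp) x) i
      simp only [e1, e2]
      exact h1
    have hflux := flux_le M hP hWs hWc (by linarith : 0 < c) hnorm
    refine le_trans (le_of_eq ?_) hflux
    have e3 : (fun x => f k x * ∑ i, pd i (w i) x) = fun x => ∑ i, f k x * pd i (w i) x :=
      funext fun x => Finset.mul_sum _ _ _
    have e4 : ∀ x, S.indicator (fun x => ∑ i, pd i (W i) x) x = ∑ i, u x * pd i (W i) x := by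
      intro x
      by_cases hx : x ∈ S
      · rw [indicator_of_mem hx, hu, indicator_of_mem hx]
        simp
      · rw [indicator_of_notMem hx, hu, indicator_of_notMem hx]
        simp
    rw [e3, integral_finsetSum, ← integral_indicator hS]
    · simp only [hWe, e4]
      rw [integral_finsetSum]
      intro i _
      have hc2 : Continuous fun x => pd i (W i) x := (pd_contDiff (hWs i) i).continuous
      have h1 : Integrable (fun x => pd i (W i) x) (leb n) :=
        hc2.integrable_of_hasCompactSupport (pd_compact (hWc i) i)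
      have h2 : (fun x => u x * pd i (W i) x) = S.indicator fun x => pd i (W i) x := by
        funext x
        by_cases hx : x ∈ S
        · rw [hu, indicator_of_mem hx, indicator_of_mem hx, one_mul]
        · rw [hu, indicator_of_notMem hx, indicator_of_notMem hx, zero_mul]
      rw [h2]
      exact h1.indicator hS
    · intro i _
      exact ((hfs k).continuous.mul (pd_contDiff (hws i) i).continuous
        ).integrable_of_hasCompactSupport (hfc k).mul_right
  -- the distance to the indicator
  have hdist : Tendsto (fun k => ∫⁻ x, ENNReal.ofReal (|f k x - u x| * volDensity M x) ∂leb n)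
      atTop (𝓝 0) := by
    have h1 : Tendsto (fun k => ∫⁻ x, ENNReal.ofReal (|f k x - u x| * volDensity M x) ∂leb n)
        atTop (𝓝 (∫⁻ _, 0 ∂leb n)) := by
      refine tendsto_lintegral_of_dominated_convergence
        (fun x => L.indicator (fun x => ENNReal.ofReal (2 * volDensity M x)) x) ?_ ?_ ?_ ?_
      · intro k
        exact (((hfs k).continuous.measurable.sub hum).abs.mul
          (volDensity_cont M).measurable).ennreal_ofReal
      · intro k
        refine Eventually.of_forall fun x => ?_
        show ENNReal.ofReal (|f k x - u x| * volDensity M x) ≤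
          L.indicator (fun x => ENNReal.ofReal (2 * volDensity M x)) x
        by_cases hx : x ∈ L
        · rw [indicator_of_mem hx]
          refine ENNReal.ofReal_le_ofReal (mul_le_mul_of_nonneg_right ?_ (volDensity_pos M x).le)
          have h2 := abs_sub (f k x) (u x)
          have h3 := hf1 k x
          have h4 := hu1 x
          linarith
        · rw [indicator_of_notMem hx, hf0 k x hx, hu0 x (fun h =>
            hx (Metric.self_subset_cthickening _ h))]
          simp
      · rw [lintegral_indicator hLc.isClosed.measurableSet]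
        have hint : IntegrableOn (fun x => 2 * volDensity M x) L (leb n) :=
          (continuous_const.mul (volDensity_cont M)).continuousOn.integrableOn_compact hLc
        exact ((hasFiniteIntegral_iff_ofReal (Eventually.of_forall fun x =>
          mul_nonneg zero_le_two (volDensity_pos M x).le)).1 hint.2).ne
      · have hflim' : ∀ᵐ x ∂leb n, Tendsto (fun k => f k x) atTop (𝓝 (u x)) := hflim
        filter_upwards [hflim'] with x hx
        have h2 : Tendsto (fun k => ENNReal.ofReal (|f k x - u x| * volDensity M x)) atTop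
            (𝓝 (ENNReal.ofReal (|u x - u x| * volDensity M x))) :=
          (ENNReal.continuous_ofReal.tendsto _).comp
            (((hx.sub_const (u x)).abs).mul_const (volDensity M x))
        rw [sub_self, abs_zero, zero_mul, ENNReal.ofReal_zero] at h2
        exact h2
    rwa [lintegral_zero] at h1
  have hkk : ∀ᶠ k : ℕ in atTop, 1 / ((k : ℝ) + 1) < ε :=
    tendsto_one_div_add_atTop_nhds_zero_nat.eventually (gt_mem_nhds hε)
  have hδ2 : (0 : ℝ≥0∞) < ENNReal.ofReal δ := by
    rw [ENNReal.ofReal_pos]
    exact hδ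
  obtain ⟨k, hk1, hk2⟩ := (hkk.and (hdist.eventually (gt_mem_nhds hδ2))).exists
  refine ⟨f k, (hfs k).of_le (by simp), hf0 k, hk2.le, ?_⟩
  refine (hgrad k hk1).trans ?_
  rw [ENNReal.ofReal_add hP0 hδ.le, hPdef, ENNReal.ofReal_toReal hP]

/-- Plateau functions close to the indicator, with almost the same total variation. -/
theorem exists_plateau (M : RiemMetric n) {S L : Set (E n)} (hS : MeasurableSet S)
    (hL : IsCompact L) {A : ℝ} (hA : 0 ≤ A)
    (happ : ∀ δ : ℝ, 0 < δ → ∃ f : E n → ℝ, ContDiff ℝ 1 f ∧ (∀ x, x ∉ L → f x = 0) ∧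
      ∫⁻ x, ENNReal.ofReal (|f x - S.indicator (fun _ => (1 : ℝ)) x| * volDensity M x) ∂leb n
        ≤ ENNReal.ofReal δ ∧ gradMass M f ≤ ENNReal.ofReal (A + δ)) {η : ℝ} (hη : 0 < η) :
    ∃ h : E n → ℝ, ContDiff ℝ 1 h ∧ (∀ x, 0 ≤ h x) ∧ (∀ x, h x ≤ 1) ∧
      (∀ x, x ∉ L → h x = 0) ∧ gradMass M h ≤ ENNReal.ofReal (A + η) ∧
      ∫⁻ x, ENNReal.ofReal (|h x - S.indicator (fun _ => (1 : ℝ)) x| * volDensity M x) ∂leb n
        ≤ ENNReal.ofReal η ∧ riemVol M {x | 0 < h x ∧ h x < 1} ≤ ENNReal.ofReal η := by
  -- the width of the step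
  obtain ⟨ε, hε, hε3, hεA⟩ : ∃ ε : ℝ, 0 < ε ∧ 3 * ε < 1 ∧ A + η / 2 < (1 - 3 * ε) * (A + η) := by
    have h1 : 0 < A + η := by linarith
    refine ⟨min (1 / 4) (η / (12 * (A + η))), by positivity, ?_, ?_⟩
    · have := min_le_left (1 / 4 : ℝ) (η / (12 * (A + η)))
      linarith
    · have h2 := min_le_right (1 / 4 : ℝ) (η / (12 * (A + η)))
      have h3 : η / (12 * (A + η)) * (A + η) = η / 12 := by field_simp
      have h4 : min (1 / 4 : ℝ) (η / (12 * (A + η))) * (A + η) ≤ η / 12 := by
        rw [← h3]
        exact mul_le_mul_of_nonneg_right h2 h1.le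
      nlinarith
  obtain ⟨f, hf, hf0, hfd, hfg⟩ := happ (min (η / 2) (ε * η)) (by positivity)
  have hcs : HasCompactSupport f := HasCompactSupport.intro hL hf0
  have hfc := hf.continuous
  obtain ⟨κ, F, hκc, hκ0, hκn, hκe, hF, hF0, hF1, hFn, hFe, hint⟩ := exists_step hε
  -- the family of plateau functions
  set Φ : ℝ → ℝ → ℝ := fun t s => F (s - t) + F (-s - t) with hΦ
  have hΦd : ∀ t s, HasDerivAt (Φ t) (κ (s - t) - κ (-s - t)) s := by
    intro t s
    have h1 : HasDerivAt (fun s => F (s - t)) (κ (s - t)) s := by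
      have := (hF (s - t)).comp s ((hasDerivAt_id s).sub_const t)
      simpa [Function.comp_def] using this
    have h2 : HasDerivAt (fun s => F (-s - t)) (-κ (-s - t)) s := by
      have := (hF (-s - t)).comp s ((hasDerivAt_neg s).sub_const t)
      simpa [Function.comp_def] using this
    have h3 : HasDerivAt (Φ t) (κ (s - t) + -κ (-s - t)) s := h1.add h2
    rwa [← sub_eq_add_neg] at h3
  have hΦc : ∀ t, ContDiff ℝ 1 (Φ t) := by
    intro t
    rw [contDiff_one_iff_deriv]
    refine ⟨fun s => (hΦd t s).differentiableAt, ?_⟩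
    have : deriv (Φ t) = fun s => κ (s - t) - κ (-s - t) := funext fun s => (hΦd t s).deriv
    rw [this]
    fun_prop
  have hΦabs : ∀ t, 0 < t → ∀ s, Φ t s = F (|s| - t) := by
    intro t ht s
    rcases le_total 0 s with h | h
    · rw [abs_of_nonneg h]
      simp only [hΦ]
      rw [hFn (-s - t) (by linarith), add_zero]
    · rw [abs_of_nonpos h]
      simp only [hΦ]
      rw [hFn (s - t) (by linarith), zero_add]
  have hκabs : ∀ t, 0 < t → ∀ s, |κ (s - t) - κ (-s - t)| = κ (|s| - t) := by
    intro t ht s
    rcases le_total 0 s with h | h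
    · rw [abs_of_nonneg h, hκn (-s - t) (by linarith), sub_zero, abs_of_nonneg (hκ0 _)]
    · rw [abs_of_nonpos h, hκn (s - t) (by linarith), zero_sub, abs_neg, abs_of_nonneg (hκ0 _)]
  set g : E n → ℝ≥0∞ := fun x => ENNReal.ofReal (gradNorm M f x * volDensity M x) with hg
  have hgm : Measurable g :=
    ((gradNorm_cont M hf).mul (volDensity_cont M)).measurable.ennreal_ofReal
  have hfdd : Differentiable ℝ f := hf.differentiable one_ne_zero
  have hmass : ∀ t, 0 < t → gradMass M (fun x => Φ t (f x)) =
      ∫⁻ x, ENNReal.ofReal (κ (|f x| - t)) * g x ∂leb n := by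
    intro t ht
    unfold gradMass
    refine lintegral_congr fun x => ?_
    rw [gradNorm_comp M (hfdd x) (hΦd t (f x)), hκabs t ht, mul_assoc, ENNReal.ofReal_mul (hκ0 _)]
  -- a good level
  obtain ⟨t, ht, htm⟩ : ∃ t ∈ Ioo ε (1 - 2 * ε),
      gradMass M (fun x => Φ t (f x)) ≤ ENNReal.ofReal (A + η) := by
    by_contra hcon
    push Not at hcon
    have h1 : ENNReal.ofReal (1 - 3 * ε) * ENNReal.ofReal (A + η) ≤ gradMass M f := by
      calc ENNReal.ofReal (1 - 3 * ε) * ENNReal.ofReal (A + η)
          = ∫⁻ _ in Ioo ε (1 - 2 * ε), ENNReal.ofReal (A + η) := by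
            rw [setLIntegral_const, Real.volume_Ioo, mul_comm]
            congr 2
            ring
        _ ≤ ∫⁻ t in Ioo ε (1 - 2 * ε), ∫⁻ x, ENNReal.ofReal (κ (|f x| - t)) * g x ∂leb n := by
            refine setLIntegral_mono' measurableSet_Ioo fun t ht => ?_
            rw [← hmass t (hε.trans ht.1)]
            exact (hcon t ht).le
        _ ≤ ∫⁻ t, ∫⁻ x, ENNReal.ofReal (κ (|f x| - t)) * g x ∂leb n :=
            setLIntegral_le_lintegral _ _
        _ = ∫⁻ x, (∫⁻ t, ENNReal.ofReal (κ (|f x| - t)) * g x) ∂leb n := by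
            unfold leb
            refine lintegral_lintegral_swap ?_
            refine Measurable.aemeasurable ?_
            have hm1 : Measurable fun p : ℝ × E n => κ (|f p.2| - p.1) := by
              refine Continuous.measurable (hκc.comp ?_)
              exact (hf.continuous.comp continuous_snd).abs.sub continuous_fst
            exact hm1.ennreal_ofReal.mul (hgm.comp measurable_snd)
        _ = gradMass M f := by
            unfold gradMass
            refine lintegral_congr fun x => ?_
            have hm2 : Measurable fun t => ENNReal.ofReal (κ (|f x| - t)) :=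
              (hκc.measurable.comp (measurable_const.sub measurable_id)).ennreal_ofReal
            rw [lintegral_mul_const _ hm2]
            have h3 : ∫⁻ t, ENNReal.ofReal (κ (|f x| - t)) = 1 := by
              rw [lintegral_sub_left_eq_self (fun u => ENNReal.ofReal (κ u)) |f x|, hint]
            rw [h3, one_mul]
    have h2 := h1.trans hfg
    rw [← ENNReal.ofReal_mul (by linarith), ENNReal.ofReal_le_ofReal_iff (by positivity)] at h2
    have h3 := min_le_left (η / 2) (ε * η)
    linarith
  have ht0 : 0 < t := hε.trans ht.1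
  have hval : ∀ x, Φ t (f x) = F (|f x| - t) := fun x => hΦabs t ht0 (f x)
  -- the bad set
  have hm : Measurable fun x => |f x - S.indicator (fun _ => (1 : ℝ)) x| :=
    (hfc.measurable.sub (measurable_const.indicator hS)).abs
  set Bd : Set (E n) := {x | ε ≤ |f x - S.indicator (fun _ => (1 : ℝ)) x|} with hBd
  have hBm : MeasurableSet Bd := measurableSet_le measurable_const hm
  have hbad : riemVol M Bd ≤ ENNReal.ofReal η := by
    have h1 := mul_meas_ge_le_lintegral₀ (μ := muG M) hm.ennreal_ofReal.aemeasurable
      (ENNReal.ofReal ε)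
    have h2 : {x | ENNReal.ofReal ε ≤ ENNReal.ofReal |f x - S.indicator (fun _ => (1 : ℝ)) x|} =
        Bd := by
      ext x
      simp only [hBd, mem_ofPred_eq]
      exact ENNReal.ofReal_le_ofReal_iff (abs_nonneg _)
    rw [h2, muG_apply M hBm, lintegral_muG M hm.ennreal_ofReal] at h1
    have h3 : ∀ x, ENNReal.ofReal |f x - S.indicator (fun _ => (1 : ℝ)) x| *
        ENNReal.ofReal (volDensity M x) =
        ENNReal.ofReal (|f x - S.indicator (fun _ => (1 : ℝ)) x| * volDensity M x) := fun x =>
      (ENNReal.ofReal_mul (abs_nonneg _)).symm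
    simp only [h3] at h1
    have h4 : ENNReal.ofReal ε * riemVol M Bd ≤ ENNReal.ofReal ε * ENNReal.ofReal η := by
      refine h1.trans (hfd.trans ?_)
      rw [← ENNReal.ofReal_mul hε.le]
      exact ENNReal.ofReal_le_ofReal (min_le_right _ _)
    exact (ENNReal.mul_le_mul_iff_right (by simpa using hε) ENNReal.ofReal_ne_top).1 h4
  have hgood : ∀ x, x ∉ Bd → Φ t (f x) = S.indicator (fun _ => (1 : ℝ)) x := by
    intro x hx
    have hx' : |f x - S.indicator (fun _ => (1 : ℝ)) x| < ε := not_le.1 hx
    rw [hval]
    by_cases hxS : x ∈ S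
    · rw [indicator_of_mem hxS] at hx' ⊢
      have h1 := abs_sub_abs_le_abs_sub (1 : ℝ) (f x)
      rw [abs_sub_comm, abs_one] at h1
      have := ht.2
      exact hFe _ (by linarith)
    · rw [indicator_of_notMem hxS, sub_zero] at hx'
      rw [indicator_of_notMem hxS]
      have := ht.1
      exact hFn _ (by linarith)
  refine ⟨fun x => Φ t (f x), (hΦc t).comp hf, fun x => ?_, fun x => ?_, fun x hx => ?_, htm, ?_,
    ?_⟩
  · show 0 ≤ Φ t (f x)
    rw [hval]
    exact hF0 _
  · show Φ t (f x) ≤ 1
    rw [hval]
    exact hF1 _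
  · show Φ t (f x) = 0
    rw [hval, hf0 x hx, abs_zero]
    exact hFn _ (by linarith)
  · calc ∫⁻ x, ENNReal.ofReal (|Φ t (f x) - S.indicator (fun _ => (1 : ℝ)) x| *
          volDensity M x) ∂leb n
        ≤ ∫⁻ x, Bd.indicator (fun x => ENNReal.ofReal (volDensity M x)) x ∂leb n := by
          refine lintegral_mono fun x => ?_
          by_cases hx : x ∈ Bd
          · rw [indicator_of_mem hx]
            refine ENNReal.ofReal_le_ofReal ?_
            have h1 : |Φ t (f x) - S.indicator (fun _ => (1 : ℝ)) x| ≤ 1 := by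
              have h2 : 0 ≤ Φ t (f x) := by rw [hval]; exact hF0 _
              have h3 : Φ t (f x) ≤ 1 := by rw [hval]; exact hF1 _
              have h4 : 0 ≤ S.indicator (fun _ => (1 : ℝ)) x :=
                indicator_nonneg (fun _ _ => zero_le_one) x
              have h5 : S.indicator (fun _ => (1 : ℝ)) x ≤ 1 :=
                indicator_le_self' (fun _ _ => zero_le_one) x
              rw [abs_le]
              constructor <;> linarith
            calc |Φ t (f x) - S.indicator (fun _ => (1 : ℝ)) x| * volDensity M x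
                ≤ 1 * volDensity M x := mul_le_mul_of_nonneg_right h1 (volDensity_pos M x).le
              _ = volDensity M x := one_mul _
          · rw [hgood x hx, sub_self, abs_zero, zero_mul, ENNReal.ofReal_zero]
            exact bot_le
      _ = riemVol M Bd := lintegral_indicator hBm _
      _ ≤ ENNReal.ofReal η := hbad
  · refine (riemVol_mono M fun x hx => ?_).trans hbad
    by_contra hxB
    have h1 := hgood x hxB
    have hx1 : 0 < Φ t (f x) := hx.1
    have hx2 : Φ t (f x) < 1 := hx.2
    by_cases hxS : x ∈ S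
    · rw [indicator_of_mem hxS] at h1
      linarith
    · rw [indicator_of_notMem hxS] at h1
      linarith

end Vale.Agent.P219.Co
end
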