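import Vale.Agent.P219.Bdl.B15

open MeasureTheory Set Filter Topology Metric
open scoped ENNReal ContDiff

noncomputable section

namespace Vale.Agent.P219.N2

open Vale.Agent.P219.TP Vale.Agent.P219.TPH

theorem rB_zero (k c : ℝ) (N : E 2) : rB k c N 0 = 0 := by
  unfold rB rs
  simp [TPH.sn_zero]

theorem rB_half (k c : ℝ) (N v : E 2) : rB k c N v =
    2 * TPH.cs k (‖v‖ / 2) * (rs N v * TPH.cs k (‖v‖ / 2) - c * TPH.sn k (‖v‖ / 2)) := by
  unfold rB
  rw [cs_two, sn_two k ‖v‖]
  ring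

theorem rs_smul (N u : E 2) {t : ℝ} (ht : 0 < t) (hu : ‖u‖ = 1) :
    rs N (t • u) = max 0 (inner ℝ N u) := by
  unfold rs
  rw [norm_smul, hu, mul_one, Real.norm_eq_abs, abs_of_pos ht, smul_smul,
    inv_mul_cancel₀ ht.ne', one_smul]

/-- On each ray the bracket vanishes at most once. -/
theorem rB_ray {k c : ℝ} (hk : 0 ≤ k) (hc : 0 < c) (N : E 2) {u : E 2} (hu : ‖u‖ = 1) {a b : ℝ}
    (ha : 0 < a) (hab : a < b) (h1 : rB k c N (a • u) = 0) (h2 : rB k c N (b • u) = 0) :
    False := by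
  have hb : 0 < b := ha.trans hab
  rw [rB_half, rs_smul N u ha hu] at h1
  rw [rB_half, rs_smul N u hb hu] at h2
  have hna : ‖a • u‖ = a := by rw [norm_smul, hu, mul_one, Real.norm_eq_abs, abs_of_pos ha]
  have hnb : ‖b • u‖ = b := by rw [norm_smul, hu, mul_one, Real.norm_eq_abs, abs_of_pos hb]
  rw [hna] at h1
  rw [hnb] at h2
  have hca : 0 < TPH.cs k (a / 2) := zero_lt_one.trans_le (one_le_cs k _)
  have hcb : 0 < TPH.cs k (b / 2) := zero_lt_one.trans_le (one_le_cs k _)
  have e1 : max 0 (inner ℝ N u) * TPH.cs k (a / 2) = c * TPH.sn k (a / 2) := by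
    rcases mul_eq_zero.1 h1 with h | h
    · linarith
    · linarith
  have e2 : max 0 (inner ℝ N u) * TPH.cs k (b / 2) = c * TPH.sn k (b / 2) := by
    rcases mul_eq_zero.1 h2 with h | h
    · linarith
    · linarith
  have h3 : 0 < TPH.sn k (b / 2 - a / 2) := TPH.sn_pos hk (by linarith)
  rw [h1_sub] at h3
  have h4 : c * TPH.sn k (b / 2) * TPH.cs k (a / 2) = c * TPH.sn k (a / 2) * TPH.cs k (b / 2) := by
    rw [← e1, ← e2]
    ring
  have h5 : c * (TPH.sn k (b / 2) * TPH.cs k (a / 2) - TPH.cs k (b / 2) * TPH.sn k (a / 2)) = 0 := by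
    linarith
  rcases mul_eq_zero.1 h5 with h6 | h6
  · exact hc.ne' h6
  · linarith

/-- The zero set of the bracket is a null set. -/
theorem rB_null {k c : ℝ} (hk : 0 ≤ k) (hc : 0 < c) (N : E 2) :
    ∀ᵐ v : E 2, rB k c N v ≠ 0 := by
  have hZ : MeasurableSet {v : E 2 | rB k c N v = 0} :=
    measurableSet_eq_fun (rmeas_rB N) measurable_const
  rw [ae_iff]
  simp only [ne_eq, not_not]
  rw [← lintegral_indicator_one hZ, polar (n := 2) (by norm_num) (measurable_one.indicator hZ)]
  rw [lintegral_eq_zero_iff']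
  · refine Eventually.of_forall fun u => ?_
    show ∫⁻ r in Ioi (0 : ℝ), ENNReal.ofReal (r ^ (2 - 1)) *
      {v : E 2 | rB k c N v = 0}.indicator 1 (r • (u : E 2)) = 0
    have hu : ‖(u : E 2)‖ = 1 := by simp
    have hsub : (Ioi (0 : ℝ) ∩ {r | rB k c N (r • (u : E 2)) = 0}).Subsingleton := by
      intro a ha b hb
      rcases lt_trichotomy a b with h | h | h
      · exact (rB_ray hk hc N hu ha.1 h ha.2 hb.2).elim
      · exact h
      · exact (rB_ray hk hc N hu hb.1 h hb.2 ha.2).elim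
    have hnull : volume (Ioi (0 : ℝ) ∩ {r | rB k c N (r • (u : E 2)) = 0}) = 0 :=
      hsub.measure_zero _
    have h1 : ∀ᵐ r : ℝ, r ∈ Ioi (0 : ℝ) → ENNReal.ofReal (r ^ (2 - 1)) *
        {v : E 2 | rB k c N v = 0}.indicator 1 (r • (u : E 2)) = 0 := by
      have h2 : ∀ᵐ r : ℝ, r ∉ Ioi (0 : ℝ) ∩ {r | rB k c N (r • (u : E 2)) = 0} := by
        rw [ae_iff]
        simp only [not_not]
        exact hnull
      filter_upwards [h2] with r hr hr0
      have h3 : r • (u : E 2) ∉ {v : E 2 | rB k c N v = 0} := fun h => hr ⟨hr0, h⟩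
      rw [indicator_of_notMem h3, mul_zero]
    rw [setLIntegral_congr_fun_ae measurableSet_Ioi h1, lintegral_zero]
  · refine Measurable.aemeasurable ?_
    refine Measurable.lintegral_prod_right' (f := fun z : sphere (0 : E 2) 1 × ℝ =>
      ENNReal.ofReal (z.2 ^ (2 - 1)) * {v : E 2 | rB k c N v = 0}.indicator 1
        (z.2 • (z.1 : E 2))) ?_
    refine Measurable.mul ?_ ?_
    · exact (measurable_snd.pow_const _).ennreal_ofReal
    · exact (measurable_one.indicator hZ).comp
        (measurable_snd.smul (measurable_subtype_coe.comp measurable_fst))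

/-- From the vanishing of the deficit at one point: the set is the model region, and its boundary
points satisfy the chord relations. -/
theorem rfs_chord {G : Geo 2} {k : ℝ} (hk : 0 ≤ k) (hG : MonoSn G k) {r : ℝ} (hr : 0 < r)
    {p N : E 2} (hN : ‖N‖ = 1) {S : Set (E 2)}
    (hae : ∀ᵐ v : E 2, (G.ex p v ∈ S → rI G k (ct k r) N p v = 0) ∧
      (G.ex p v ∉ S → max 0 (rB k (ct k r) N v) = 0)) {Ω : Set (E 2)}
    (hΩ : Ω = G.ex p '' {v | 0 < rB k (ct k r) N v}) :
    S =ᵐ[volume] Ω ∧ ∀ q ∈ frontier Ω, q ≠ p → rB k (ct k r) N (G.lg p q) = 0 ∧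
      ‖G.lg p q‖ * (G.T p (G.lg p q)).det = TPH.sn k ‖G.lg p q‖ := by
  set c := ct k r with hc
  have hc0 : 0 < c := ct_pos hk hr
  have hkc : k < c := lt_ct hk hr
  set O : Set (E 2) := {v | 0 < rB k c N v} with hO
  have hO0 : ∀ v ∈ O, v ≠ 0 := by
    rintro v hv rfl
    have h1 : 0 < rB k c N 0 := hv
    rw [rB_zero] at h1
    exact lt_irrefl _ h1
  have hBc : ∀ v : E 2, v ≠ 0 → ContinuousAt (rB k c N) v := fun v hv =>
    rcont_rB continuousAt_const continuousAt_id hv
  have hOo : IsOpen O := by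
    rw [isOpen_iff_mem_nhds]
    intro v hv
    exact (hBc v (hO0 v hv)).eventually (lt_mem_nhds hv)
  have hne : ∀ᵐ v : E 2, v ≠ 0 := by
    rw [ae_iff]
    simp only [ne_eq, not_not]
    exact measure_singleton (0 : E 2)
  -- the two terms of the inner deficit
  have hsplit : ∀ v : E 2, v ≠ 0 → rI G k c N p v = 0 →
      ‖v‖ * (G.T p v).det - TPH.sn k ‖v‖ = 0 ∧ 0 ≤ rB k c N v := by
    intro v hv h
    rw [rI_eq] at h
    have h1 := jv_ge hk hG p hv
    have h2 : rs N v * k ≤ 1 * k := mul_le_mul_of_nonneg_right (rs_le hN v) hk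
    have h3 : rB k c N v ≤ max 0 (rB k c N v) := le_max_right _ _
    have h4 : 0 ≤ (c - rs N v * k) * (‖v‖ * (G.T p v).det - TPH.sn k ‖v‖) :=
      mul_nonneg (by linarith) (by linarith)
    have h5 : (c - rs N v * k) * (‖v‖ * (G.T p v).det - TPH.sn k ‖v‖) = 0 := by linarith
    have h6 : max 0 (rB k c N v) = rB k c N v := by linarith
    refine ⟨?_, by rw [← h6]; exact le_max_left _ _⟩
    rcases mul_eq_zero.1 h5 with h7 | h7
    · linarith
    · exact h7
  have hkey : ∀ᵐ v : E 2, (G.ex p v ∈ S ↔ v ∈ O) ∧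
      (v ∈ O → ‖v‖ * (G.T p v).det - TPH.sn k ‖v‖ = 0) := by
    filter_upwards [hae, hne, rB_null hk hc0 N] with v h1 h2 h3
    have h4 : G.ex p v ∈ S ↔ v ∈ O := by
      constructor
      · intro h
        exact lt_of_le_of_ne (hsplit v h2 (h1.1 h)).2 (Ne.symm h3)
      · intro h
        by_contra hcon
        have h5 := h1.2 hcon
        have h6 : 0 < rB k c N v := h
        rw [max_eq_right h6.le] at h5
        exact h6.ne' h5
    exact ⟨h4, fun h => (hsplit v h2 (h1.1 (h4.2 h))).1⟩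
  have hgc : Continuous fun v : E 2 => ‖v‖ * (G.T p v).det - TPH.sn k ‖v‖ :=
    (continuous_norm.mul (rcont_det p)).sub ((contDiff_sn k).continuous.comp continuous_norm)
  have hdet : ∀ v ∈ O, ‖v‖ * (G.T p v).det - TPH.sn k ‖v‖ = 0 := by
    refine rkey (P := fun v => v ∈ O → ‖v‖ * (G.T p v).det - TPH.sn k ‖v‖ = 0)
      (hkey.mono fun v hv => hv.2) hOo (fun v _ => hgc.continuousAt) fun v hv h => h hv
  have hlgc : Continuous fun x : E 2 => G.lg p x :=
    G.lg_smooth.continuous.comp (continuous_const.prodMk continuous_id)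
  have hΩ' : Ω = (fun x => G.lg p x) ⁻¹' O := by
    rw [hΩ]
    ext x
    constructor
    · rintro ⟨v, hv, rfl⟩
      show G.lg p (G.ex p v) ∈ O
      rw [G.lg_ex]
      exact hv
    · intro hx
      exact ⟨G.lg p x, hx, G.ex_lg p x⟩
  have hΩo : IsOpen Ω := by rw [hΩ']; exact hOo.preimage hlgc
  refine ⟨?_, fun q hq hqp => ?_⟩
  · have hexd : Differentiable ℝ (G.ex p) :=
      (G.ex_smooth.comp (contDiff_const.prodMk contDiff_id)).differentiable (by simp)
    have hnull : volume {v : E 2 | ¬ (G.ex p v ∈ S ↔ v ∈ O)} = 0 :=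
      ae_iff.1 (hkey.mono fun v hv => hv.1)
    have himg : volume (G.ex p '' {v : E 2 | ¬ (G.ex p v ∈ S ↔ v ∈ O)}) = 0 :=
      addHaar_image_eq_zero_of_differentiableOn_of_addHaar_eq_zero volume
        hexd.differentiableOn hnull
    have hfin : ∀ᵐ x : E 2, x ∈ S ↔ x ∈ Ω := by
      rw [ae_iff]
      refine measure_mono_null (fun x hx => ?_) himg
      refine ⟨G.lg p x, ?_, G.ex_lg p x⟩
      intro h
      apply hx
      rw [G.ex_lg] at h
      rw [hΩ']
      exact h
    filter_upwards [hfin] with x hx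
    exact propext hx
  · set v := G.lg p q with hv
    have hv0 : v ≠ 0 := by
      intro h0
      apply hqp
      have := G.ex_lg p q
      rw [← hv, h0, G.ex_zero] at this
      exact this.symm
    have hcl : v ∈ closure O := by
      have h1 : q ∈ closure Ω := frontier_subset_closure hq
      rw [hΩ'] at h1
      exact map_mem_closure hlgc h1 fun x hx => hx
    have hnO : v ∉ O := by
      intro h
      have h1 : q ∈ Ω := by rw [hΩ']; exact h
      have h2 : q ∉ interior Ω := hq.2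
      rw [hΩo.interior_eq] at h2
      exact h2 h1
    have hNe : (𝓝[O] v).NeBot := mem_closure_iff_nhdsWithin_neBot.1 hcl
    have h3 : 0 ≤ rB k c N v := by
      refine ge_of_tendsto ((hBc v hv0).tendsto.mono_left (nhdsWithin_le_nhds (s := O))) ?_
      filter_upwards [self_mem_nhdsWithin] with w hw
      exact le_of_lt hw
    have h4 : rB k c N v ≤ 0 := not_lt.1 hnO
    refine ⟨le_antisymm h4 h3, ?_⟩
    have h5 : ‖v‖ * (G.T p v).det - TPH.sn k ‖v‖ = 0 := by
      refine tendsto_nhds_unique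
        ((hgc.tendsto v).mono_left (nhdsWithin_le_nhds (s := O))) ?_
      refine Tendsto.congr' ?_ tendsto_const_nhds
      filter_upwards [self_mem_nhdsWithin] with w hw
      exact (hdet w hw).symm
    linarith

end Vale.Agent.P219.N2
end
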