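import Vale.Agent.P219.H861.BallDom
import Vale.Agent.P219.H817.R6

open MeasureTheory Set Filter Topology Metric
open scoped ENNReal ContDiff

noncomputable section

namespace Vale.Agent.P219.N2

open Vale.Agent.P219.TP Vale.Agent.P219.TPH

/-- The defining function of the model region, in normal coordinates. -/
def PhiB (k r : ℝ) (N v : E 2) : ℝ :=
  End.ff k (‖v‖ ^ 2) * TPH.cs k r - inner ℝ v N * End.chi k (‖v‖ ^ 2) * TPH.sn k r

theorem PhiB_smooth (k r : ℝ) (N : E 2) : ContDiff ℝ ∞ (PhiB k r N) := by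
  unfold PhiB
  have h1 : ContDiff ℝ ∞ fun v : E 2 => ‖v‖ ^ 2 := contDiff_id.norm_sq ℝ
  have h2 : ContDiff ℝ ∞ fun v : E 2 => inner ℝ v N := contDiff_id.inner ℝ contDiff_const
  exact (((End.ff_smooth k).comp h1).mul contDiff_const).sub
    ((h2.mul ((End.chi_smooth k).comp h1)).mul contDiff_const)

theorem PhiB_ray (k r : ℝ) (N : E 2) {u : E 2} (hu : ‖u‖ = 1) (s : ℝ) :
    PhiB k r N (s • u) = End.ff k (s ^ 2) * TPH.cs k r - inner ℝ u N * TPH.sn k s * TPH.sn k r := by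
  unfold PhiB
  have h1 : ‖s • u‖ ^ 2 = s ^ 2 := by rw [norm_smul, hu, mul_one, Real.norm_eq_abs, sq_abs]
  rw [h1, real_inner_smul_left, End.sn_eq_chi k s]
  ring

theorem PhiB_deriv (k r : ℝ) (N : E 2) {u : E 2} (hu : ‖u‖ = 1) (s : ℝ) :
    HasDerivAt (fun s : ℝ => PhiB k r N (s • u))
      (TPH.sn k s * TPH.cs k r - inner ℝ u N * TPH.cs k s * TPH.sn k r) s := by
  have h1 : (fun s : ℝ => PhiB k r N (s • u)) = fun s =>
      End.ff k (s ^ 2) * TPH.cs k r - inner ℝ u N * TPH.sn k s * TPH.sn k r :=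
    funext fun s => PhiB_ray k r N hu s
  rw [h1]
  exact ((End.hasDerivAt_ff k s).mul_const _).sub
    (((TPH.hasDerivAt_sn k s).const_mul _).mul_const _)

/-- The sign of the defining function. -/
theorem PhiB_neg {k r : ℝ} (hk : 0 ≤ k) (hr : 0 < r) (N : E 2) {u : E 2} (hu : ‖u‖ = 1) {s : ℝ}
    (hs : 0 < s) : PhiB k r N (s • u) < 0 ↔ 0 < rB k (ct k r) N (s • u) := by
  have hns : ‖s • u‖ = s := by rw [norm_smul, hu, mul_one, Real.norm_eq_abs, abs_of_pos hs]
  have hsr : 0 < TPH.sn k r := TPH.sn_pos hk hr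
  have hcr : 0 < TPH.cs k r := zero_lt_one.trans_le (one_le_cs k _)
  have hs2 : 0 < TPH.sn k (s / 2) := TPH.sn_pos hk (by linarith)
  have hc2 : 0 < TPH.cs k (s / 2) := zero_lt_one.trans_le (one_le_cs k _)
  rw [PhiB_ray k r N hu, End.ff_sq, rB_half, rs_smul N u hs hu, hns, sn_two k s,
    real_inner_comm]
  set a : ℝ := inner ℝ N u with ha
  have e1 : 2 * TPH.sn k (s / 2) ^ 2 * TPH.cs k r - a * (2 * (TPH.sn k (s / 2) *
      TPH.cs k (s / 2))) * TPH.sn k r = 2 * TPH.sn k (s / 2) * TPH.sn k r *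
      (ct k r * TPH.sn k (s / 2) - a * TPH.cs k (s / 2)) := by
    unfold ct
    field_simp
  rw [e1]
  have hct : 0 < ct k r := ct_pos hk hr
  constructor
  · intro h
    have h1 : ct k r * TPH.sn k (s / 2) - a * TPH.cs k (s / 2) < 0 := by
      by_contra hcon
      have : 0 ≤ 2 * TPH.sn k (s / 2) * TPH.sn k r *
        (ct k r * TPH.sn k (s / 2) - a * TPH.cs k (s / 2)) :=
        mul_nonneg (by positivity) (not_lt.1 hcon)
      linarith
    have h2 : a ≤ max 0 a := le_max_right _ _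
    have h3 : a * TPH.cs k (s / 2) ≤ max 0 a * TPH.cs k (s / 2) :=
      mul_le_mul_of_nonneg_right h2 hc2.le
    exact mul_pos (by positivity) (by linarith)
  · intro h
    have h1 : 0 < max 0 a * TPH.cs k (s / 2) - ct k r * TPH.sn k (s / 2) := by
      by_contra hcon
      have : 2 * TPH.cs k (s / 2) *
        (max 0 a * TPH.cs k (s / 2) - ct k r * TPH.sn k (s / 2)) ≤ 0 :=
        mul_nonpos_of_nonneg_of_nonpos (by positivity) (not_lt.1 hcon)
      linarith
    have h2 : 0 < max 0 a := by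
      by_contra hcon
      have h3 : max 0 a * TPH.cs k (s / 2) ≤ 0 :=
        mul_nonpos_of_nonpos_of_nonneg (not_lt.1 hcon) hc2.le
      have h4 : 0 < ct k r * TPH.sn k (s / 2) := mul_pos hct hs2
      linarith
    have h3 : max 0 a = a := by
      rcases max_choice 0 a with h3 | h3
      · rw [h3] at h2
        exact absurd h2 (lt_irrefl _)
      · exact h3
    rw [h3] at h1
    exact mul_neg_of_pos_of_neg (by positivity) (by linarith)

theorem exists_unit (v : E 2) (hv : v ≠ 0) : ∃ u : E 2, ‖u‖ = 1 ∧ v = ‖v‖ • u := by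
  refine ⟨‖v‖⁻¹ • v, ?_, ?_⟩
  · rw [norm_smul, norm_inv, norm_norm, inv_mul_cancel₀ (norm_ne_zero_iff.2 hv)]
  · rw [smul_smul, mul_inv_cancel₀ (norm_ne_zero_iff.2 hv), one_smul]

theorem PhiB_neg' {k r : ℝ} (hk : 0 ≤ k) (hr : 0 < r) (N v : E 2) :
    PhiB k r N v < 0 ↔ 0 < rB k (ct k r) N v := by
  rcases eq_or_ne v 0 with rfl | hv
  · rw [rB_zero]
    unfold PhiB
    have h1 : End.ff k (‖(0 : E 2)‖ ^ 2) = 0 := by
      rw [End.ff_sq]
      simp [TPH.sn_zero]
    rw [h1]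
    simp
  · obtain ⟨u, hu, hvu⟩ := exists_unit v hv
    rw [hvu]
    exact PhiB_neg hk hr N hu (norm_pos_iff.2 hv)

/-- The model region is bounded. -/
theorem rB_bdd {k r : ℝ} (hk : 0 ≤ k) (hr : 0 < r) {N v : E 2} (hN : ‖N‖ = 1)
    (h : 0 < rB k (ct k r) N v) : ‖v‖ ≤ 2 * r := by
  by_contra hcon
  rw [not_le] at hcon
  have hsr : 0 < TPH.sn k r := TPH.sn_pos hk hr
  have hc2 : 0 < TPH.cs k (‖v‖ / 2) := zero_lt_one.trans_le (one_le_cs k _)
  rw [rB_half] at h
  have h1 : 0 < rs N v * TPH.cs k (‖v‖ / 2) - ct k r * TPH.sn k (‖v‖ / 2) := by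
    by_contra h1
    have : 2 * TPH.cs k (‖v‖ / 2) * (rs N v * TPH.cs k (‖v‖ / 2) - ct k r * TPH.sn k (‖v‖ / 2)) ≤ 0 :=
      mul_nonpos_of_nonneg_of_nonpos (by positivity) (not_lt.1 h1)
    linarith
  have h2 : rs N v * TPH.cs k (‖v‖ / 2) ≤ 1 * TPH.cs k (‖v‖ / 2) :=
    mul_le_mul_of_nonneg_right (rs_le hN v) hc2.le
  have h3 : ct k r * TPH.sn k (‖v‖ / 2) < TPH.cs k (‖v‖ / 2) := by linarith
  have h4 : TPH.cs k r * TPH.sn k (‖v‖ / 2) < TPH.cs k (‖v‖ / 2) * TPH.sn k r := by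
    have h5 := mul_lt_mul_of_pos_right h3 hsr
    have h6 : ct k r * TPH.sn k (‖v‖ / 2) * TPH.sn k r = TPH.cs k r * TPH.sn k (‖v‖ / 2) := by
      unfold ct
      field_simp
    rwa [h6] at h5
  have h7 : 0 < TPH.sn k (‖v‖ / 2 - r) := TPH.sn_pos hk (by linarith)
  rw [h1_sub] at h7
  linarith

end Vale.Agent.P219.N2

namespace Vale.Agent.P219.Co

/-- The model region is a smooth domain. -/
theorem rfs_domain (G : TP.Geo 2) {k : ℝ} (hk : 0 ≤ k) {r : ℝ} (hr : 0 < r) {p N : E 2}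
    (hN : ‖N‖ = 1) :
    ∃ D : SmoothDomain 2, D.carrier = G.ex p '' {v | 0 < N2.rB k (N2.ct k r) N v} := by
  have hsr : 0 < TPH.sn k r := TPH.sn_pos hk hr
  have hsm : ContDiff ℝ ∞ fun x : E 2 => N2.PhiB k r N (G.lg p x) :=
    (N2.PhiB_smooth k r N).comp (BD.lg_contDiff G p)
  have hcar : {x : E 2 | N2.PhiB k r N (G.lg p x) < 0} =
      G.ex p '' {v | 0 < N2.rB k (N2.ct k r) N v} := by
    rw [← BD.eq_image G p]
    ext x
    exact N2.PhiB_neg' hk hr N _
  refine ⟨⟨fun x => N2.PhiB k r N (G.lg p x), hsm, ?_, ?_⟩, hcar⟩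
  · have hK : IsCompact (G.ex p '' Metric.closedBall (0 : E 2) (2 * r)) :=
      (isCompact_closedBall _ _).image (BD.ex_contDiff G p).continuous
    obtain ⟨R, hR⟩ := hK.isBounded.exists_norm_le
    refine ⟨R, fun x hx i => ?_⟩
    have h1 : x ∈ G.ex p '' Metric.closedBall (0 : E 2) (2 * r) :=
      ⟨G.lg p x, by simpa using N2.rB_bdd hk hr hN ((N2.PhiB_neg' hk hr N _).1 hx), G.ex_lg p x⟩
    have h2 : ‖x i‖ ≤ ‖x‖ := PiLp.norm_apply_le x i
    exact (by simpa using h2 : |x i| ≤ ‖x‖).trans (hR x h1)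
  · intro x hx
    by_contra hcon
    push Not at hcon
    have hdf : DifferentiableAt ℝ (fun x : E 2 => N2.PhiB k r N (G.lg p x)) x :=
      (hsm.differentiable (by simp)) x
    have h0 := BD.fderiv_eq_zero hdf hcon
    obtain ⟨u, s, hu, hs0, hxs⟩ : ∃ (u : E 2) (s : ℝ), ‖u‖ = 1 ∧ (0 < s ∨ (s = 0 ∧ u = N)) ∧
        G.lg p x = s • u := by
      rcases eq_or_ne (G.lg p x) 0 with h | h
      · exact ⟨N, 0, hN, Or.inr ⟨rfl, rfl⟩, by rw [h, zero_smul]⟩
      · obtain ⟨u, hu, h2⟩ := N2.exists_unit _ h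
        exact ⟨u, _, hu, Or.inl (norm_pos_iff.2 h), h2⟩
    have hxv : G.ex p (s • u) = x := by rw [← hxs, G.ex_lg]
    have h1 := G.ex_deriv s p u
    have h2 : HasFDerivAt (fun x : E 2 => N2.PhiB k r N (G.lg p x)) (0 : E 2 →L[ℝ] ℝ)
        (G.ex p (s • u)) := by
      rw [hxv, ← h0]
      exact hdf.hasFDerivAt
    have h3 := h2.comp_hasDerivAt s h1
    have h4 : ((fun x : E 2 => N2.PhiB k r N (G.lg p x)) ∘ fun s : ℝ => G.ex p (s • u)) =
        fun s : ℝ => N2.PhiB k r N (s • u) := by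
      funext s
      simp only [Function.comp_apply]
      rw [G.lg_ex]
    rw [h4] at h3
    have h6 := h3.unique (N2.PhiB_deriv k r N hu s)
    simp only [zero_apply] at h6
    have hval : N2.PhiB k r N (s • u) = 0 := by rw [← hxs]; exact hx
    rcases hs0 with hs | ⟨rfl, rfl⟩
    · have hs2 : 0 < TPH.sn k (s / 2) := TPH.sn_pos hk (by linarith)
      have hc2 : 0 < TPH.cs k (s / 2) := zero_lt_one.trans_le (TPH.one_le_cs k _)
      have hcr : 0 < TPH.cs k r := zero_lt_one.trans_le (TPH.one_le_cs k _)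
      rw [N2.PhiB_ray k r N hu, End.ff_sq, N2.sn_two k s] at hval
      have h7 : TPH.cs k s = 2 * TPH.cs k (s / 2) ^ 2 - 1 := by
        have := N2.cs_two k s
        linarith
      rw [h7, N2.sn_two k s] at h6
      set a : ℝ := inner ℝ u N with ha
      have h8 : TPH.sn k (s / 2) * TPH.cs k r = a * TPH.cs k (s / 2) * TPH.sn k r := by
        have h9 : 2 * TPH.sn k (s / 2) * (TPH.sn k (s / 2) * TPH.cs k r -
          a * TPH.cs k (s / 2) * TPH.sn k r) = 0 := by
          linarith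
        rcases mul_eq_zero.1 h9 with h10 | h10
        · linarith
        · linarith
      have h9 : a * TPH.sn k r = 0 := by
        have e1 : 2 * (TPH.sn k (s / 2) * TPH.cs k (s / 2)) * TPH.cs k r =
            2 * TPH.cs k (s / 2) * (a * TPH.cs k (s / 2) * TPH.sn k r) := by
          rw [← h8]
          ring
        rw [e1] at h6
        linarith
      have h10 : 0 < TPH.sn k (s / 2) * TPH.cs k r := mul_pos hs2 hcr
      rw [h8] at h10
      have h11 : a * TPH.cs k (s / 2) * TPH.sn k r = TPH.cs k (s / 2) * (a * TPH.sn k r) := by ring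
      rw [h11, h9, mul_zero] at h10
      exact lt_irrefl _ h10
    · rw [TPH.sn_zero, TPH.cs_zero, real_inner_self_eq_norm_sq, hN] at h6
      linarith

end Vale.Agent.P219.Co
end
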