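import Vale.Agent.P219.H817.R9
import Vale.Agent.P219.H861.Iso
import Vale.Agent.P219.H732.Radial
import Vale.Agent.P219.H907.Cutoff
import Vale.Agent.P219.H156.Lsc

open MeasureTheory Set Filter Topology Metric
open scoped ENNReal ContDiff

noncomputable section

namespace Vale.Agent.P219.Co

variable {n : ℕ}

/-- Smooth cutoffs on the half line. -/
theorem exists_theta {A : ℝ} (hA : 0 < A) (j : ℕ) : ∃ (Θ : ℝ → ℝ) (s : ℝ), ContDiff ℝ ∞ Θ ∧
    Antitone Θ ∧ (∀ t, 0 ≤ Θ t ∧ Θ t ≤ 1) ∧ s < A ∧ (∀ t, s ≤ t → Θ t = 0) ∧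
    ∀ t, t ≤ A * (1 - 2 / ((j : ℝ) + 3)) → Θ t = 1 := by
  have hj : (0 : ℝ) < (j : ℝ) + 3 := by positivity
  set a : ℝ := A * (1 - 2 / ((j : ℝ) + 3)) with ha
  set b : ℝ := A * (1 - 1 / ((j : ℝ) + 3)) with hb
  have hab : a < b := by
    rw [ha, hb]
    have : 1 / ((j : ℝ) + 3) < 2 / ((j : ℝ) + 3) := by gcongr; norm_num
    exact mul_lt_mul_of_pos_left (by linarith) hA
  have hba : 0 < b - a := sub_pos.2 hab
  refine ⟨fun t => Real.smoothTransition ((b - t) / (b - a)), b,
    Real.smoothTransition.contDiff.comp ((contDiff_const.sub contDiff_id).div_const _), ?_,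
    fun t => ⟨Real.smoothTransition.nonneg _, Real.smoothTransition.le_one _⟩, ?_, ?_, ?_⟩
  · intro x y hxy
    refine Real.smoothTransition.monotone ?_
    gcongr
  · rw [hb]
    have : 0 < 1 / ((j : ℝ) + 3) := by positivity
    nlinarith
  · intro t ht
    apply Real.smoothTransition.zero_of_nonpos
    exact div_nonpos_of_nonpos_of_nonneg (by linarith) hba.le
  · intro t ht
    apply Real.smoothTransition.one_of_one_le
    rw [le_div_iff₀ hba]
    linarith

/-- The pull-back of the cutoff. -/
theorem pd_theta817 {Θ : ℝ → ℝ} (hΘ : ContDiff ℝ ∞ Θ) (y : E n) (i : Fin n) :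
    pd i (fun z : E n => Θ (∑ i, z i ^ 2)) y = deriv Θ (∑ i, y i ^ 2) * (2 * y i) := by
  have h1 : HasFDerivAt (fun z : E n => ∑ i, z i ^ 2)
      (∑ i, (2 * y i) • (EuclideanSpace.proj i : E n →L[ℝ] ℝ)) y := by
    refine HasFDerivAt.fun_sum fun j _ => ?_
    have h2 : HasFDerivAt (fun z : E n => z j) (EuclideanSpace.proj j : E n →L[ℝ] ℝ) y :=
      (EuclideanSpace.proj j : E n →L[ℝ] ℝ).hasFDerivAt
    have h3 := h2.pow 2
    simpa using h3
  have h4 : HasDerivAt Θ (deriv Θ (∑ i, y i ^ 2)) (∑ i, y i ^ 2) :=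
    (hΘ.differentiable (by simp) _).hasDerivAt
  have h5 := h4.comp_hasFDerivAt y h1
  have h6 : pd i (fun z : E n => Θ (∑ i, z i ^ 2)) y =
      (deriv Θ (∑ i, y i ^ 2) • ∑ i, (2 * y i) • (EuclideanSpace.proj i : E n →L[ℝ] ℝ))
        (basisVec i) := by
    have h7 : (fun z : E n => Θ (∑ i, z i ^ 2)) = Θ ∘ fun z : E n => ∑ i, z i ^ 2 := rfl
    rw [h7, pd_eq h5.differentiableAt]
    exact congrArg (fun L : E n →L[ℝ] ℝ => L (basisVec i)) h5.fderiv
  rw [h6]
  simp [basisVec, PiLp.single_apply]

theorem iso_vol (hn : 1 ≤ n) {M : RiemMetric n} {K : ℝ} (hK : K ≤ 0) {Ω : Set (E n)} {r : ℝ}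
    (hr : 0 ≤ r) {φ : E n → E n} (h : IsoData M K Ω r φ) :
    riemVol M Ω = ENNReal.ofReal (modelVol n K r) := by
  have h1 := h.lintegral hK fun _ => 1
  simp only [one_mul] at h1
  rw [← model_vol_radial hn hK hr, ← h1]
  rfl

/-- The perimeter of an isometric copy of the geodesic ball of `M_K`. -/
theorem iso_perimeter_le (hn : 2 ≤ n) {M : RiemMetric n} {K : ℝ} (hK : K ≤ 0)
    {Ω : Set (E n)} (hΩ : MeasurableSet Ω) {r : ℝ} (hr : 0 < r) {φ : E n → E n}
    (h : IsoData M K Ω r φ) : perimeter M Ω ≤ ENNReal.ofReal (modelArea n K r) := by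
  have hn1 : 1 ≤ n := by omega
  have hsn : 0 < sn √(-K) r := sn_pos (Real.sqrt_nonneg _) hr
  set A : ℝ := sn √(-K) r ^ 2 with hA
  have hA0 : 0 < A := by positivity
  set Bl : Set (E n) := {y : E n | ∑ i, y i ^ 2 < A} with hBl
  have hcont : Continuous fun y : E n => ∑ i, y i ^ 2 := by fun_prop
  have hBo : IsOpen Bl := isOpen_lt hcont continuous_const
  have hden : ∀ y : E n, 0 < 1 - K * ∑ m, y m ^ 2 := fun y => by
    have : 0 ≤ ∑ m, y m ^ 2 := Finset.sum_nonneg fun _ _ => sq_nonneg _
    nlinarith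
  choose Θ s hΘ hanti h01 hsA h0 h1 using fun j : ℕ => exists_theta hA0 j
  choose f hf hfc hf0 hfφ using fun j : ℕ => h.cutoff hK (hΘ j) (hsA j) (h0 j)
  have hfnn : ∀ j x, 0 ≤ f j x := by
    intro j x
    by_cases hx : x ∈ Ω
    · rw [← h.image] at hx
      obtain ⟨y, hy, rfl⟩ := hx
      rw [hfφ j y hy]
      exact (h01 j _).1
    · rw [hf0 j x hx]
  refine perimeter_le_of_lim M hΩ hf hfc ?_ fun δ hδ => Eventually.of_forall fun j => ?_
  · -- convergence in `L¹`
    have e1 : ∀ j, ∫⁻ x, ENNReal.ofReal (|f j x - Ω.indicator (fun _ => (1 : ℝ)) x| *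
        volDensity M x) ∂leb n = ∫⁻ y in Bl, ENNReal.ofReal |Θ j (∑ i, y i ^ 2) - 1| *
          ENNReal.ofReal (1 / √(1 - K * ∑ m, y m ^ 2)) ∂leb n := by
      intro j
      have e2 : ∫⁻ x, ENNReal.ofReal (|f j x - Ω.indicator (fun _ => (1 : ℝ)) x| *
          volDensity M x) ∂leb n = ∫⁻ x in Ω, ENNReal.ofReal |f j x - 1| *
            ENNReal.ofReal (volDensity M x) ∂leb n := by
        rw [← lintegral_indicator hΩ]
        refine lintegral_congr fun x => ?_
        by_cases hx : x ∈ Ω
        · rw [indicator_of_mem hx, indicator_of_mem hx, ENNReal.ofReal_mul (abs_nonneg _)]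
        · rw [indicator_of_notMem hx, indicator_of_notMem hx, hf0 j x hx]
          simp
      rw [e2, h.lintegral hK fun x => ENNReal.ofReal |f j x - 1|]
      refine setLIntegral_congr_fun hBo.measurableSet fun y hy => ?_
      rw [hfφ j y hy]
    simp only [e1]
    have hmeas : ∀ j, Measurable fun y : E n => ENNReal.ofReal |Θ j (∑ i, y i ^ 2) - 1| *
        ENNReal.ofReal (1 / √(1 - K * ∑ m, y m ^ 2)) := by
      intro j
      have h4 : Measurable fun y : E n => ENNReal.ofReal |Θ j (∑ i, y i ^ 2) - 1| :=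
        (((hΘ j).continuous.comp hcont).sub continuous_const).abs.measurable.ennreal_ofReal
      have h5 : Measurable fun y : E n => √(1 - K * ∑ m, y m ^ 2) :=
        (by fun_prop : Continuous fun y : E n => √(1 - K * ∑ m, y m ^ 2)).measurable
      exact h4.mul (measurable_const.div h5).ennreal_ofReal
    have h2 := tendsto_lintegral_of_dominated_convergence (μ := (leb n).restrict Bl)
      (F := fun j (y : E n) => ENNReal.ofReal |Θ j (∑ i, y i ^ 2) - 1| *
        ENNReal.ofReal (1 / √(1 - K * ∑ m, y m ^ 2))) (f := fun _ => 0)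
      (fun y : E n => ENNReal.ofReal (1 / √(1 - K * ∑ m, y m ^ 2))) hmeas ?_ ?_ ?_
    · rwa [lintegral_zero] at h2
    · intro j
      refine Eventually.of_forall fun y => ?_
      show ENNReal.ofReal |Θ j (∑ i, y i ^ 2) - 1| *
        ENNReal.ofReal (1 / √(1 - K * ∑ m, y m ^ 2)) ≤ ENNReal.ofReal (1 / √(1 - K * ∑ m, y m ^ 2))
      have h3 : |Θ j (∑ i, y i ^ 2) - 1| ≤ 1 := by
        obtain ⟨h4, h5⟩ := h01 j (∑ i, y i ^ 2)
        rw [abs_le]
        constructor <;> linarith
      calc ENNReal.ofReal |Θ j (∑ i, y i ^ 2) - 1| *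
            ENNReal.ofReal (1 / √(1 - K * ∑ m, y m ^ 2))
          ≤ 1 * ENNReal.ofReal (1 / √(1 - K * ∑ m, y m ^ 2)) := by
            gcongr
            exact ENNReal.ofReal_le_one.2 h3
        _ = _ := one_mul _
    · have h3 := model_vol_radial (n := n) hn1 hK hr.le
      rw [h3]
      exact ENNReal.ofReal_ne_top
    · rw [ae_restrict_iff' hBo.measurableSet]
      refine Eventually.of_forall fun y hy => ?_
      have hy' : ∑ i, y i ^ 2 < A := hy
      have h4 : Tendsto (fun j : ℕ => A * (1 - 2 / ((j : ℝ) + 3))) atTop (𝓝 (A * (1 - 0))) := by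
        have h5 : Tendsto (fun j : ℕ => 2 / ((j : ℝ) + 3)) atTop (𝓝 0) :=
          tendsto_const_nhds.div_atTop
            (tendsto_atTop_add_const_right _ _ tendsto_natCast_atTop_atTop)
        exact (tendsto_const_nhds.sub h5).const_mul A
      rw [sub_zero, mul_one] at h4
      refine tendsto_const_nhds.congr' ?_
      filter_upwards [h4.eventually (lt_mem_nhds hy')] with j hj
      rw [h1 j _ hj.le]
      simp
  · -- the total variation
    have hgm : gradMass M (f j) ≤ ENNReal.ofReal (modelArea n K r) := by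
      have hout : ∀ x, x ∉ Ω → gradNorm M (f j) x = 0 := by
        intro x hx
        have hmin : IsLocalMin (f j) x := Eventually.of_forall fun z => by
          show f j x ≤ f j z
          rw [hf0 j x hx]
          exact hfnn j z
        have hpd : ∀ i, pd i (f j) x = 0 := by
          intro i
          rw [pd_eq ((hf j).differentiable one_ne_zero x), hmin.fderiv_eq_zero]
          rfl
        unfold gradNorm
        have : (fun i => pd i (f j) x) = 0 := funext hpd
        rw [this]
        simp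
      have e1 : gradMass M (f j) = ∫⁻ x in Ω, ENNReal.ofReal (gradNorm M (f j) x) *
          ENNReal.ofReal (volDensity M x) ∂leb n := by
        unfold gradMass
        rw [← lintegral_indicator hΩ]
        refine lintegral_congr fun x => ?_
        by_cases hx : x ∈ Ω
        · rw [indicator_of_mem hx, ENNReal.ofReal_mul (gradNorm_nonneg M (f j) x)]
        · rw [indicator_of_notMem hx, hout x hx, zero_mul, ENNReal.ofReal_zero]
      rw [e1, h.lintegral hK fun x => ENNReal.ofReal (gradNorm M (f j) x)]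
      refine le_trans ?_ (model_grad_radial hn hK hr (hΘ j) (hanti j) (h01 j) (hsA j) (h0 j))
      refine le_trans (le_of_eq ?_) (setLIntegral_le_lintegral Bl _)
      refine setLIntegral_congr_fun hBo.measurableSet fun y hy => ?_
      have hq : ∀ i, pd i (fun z => f j (φ z)) y =
          deriv (Θ j) (∑ i, y i ^ 2) * (2 * y i) := by
        intro i
        rw [← pd_theta817 (hΘ j) y i]
        unfold pd
        refine Filter.EventuallyEq.lineDeriv_eq ?_
        filter_upwards [hBo.mem_nhds hy] with z hz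
        exact hfφ j z hz
      have hg := h.gradNorm hK hy ((hf j).differentiable one_ne_zero (φ y)) hq
      show ENNReal.ofReal (gradNorm M (f j) (φ y)) *
        ENNReal.ofReal (1 / √(1 - K * ∑ m, y m ^ 2)) =
        ENNReal.ofReal (2 * |deriv (Θ j) (∑ i, y i ^ 2)| * √(∑ i, y i ^ 2))
      rw [hg, ← ENNReal.ofReal_mul (Real.sqrt_nonneg _)]
      congr 1
      set T := deriv (Θ j) (∑ i, y i ^ 2) with hT
      set ρ := ∑ i, y i ^ 2 with hρ
      have hρ0 : 0 ≤ ρ := Finset.sum_nonneg fun _ _ => sq_nonneg _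
      have e2 : ∑ i, (T * (2 * y i)) ^ 2 = 4 * T ^ 2 * ρ := by
        rw [hρ, Finset.mul_sum]
        exact Finset.sum_congr rfl fun i _ => by ring
      have e3 : ∑ i, y i * (T * (2 * y i)) = 2 * T * ρ := by
        rw [hρ, Finset.mul_sum]
        exact Finset.sum_congr rfl fun i _ => by ring
      have e4 : ∑ i, (T * (2 * y i)) ^ 2 - K * (∑ i, y i * (T * (2 * y i))) ^ 2 =
          (2 * |T|) ^ 2 * (ρ * (1 - K * ρ)) := by
        rw [e2, e3, mul_pow 2 |T|, sq_abs]
        ring
      rw [e4, Real.sqrt_mul (sq_nonneg _), Real.sqrt_sq (by positivity),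
        Real.sqrt_mul hρ0]
      have h6 : 0 < √(1 - K * ρ) := Real.sqrt_pos.2 (hden y)
      field_simp
    exact hgm.trans le_self_add

theorem perimeter_empty (M : RiemMetric n) : perimeter M ∅ = 0 := by
  unfold perimeter
  simp

/-- Isometric copies of the geodesic balls of `M_K` have the volume of the ball, and their
perimeter is at most its boundary area. -/
theorem iso_equality (hn : 2 ≤ n) {K : ℝ} (hK : K ≤ 0) (M : RiemMetric n) (D : SmoothDomain n)
    {r : ℝ} (hr : 0 ≤ r) (hI : IsometricToBallK M K D r) :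
    riemVol M D.carrier = ENNReal.ofReal (modelVol n K r) ∧
      perimeter M D.carrier ≤ ENNReal.ofReal (modelArea n K r) := by
  obtain ⟨φ, h⟩ := hI.data
  have hD : MeasurableSet D.carrier :=
    (isOpen_lt D.smooth.continuous continuous_const).measurableSet
  refine ⟨iso_vol (by omega) hK hr h, ?_⟩
  rcases hr.eq_or_lt with rfl | hr0
  · have hempty : D.carrier = ∅ := by
      rw [← h.image]
      have h0 : {y : E n | ∑ i, y i ^ 2 < sn √(-K) 0 ^ 2} = ∅ := by
        rw [eq_empty_iff_forall_notMem]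
        intro y hy
        have hy' : ∑ i, y i ^ 2 < sn √(-K) 0 ^ 2 := hy
        have hs0 : sn √(-K) 0 = 0 := by
          unfold sn
          split_ifs <;> simp
        rw [hs0] at hy'
        have : 0 ≤ ∑ i, y i ^ 2 := Finset.sum_nonneg fun _ _ => sq_nonneg _
        linarith
      rw [h0, image_empty]
    rw [hempty, perimeter_empty]
    exact bot_le
  · exact iso_perimeter_le hn hK hD hr0 h

/-- **The isoperimetric inequality with its equality case, for all measurable sets of finite
volume.** -/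
theorem isop_rigid (hn : 2 ≤ n) {K : ℝ} (hK : K ≤ 0) (M : RiemMetric n)
    (hM : GeodesicallyComplete M) (hs : SecLE M K) {S : Set (E n)} (hS : MeasurableSet S)
    (hfin : riemVol M S ≠ ⊤) :
    ∃ r : ℝ, 0 ≤ r ∧ riemVol M S = ENNReal.ofReal (modelVol n K r) ∧
      ENNReal.ofReal (modelArea n K r) ≤ perimeter M S ∧
      (perimeter M S = ENNReal.ofReal (modelArea n K r) ↔
        ∃ D : SmoothDomain n, S =ᵐ[leb n] D.carrier ∧ IsometricToBallK M K D r) := by
  obtain ⟨r, hr, hV, hP⟩ := isop_all hn hK M hM hs hS hfin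
  refine ⟨r, hr, hV, hP, fun h => ?_, ?_⟩
  · rcases hr.eq_or_lt with rfl | hr0
    · have hVz : riemVol M S = 0 := by
        rw [hV, modelVol_zero, ENNReal.ofReal_zero]
      have hnull : leb n S = 0 := riemVol_null M hVz
      let D : SmoothDomain n :=
        { ρ := fun _ => 1
          smooth := contDiff_const
          bdd := ⟨0, fun x hx => absurd hx (by norm_num)⟩
          regular := fun x hx => absurd hx (by norm_num) }
      have hD : D.carrier = ∅ := by
        rw [eq_empty_iff_forall_notMem]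
        intro x hx
        have : (1 : ℝ) < 0 := hx
        linarith
      refine ⟨D, ?_, rcc_radius_zero M D ?_⟩
      · rw [hD]
        exact ae_eq_empty.2 hnull
      · rw [hD, modelVol_zero, ENNReal.ofReal_zero]
        unfold riemVol
        simp
    · exact rig_all hn hK M hM hs hS hr0 hV h.le
  · rintro ⟨D, hD, hI⟩
    refine le_antisymm ?_ hP
    refine le_trans (le_of_eq ?_) (iso_equality hn hK M D hr hI).2
    unfold perimeter
    refine iSup_congr fun X => iSup_congr fun hX => ?_
    rw [setIntegral_congr_set hD]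

end Vale.Agent.P219.Co
end
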