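import Vale.Agent.P219.H817.R1

open MeasureTheory Set Filter Topology Matrix
open scoped ENNReal ContDiff

noncomputable section

namespace Vale.Agent.P219.SA

variable {n : ℕ}

/-- A sequence of plateau functions approaching equality in the isoperimetric inequality: the
limit of the measures `|dh_j| dvol` sits on a geodesic sphere. -/
theorem rig_seq (hn : 2 ≤ n) {k : ℝ} (hk : 0 ≤ k) (FI : TPH.FuncIso n k) (LR : LimRig n k)
    (G : TP.Geo n) (hcurv : TPH.MonoSn G k) {ρ : ℝ} (hρ : 0 < ρ) {r : ℝ} (hr : 0 < r)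
    {h : ℕ → TP.E n → ℝ} (hcls : ∀ j, G.Cls 0 ρ (h j))
    (hper : ∀ δ : ℝ, 0 < δ → ∀ᶠ j in atTop, G.per (h j) ≤ TPH.AR n k r + δ)
    (hv1 : Tendsto (fun j => TPH.V1 G (h j)) atTop (𝓝 (TPH.VR n k r)))
    (hlay : Tendsto (fun j => G.vol.real {x | 0 < h j x ∧ h j x < 1}) atTop (𝓝 0)) :
    ∃ (c : TP.E n) (U : Ultrafilter ℕ), (U : Filter ℕ) ≤ atTop ∧
      ∀ φ : TP.E n → ℝ, Continuous φ → (∀ x, ‖G.lg c x‖ = r → φ x = 0) →
        Tendsto (fun j => ∫ x, φ x * ‖G.D (h j) x‖ ∂G.vol) U (𝓝 0) := by
  have hn1 : 1 ≤ n := by omega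
  have hVpos : 0 < TPH.VR n k r := by
    have h1 := TPH.VR_strictMonoOn (k := k) hn1 hk (mem_Ici.2 le_rfl) (mem_Ici.2 hr.le) hr
    rwa [TPH.VR_zero] at h1
  have hApos : 0 < TPH.AR n k r := TPH.AR_pos hn1 hk hr
  obtain ⟨I, hImono, hIcont, hI0, hIz, hIR, hId⟩ := TPH.exists_profile (n := n) (k := k) hn hk
  have hinf : ∀ g, G.Cls 0 ρ g → 0 ≤ G.per g - I (TPH.V1 G g) := by
    intro g hg
    obtain ⟨R', hR', hVR⟩ := TPH.exists_VR (n := n) (k := k) hn1 hk (TPH.sliceh_V1_nonneg G g)
    have h1 := FI G hcurv g hg.smooth (TP.slice_hcs G hg) (fun x => ⟨hg.nonneg x, hg.le_one x⟩) R'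
      hR' hVR.le
    rw [← hVR, hIR R' hR']
    linarith only [h1]
  have hIV : Tendsto (fun j => I (TPH.V1 G (h j))) atTop (𝓝 (TPH.AR n k r)) := by
    rw [← hIR r hr.le]
    have h3 : Tendsto (fun j => TPH.V1 G (h j)) atTop (𝓝[Ici 0] (TPH.VR n k r)) :=
      tendsto_nhdsWithin_iff.2 ⟨hv1, Eventually.of_forall fun j => TPH.sliceh_V1_nonneg G (h j)⟩
    exact (hIcont (TPH.VR n k r) hVpos.le).tendsto.comp h3
  have hpl : Tendsto (fun j => G.per (h j)) atTop (𝓝 (TPH.AR n k r)) := by
    rw [Metric.tendsto_atTop]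
    intro δ hδ
    have h1 := hper (δ / 2) (by positivity)
    have h2 := hIV.eventually (lt_mem_nhds
      (show TPH.AR n k r - δ < TPH.AR n k r by linarith only [hδ]))
    obtain ⟨N, hN⟩ := eventually_atTop.1 (h1.and h2)
    refine ⟨N, fun j hj => ?_⟩
    obtain ⟨h3, h4⟩ := hN j hj
    have h5 := hinf (h j) (hcls j)
    rw [Real.dist_eq, abs_lt]
    constructor
    · linarith only [h5, h4]
    · have : G.per (h j) ≤ TPH.AR n k r + δ / 2 := h3
      linarith only [hδ, this]
  obtain ⟨C, hC⟩ := hpl.bddAbove_range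
  have hC' : ∀ j, G.per (h j) ≤ C := fun j => hC ⟨j, rfl⟩
  set U : Ultrafilter ℕ := Ultrafilter.of atTop with hUdef
  have hU : (U : Filter ℕ) ≤ atTop := Ultrafilter.of_le atTop
  have hlim0 : Tendsto (fun j => G.per (h j) - I (TPH.V1 G (h j))) U (𝓝 0) := by
    have h1 := hpl.sub hIV
    rw [sub_self] at h1
    exact h1.mono_left hU
  have hm : MinSeq G 0 ρ I 0 (TPH.VR n k r) U h :=
    ⟨hcls, hinf, hlim0, hlay.mono_left hU, hv1.mono_left hU⟩
  obtain ⟨V, hVl⟩ := exists_isLim G hcls hC' U
  have hmass : V.real univ = TPH.AR n k r := by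
    have h1 := mass_eq G hIcont hVpos.le hm hVl
    rw [h1, hIR r hr.le, zero_add]
  obtain ⟨c, hc⟩ := LR G hcurv 0 ρ I r U h V hρ hr hU hImono hIcont hI0 hIz hIR
    (hId r hr) hm hVl (by rw [hmass]; exact hApos) hmass.le
  refine ⟨c, U, hU, fun φ hφ hφ0 => ?_⟩
  have hl := hVl.lim (fun z => φ z.1) (hφ.comp continuous_fst).continuousOn
  have hz : ∫ z, φ z.1 ∂V = 0 := by
    rw [integral_congr_ae (g := fun _ => (0 : ℝ))]
    · simp
    · filter_upwards [hc] with z hz
      exact hφ0 _ hz
  rw [hz] at hl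
  exact hl

end Vale.Agent.P219.SA

namespace Vale.Agent.P219.Co

variable {n : ℕ}

/-- Transfer to the geometry. -/
theorem per_eq (M : RiemMetric n) (e : Fin n → E n → E n)
    (he : Vale.Agent.P219.TriangularFrame (old M) e) (hs : Vale.Agent.P219.SecLE (old M) 0)
    (F : CH.GFlow (old M).g) {h : E n → ℝ} (hh : ContDiff ℝ 1 h) :
    (CH.toGeo (old M) e he hs F).per h = (gradMass M h).toReal := by
  have hd : Differentiable ℝ h := hh.differentiable one_ne_zero
  unfold TP.Geo.per
  rw [CH.integral_vol he hs F]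
  simp only [CH.norm_D_eq he hs F, gradNorm_old (frame_of_old he) hd, volDensity_old]
  rw [integral_eq_lintegral_of_nonneg_ae (Eventually.of_forall fun x =>
    mul_nonneg (gradNorm_nonneg M h x) (volDensity_pos M x).le)
    ((gradNorm_cont M hh).mul (volDensity_cont M)).aestronglyMeasurable]
  rfl

theorem integral_D_eq (M : RiemMetric n) (e : Fin n → E n → E n)
    (he : Vale.Agent.P219.TriangularFrame (old M) e) (hs : Vale.Agent.P219.SecLE (old M) 0)
    (F : CH.GFlow (old M).g) {h : E n → ℝ} (hh : ContDiff ℝ 1 h) (φ : E n → ℝ) :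
    ∫ x, φ x * ‖(CH.toGeo (old M) e he hs F).D h x‖ ∂(CH.toGeo (old M) e he hs F).vol =
      ∫ x, φ x * gradNorm M h x * volDensity M x ∂leb n := by
  have hd : Differentiable ℝ h := hh.differentiable one_ne_zero
  rw [CH.integral_vol he hs F]
  simp only [CH.norm_D_eq he hs F, gradNorm_old (frame_of_old he) hd, volDensity_old]
  rfl

theorem vol_co_apply (M : RiemMetric n) (e : Fin n → E n → E n)
    (he : Vale.Agent.P219.TriangularFrame (old M) e) (hs : Vale.Agent.P219.SecLE (old M) 0)
    (F : CH.GFlow (old M).g) {S : Set (E n)} (hS : MeasurableSet S) :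
    (CH.toGeo (old M) e he hs F).vol S = riemVol M S := by
  rw [CH.x817_vol_apply he hs F hS, riemVol_old]

/-- In the equality case the distributional derivatives of the indicator function vanish outside
a geodesic sphere. -/
theorem rig_center (hn : 2 ≤ n) {k κ : ℝ} (hk : 0 ≤ k)
    (hVM : ∀ r, modelVol n κ r = TPH.VR n k r) (hAM : ∀ r, modelArea n κ r = TPH.AR n k r)
    (FI : TPH.FuncIso n k) (LR : SA.LimRig n k) (M : RiemMetric n) (e : Fin n → E n → E n)
    (he : Vale.Agent.P219.TriangularFrame (old M) e) (hs : Vale.Agent.P219.SecLE (old M) 0)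
    (F : CH.GFlow (old M).g) (hcurv : TPH.MonoSn (CH.toGeo (old M) e he hs F) k)
    {S L₀ : Set (E n)} (hS : MeasurableSet S) (hL₀ : IsCompact L₀) (hSL : S ⊆ L₀) {r : ℝ}
    (hr : 0 < r) (hV : riemVol M S = ENNReal.ofReal (modelVol n κ r))
    (hP : perimeter M S ≤ ENNReal.ofReal (modelArea n κ r)) :
    ∃ c : E n, ∀ w : E n → ℝ, ContDiff ℝ ∞ w → HasCompactSupport w →
      (∀ x, ‖(CH.toGeo (old M) e he hs F).lg c x‖ = r → w x = 0) → ∀ i,
      ∫ x, S.indicator (fun _ => (1 : ℝ)) x * pd i w x ∂leb n = 0 := by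
  have hlc := leb_compacts n
  have hn1 : 1 ≤ n := by omega
  set G := CH.toGeo (old M) e he hs F with hG
  have hA0 : 0 < modelArea n κ r := modelArea_pos hn1 κ hr
  have hPt : perimeter M S ≠ ⊤ := ne_top_of_le_ne_top ENNReal.ofReal_ne_top hP
  set L : Set (E n) := Metric.cthickening 1 L₀ with hL
  have hLc : IsCompact L := hL₀.cthickening
  -- the plateau functions
  have happ : ∀ δ : ℝ, 0 < δ → ∃ f : E n → ℝ, ContDiff ℝ 1 f ∧ (∀ x, x ∉ L → f x = 0) ∧
      ∫⁻ x, ENNReal.ofReal (|f x - S.indicator (fun _ => (1 : ℝ)) x| * volDensity M x) ∂leb n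
        ≤ ENNReal.ofReal δ ∧ gradMass M f ≤ ENNReal.ofReal (modelArea n κ r + δ) := by
    intro δ hδ
    obtain ⟨f, h1, h2, h3, h4⟩ := perimeter_approx_cpt M hS hL₀ hSL hPt hδ
    refine ⟨f, h1, h2, h3, h4.trans ?_⟩
    rw [ENNReal.ofReal_add hA0.le hδ.le]
    gcongr
  have hη : ∀ j : ℕ, (0 : ℝ) < 1 / ((j : ℝ) + 1) := fun j => by positivity
  choose h hh h0 h1 hL0 hg hd hlay using fun j : ℕ =>
    exists_plateau M hS hLc hA0.le happ (hη j)
  have hη0 : Tendsto (fun j : ℕ => 1 / ((j : ℝ) + 1)) atTop (𝓝 0) :=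
    tendsto_one_div_add_atTop_nhds_zero_nat
  have hcs : ∀ j, HasCompactSupport (h j) := fun j => HasCompactSupport.intro hLc (hL0 j)
  -- the class
  have hlgc : Continuous fun x => ‖G.lg 0 x‖ :=
    (G.lg_smooth.continuous.comp (continuous_const.prodMk continuous_id)).norm
  obtain ⟨B, hB⟩ := (hLc.image hlgc).bddAbove
  have hρ : 0 < max B 1 := lt_of_lt_of_le one_pos (le_max_right _ _)
  have hcls : ∀ j, G.Cls 0 (max B 1) (h j) := by
    intro j
    refine ⟨hh j, h0 j, h1 j, fun x hx => ?_⟩
    have hxL : x ∈ L := by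
      by_contra hc
      exact hx (hL0 j x hc)
    exact (hB ⟨x, hxL, rfl⟩).trans (le_max_left _ _)
  -- volumes
  have hVr0 : 0 ≤ modelVol n κ r := by
    rw [← modelVol_zero (n := n) κ]
    exact modelVol_mono κ hn1 le_rfl hr.le
  have hmeas1 : ∀ j, MeasurableSet {x | h j x = 1} := fun j =>
    (isClosed_eq (hh j).continuous continuous_const).measurableSet
  have hmeas2 : ∀ j, MeasurableSet {x | 0 < h j x ∧ h j x < 1} := fun j =>
    ((isOpen_lt continuous_const (hh j).continuous).inter
      (isOpen_lt (hh j).continuous continuous_const)).measurableSet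
  have hlayer : ∀ j, G.vol.real {x | 0 < h j x ∧ h j x < 1} ≤ 1 / ((j : ℝ) + 1) := by
    intro j
    rw [Measure.real, hG, vol_co_apply M e he hs F (hmeas2 j)]
    exact ENNReal.toReal_le_of_le_ofReal (hη j).le (hlay j)
  have hlay0 : Tendsto (fun j => G.vol.real {x | 0 < h j x ∧ h j x < 1}) atTop (𝓝 0) :=
    squeeze_zero (fun j => measureReal_nonneg) hlayer hη0
  have hmain : ∀ j, riemVol M {x | h j x = 1} ≤ riemVol M S + ENNReal.ofReal (1 / ((j : ℝ) + 1)) ∧
      riemVol M S ≤ riemVol M {x | h j x = 1} + ENNReal.ofReal (1 / ((j : ℝ) + 1)) +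
        ENNReal.ofReal (1 / ((j : ℝ) + 1)) := by
    intro j
    have hm : Measurable fun x => |h j x - S.indicator (fun _ => (1 : ℝ)) x| :=
      ((hh j).continuous.measurable.sub (measurable_const.indicator hS)).abs
    set Bd : Set (E n) := {x | 1 ≤ |h j x - S.indicator (fun _ => (1 : ℝ)) x|} with hBd
    have hBm : MeasurableSet Bd := measurableSet_le measurable_const hm
    have hbad : riemVol M Bd ≤ ENNReal.ofReal (1 / ((j : ℝ) + 1)) := by
      refine le_trans ?_ (hd j)
      rw [← muG_apply M hBm]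
      have e1 := mul_meas_ge_le_lintegral₀ (μ := muG M) hm.ennreal_ofReal.aemeasurable 1
      have e2 : {x | (1 : ℝ≥0∞) ≤ ENNReal.ofReal |h j x - S.indicator (fun _ => (1 : ℝ)) x|} =
          Bd := by
        ext x
        simp only [hBd, mem_ofPred_eq]
        exact ENNReal.one_le_ofReal
      rw [e2, one_mul, lintegral_muG M hm.ennreal_ofReal] at e1
      refine e1.trans (le_of_eq (lintegral_congr fun x => ?_))
      exact (ENNReal.ofReal_mul (abs_nonneg _)).symm
    constructor
    · have hsub : {x | h j x = 1} ⊆ S ∪ Bd := by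
        intro x hx
        by_cases hxS : x ∈ S
        · exact Or.inl hxS
        · right
          have hx' : h j x = 1 := hx
          show 1 ≤ |h j x - S.indicator (fun _ => (1 : ℝ)) x|
          rw [indicator_of_notMem hxS, hx', sub_zero, abs_one]
      rw [← muG_apply M (hmeas1 j), ← muG_apply M hS]
      refine (measure_mono hsub).trans ((measure_union_le _ _).trans ?_)
      rw [muG_apply M hBm]
      gcongr
    · have hsub : S ⊆ ({x | h j x = 1} ∪ Bd) ∪ {x | 0 < h j x ∧ h j x < 1} := by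
        intro x hxS
        rcases (h1 j x).eq_or_lt with e1 | e1
        · exact Or.inl (Or.inl e1)
        · rcases (h0 j x).eq_or_lt with e2 | e2
          · left
            right
            show 1 ≤ |h j x - S.indicator (fun _ => (1 : ℝ)) x|
            rw [indicator_of_mem hxS, ← e2, zero_sub, abs_neg, abs_one]
          · exact Or.inr ⟨e2, e1⟩
      rw [← muG_apply M (hmeas1 j), ← muG_apply M hS]
      refine (measure_mono hsub).trans ((measure_union_le _ _).trans ?_)
      refine add_le_add ((measure_union_le _ _).trans ?_) ?_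
      · rw [muG_apply M hBm]
        gcongr
      · rw [muG_apply M (hmeas2 j)]
        exact hlay j
  have hv1 : Tendsto (fun j => TPH.V1 G (h j)) atTop (𝓝 (TPH.VR n k r)) := by
    rw [← hVM]
    have hb : ∀ j, |TPH.V1 G (h j) - modelVol n κ r| ≤ 2 * (1 / ((j : ℝ) + 1)) := by
      intro j
      obtain ⟨e1, e2⟩ := hmain j
      have hfin : riemVol M {x | h j x = 1} ≠ ⊤ := by
        refine ne_top_of_le_ne_top ?_ e1
        rw [hV]
        exact ENNReal.add_ne_top.2 ⟨ENNReal.ofReal_ne_top, ENNReal.ofReal_ne_top⟩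
      have e3 : TPH.V1 G (h j) = (riemVol M {x | h j x = 1}).toReal := by
        unfold TPH.V1
        rw [Measure.real, hG, vol_co_apply M e he hs F (hmeas1 j)]
      rw [hV, ← ENNReal.ofReal_add hVr0 (hη j).le] at e1
      have e4 : TPH.V1 G (h j) ≤ modelVol n κ r + 1 / ((j : ℝ) + 1) := by
        rw [e3]
        have := hη j
        exact ENNReal.toReal_le_of_le_ofReal (by linarith) e1
      have e5 : modelVol n κ r ≤ TPH.V1 G (h j) + 1 / ((j : ℝ) + 1) + 1 / ((j : ℝ) + 1) := by
        rw [hV, ← ENNReal.ofReal_toReal hfin, ← e3,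
          ← ENNReal.ofReal_add (TPH.sliceh_V1_nonneg G (h j)) (hη j).le,
          ← ENNReal.ofReal_add (add_nonneg (TPH.sliceh_V1_nonneg G (h j)) (hη j).le)
            (hη j).le] at e2
        exact (ENNReal.ofReal_le_ofReal_iff (add_nonneg (add_nonneg
          (TPH.sliceh_V1_nonneg G (h j)) (hη j).le) (hη j).le)).1 e2
      rw [abs_le]
      constructor
      · linarith
      · have := hη j
        linarith
    rw [tendsto_iff_dist_tendsto_zero]
    have hz : Tendsto (fun j : ℕ => 2 * (1 / ((j : ℝ) + 1))) atTop (𝓝 (2 * 0)) :=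
      hη0.const_mul 2
    rw [mul_zero] at hz
    exact squeeze_zero (fun j => dist_nonneg) (fun j => hb j) hz
  have hper : ∀ δ : ℝ, 0 < δ → ∀ᶠ j in atTop, G.per (h j) ≤ TPH.AR n k r + δ := by
    intro δ hδ
    filter_upwards [hη0.eventually (gt_mem_nhds hδ)] with j hj
    rw [hG, per_eq M e he hs F (hh j), ← hAM]
    refine (ENNReal.toReal_le_of_le_ofReal (by have := hη j; linarith) (hg j)).trans ?_
    linarith
  obtain ⟨c, U, hU, hlim⟩ := SA.rig_seq hn hk FI LR G hcurv hρ hr hcls hper hv1 hlay0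
  refine ⟨c, fun w hw hwc hw0 i => ?_⟩
  -- the distributional derivative
  have hwd : Differentiable ℝ w := hw.differentiable (by simp)
  set u : E n → ℝ := S.indicator (fun _ => (1 : ℝ)) with hu
  have hpc : Continuous (pd i w) := (pd_contDiff hw i).continuous
  have hps : HasCompactSupport (pd i w) := pd_compact hwc i
  -- the comparison function
  set φ : E n → ℝ := fun x => |w x| * √((Pi.single i (1 : ℝ)) ⬝ᵥ M.g x *ᵥ (Pi.single i (1 : ℝ))) /
    volDensity M x with hφ
  have hgc : Continuous fun x => (Pi.single i (1 : ℝ) : Fin n → ℝ) ⬝ᵥ M.g x *ᵥ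
      (Pi.single i (1 : ℝ)) := by
    have : (fun x => (Pi.single i (1 : ℝ) : Fin n → ℝ) ⬝ᵥ M.g x *ᵥ (Pi.single i (1 : ℝ))) =
        fun x => M.g x i i := by
      funext x
      simp
    rw [this]
    exact ContDiff.continuous (M.smooth i i)
  have hφc : Continuous φ :=
    (hw.continuous.abs.mul hgc.sqrt).div (volDensity_cont M) fun x => (volDensity_pos M x).ne'
  have hφ0 : ∀ x, ‖G.lg c x‖ = r → φ x = 0 := by
    intro x hx
    simp only [hφ]
    rw [hw0 x hx, abs_zero, zero_mul, zero_div]
  have hl := hlim φ hφc hφ0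
  have hlhs : ∀ j, |∫ x, h j x * pd i w x ∂leb n| ≤
      ∫ x, φ x * ‖G.D (h j) x‖ ∂G.vol := by
    intro j
    have hhd : Differentiable ℝ (h j) := (hh j).differentiable one_ne_zero
    have hpj : Continuous fun x => pd i (h j) x := by
      have e1 : (fun x => pd i (h j) x) = fun x => fderiv ℝ (h j) x (basisVec i) :=
        funext fun x => pd_eq (hhd x) i
      rw [e1]
      exact ((hh j).continuous_fderiv one_ne_zero).clm_apply continuous_const
    have hparts : ∫ x, h j x * pd i w x ∂leb n = -∫ x, pd i (h j) x * w x ∂leb n := by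
      have h2 : ∀ x, pd i w x = fderiv ℝ w x (basisVec i) := fun x => pd_eq (hwd x) i
      have h3 : ∀ x, pd i (h j) x = fderiv ℝ (h j) x (basisVec i) := fun x => pd_eq (hhd x) i
      simp only [h2, h3]
      unfold leb
      refine integral_mul_fderiv_eq_neg_fderiv_mul_of_integrable ?_ ?_ ?_ (fun x _ => hhd x)
        fun x _ => hwd x
      · have : (fun x => fderiv ℝ (h j) x (basisVec i) * w x) = fun x => pd i (h j) x * w x := by
          funext x
          rw [h3]
        rw [this]
        exact (hpj.mul hw.continuous).integrable_of_hasCompactSupport hwc.mul_left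
      · have : (fun x => h j x * fderiv ℝ w x (basisVec i)) = fun x => h j x * pd i w x := by
          funext x
          rw [h2]
        rw [this]
        exact ((hh j).continuous.mul hpc).integrable_of_hasCompactSupport (hcs j).mul_right
      · exact ((hh j).continuous.mul hw.continuous).integrable_of_hasCompactSupport
          (hcs j).mul_right
    rw [hparts, abs_neg, hG, integral_D_eq M e he hs F (hh j)]
    have hfi : Integrable (fun x => φ x * gradNorm M (h j) x * volDensity M x) (leb n) := by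
      refine Continuous.integrable_of_hasCompactSupport ?_ ?_
      · exact (hφc.mul (gradNorm_cont M (hh j))).mul (volDensity_cont M)
      · refine HasCompactSupport.intro hwc.isCompact fun x hx => ?_
        simp only [hφ]
        rw [image_eq_zero_of_notMem_tsupport hx]
        simp
    refine (abs_integral_le_integral_abs).trans (integral_mono ?_ hfi fun x => ?_)
    · exact ((hpj.mul hw.continuous).integrable_of_hasCompactSupport hwc.mul_left).abs
    · show |pd i (h j) x * w x| ≤ φ x * gradNorm M (h j) x * volDensity M x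
      have h5 := dot_le M x (Pi.single i (1 : ℝ)) (fun i => pd i (h j) x)
      have h6 : (Pi.single i (1 : ℝ) : Fin n → ℝ) ⬝ᵥ (fun i => pd i (h j) x) = pd i (h j) x := by
        simp
      rw [h6] at h5
      have h7 : φ x * gradNorm M (h j) x * volDensity M x =
          |w x| * (√((Pi.single i (1 : ℝ)) ⬝ᵥ M.g x *ᵥ (Pi.single i (1 : ℝ))) *
            gradNorm M (h j) x) := by
        simp only [hφ]
        have := (volDensity_pos M x).ne'
        field_simp
      rw [h7, abs_mul, mul_comm]
      exact mul_le_mul_of_nonneg_left h5 (abs_nonneg _)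
  -- convergence
  obtain ⟨C, hC⟩ : ∃ C, ∀ x, ‖pd i w x / volDensity M x‖ ≤ C := by
    refine Continuous.bounded_above_of_compact_support
      (hpc.div (volDensity_cont M) fun x => (volDensity_pos M x).ne') ?_
    refine HasCompactSupport.intro hps.isCompact fun x hx => ?_
    rw [image_eq_zero_of_notMem_tsupport hx, zero_div]
  have hC0 : 0 ≤ C := (norm_nonneg _).trans (hC 0)
  have hui : Integrable (fun x => u x * pd i w x) (leb n) := by
    have e1 : (fun x => u x * pd i w x) = S.indicator fun x => pd i w x := by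
      funext x
      by_cases hx : x ∈ S
      · rw [hu, indicator_of_mem hx, indicator_of_mem hx, one_mul]
      · rw [hu, indicator_of_notMem hx, indicator_of_notMem hx, zero_mul]
    rw [e1]
    exact (hpc.integrable_of_hasCompactSupport hps).indicator hS
  have hhi : ∀ j, Integrable (fun x => h j x * pd i w x) (leb n) := fun j =>
    ((hh j).continuous.mul hpc).integrable_of_hasCompactSupport (hcs j).mul_right
  have hdiff : ∀ j : ℕ, |∫ x, u x * pd i w x ∂leb n - ∫ x, h j x * pd i w x ∂leb n| ≤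
      C * (1 / ((j : ℝ) + 1)) := by
    intro j
    rw [← integral_sub hui (hhi j)]
    refine abs_integral_le_integral_abs.trans ?_
    have e1 : ∫ x, |u x * pd i w x - h j x * pd i w x| ∂leb n =
        (∫⁻ x, ENNReal.ofReal |u x * pd i w x - h j x * pd i w x| ∂leb n).toReal :=
      integral_eq_lintegral_of_nonneg_ae (Eventually.of_forall fun x => abs_nonneg _)
        ((hui.sub (hhi j)).abs.aestronglyMeasurable)
    rw [e1]
    refine ENNReal.toReal_le_of_le_ofReal (mul_nonneg hC0 (hη j).le) ?_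
    calc ∫⁻ x, ENNReal.ofReal |u x * pd i w x - h j x * pd i w x| ∂leb n
        ≤ ∫⁻ x, ENNReal.ofReal C * ENNReal.ofReal (|h j x - u x| * volDensity M x) ∂leb n := by
          refine lintegral_mono fun x => ?_
          rw [← ENNReal.ofReal_mul hC0]
          refine ENNReal.ofReal_le_ofReal ?_
          rw [← sub_mul, abs_mul, abs_sub_comm]
          have h8 := hC x
          rw [norm_div, Real.norm_eq_abs, Real.norm_eq_abs, abs_of_pos (volDensity_pos M x),
            div_le_iff₀ (volDensity_pos M x)] at h8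
          calc |h j x - u x| * |pd i w x| ≤ |h j x - u x| * (C * volDensity M x) :=
                mul_le_mul_of_nonneg_left h8 (abs_nonneg _)
            _ = C * (|h j x - u x| * volDensity M x) := by ring
      _ = ENNReal.ofReal C * ∫⁻ x, ENNReal.ofReal (|h j x - u x| * volDensity M x) ∂leb n :=
          lintegral_const_mul' _ _ ENNReal.ofReal_ne_top
      _ ≤ ENNReal.ofReal C * ENNReal.ofReal (1 / ((j : ℝ) + 1)) := by
          gcongr
          exact hd j
      _ = ENNReal.ofReal (C * (1 / ((j : ℝ) + 1))) := (ENNReal.ofReal_mul hC0).symm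
  have hbound : ∀ j : ℕ, |∫ x, u x * pd i w x ∂leb n| ≤
      C * (1 / ((j : ℝ) + 1)) + ∫ x, φ x * ‖G.D (h j) x‖ ∂G.vol := by
    intro j
    have e1 := hdiff j
    have e2 := hlhs j
    have e3 := abs_sub_abs_le_abs_sub (∫ x, u x * pd i w x ∂leb n) (∫ x, h j x * pd i w x ∂leb n)
    linarith
  have hlimit : Tendsto (fun j : ℕ => C * (1 / ((j : ℝ) + 1)) +
      ∫ x, φ x * ‖G.D (h j) x‖ ∂G.vol) U (𝓝 (C * 0 + 0)) :=
    ((hη0.mono_left hU).const_mul C).add hl
  rw [mul_zero, add_zero] at hlimit
  have hfinal : |∫ x, u x * pd i w x ∂leb n| ≤ 0 :=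
    ge_of_tendsto hlimit (Eventually.of_forall hbound)
  exact abs_nonpos_iff.1 hfinal

end Vale.Agent.P219.Co
end
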