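import Vale.Agent.P219.H817.R2
import Vale.Agent.P219.H861.BallDom
import Vale.Agent.P219.H156.AeConst

open MeasureTheory Set Filter Topology Matrix
open scoped ENNReal ContDiff

noncomputable section

namespace Vale.Agent.P219.Co

variable {n : ℕ}

/-- In the equality case the set agrees a.e. with a geodesic ball. -/
theorem rig_ball (hn : 2 ≤ n) {k κ : ℝ} (hk : 0 ≤ k)
    (hVM : ∀ r, modelVol n κ r = TPH.VR n k r) (hAM : ∀ r, modelArea n κ r = TPH.AR n k r)
    (FI : TPH.FuncIso n k) (LR : SA.LimRig n k) (M : RiemMetric n) (e : Fin n → E n → E n)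
    (he : Vale.Agent.P219.TriangularFrame (old M) e) (hs : Vale.Agent.P219.SecLE (old M) 0)
    (F : CH.GFlow (old M).g) (hcurv : TPH.MonoSn (CH.toGeo (old M) e he hs F) k)
    {S L₀ : Set (E n)} (hS : MeasurableSet S) (hL₀ : IsCompact L₀) (hSL : S ⊆ L₀) {r : ℝ}
    (hr : 0 < r) (hV : riemVol M S = ENNReal.ofReal (modelVol n κ r))
    (hP : perimeter M S ≤ ENNReal.ofReal (modelArea n κ r)) :
    ∃ c : E n, S =ᵐ[leb n] {x | ‖(CH.toGeo (old M) e he hs F).lg c x‖ < r} := by
  obtain ⟨c, hc⟩ := rig_center hn hk hVM hAM FI LR M e he hs F hcurv hS hL₀ hSL hr hV hP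
  refine ⟨c, ?_⟩
  set G := CH.toGeo (old M) e he hs F with hG
  obtain ⟨ho1, hp1, ho2, hp2, hnull⟩ := ball_conn hn G c hr
  set u : E n → ℝ := S.indicator (fun _ => (1 : ℝ)) with hu
  have hum : Measurable u := measurable_const.indicator hS
  have hu1 : ∀ x, |u x| ≤ 1 := by
    intro x
    by_cases hx : x ∈ S
    · rw [hu, indicator_of_mem hx, abs_one]
    · rw [hu, indicator_of_notMem hx, abs_zero]
      exact zero_le_one
  have hdist : ∀ Ω : Set (E n), (∀ x ∈ Ω, ‖G.lg c x‖ ≠ r) → ∀ w : E n → ℝ, ContDiff ℝ ∞ w →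
      HasCompactSupport w → tsupport w ⊆ Ω → ∀ i : Fin n,
      ∫ x, u x * fderiv ℝ w x (EuclideanSpace.single i 1) = 0 := by
    intro Ω hΩ w hw hwc hwΩ i
    have h1 := hc w hw hwc (fun x hx => by
      by_contra h
      exact hΩ x (hwΩ (subset_tsupport w h)) hx) i
    have h2 : ∀ x, pd i w x = fderiv ℝ w x (EuclideanSpace.single i 1) := fun x =>
      pd_eq (hw.differentiable (by simp) x) i
    simp only [h2] at h1
    exact h1
  obtain ⟨a, ha⟩ := ae_const hum hu1 ho1 hp1 (hdist _ fun x hx => ne_of_lt hx)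
  obtain ⟨b, hb⟩ := ae_const hum hu1 ho2 hp2 (hdist _ fun x hx => ne_of_gt hx)
  rw [ae_restrict_iff' ho1.measurableSet] at ha
  rw [ae_restrict_iff' ho2.measurableSet] at hb
  have hnull' : ∀ᵐ x : E n, ‖G.lg c x‖ ≠ r := by
    rw [ae_iff]
    simpa using hnull
  -- the outer constant is zero
  have hb0 : b = 0 := by
    have hcl : IsCompact (L₀ ∪ {x | ‖G.lg c x‖ ≤ r}) := hL₀.union (G.isCompact_gball c r)
    have hne : ((L₀ ∪ {x | ‖G.lg c x‖ ≤ r})ᶜ).Nonempty := by
      have : Nontrivial (E n) := by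
        have : Nontrivial (EuclideanSpace ℝ (Fin n)) := by
          have : Nonempty (Fin n) := ⟨⟨0, by omega⟩⟩
          infer_instance
        exact this
      have : NoncompactSpace (E n) := NormedSpace.noncompactSpace ℝ (E n)
      rw [nonempty_compl]
      exact hcl.ne_univ
    have hpos : 0 < volume ((L₀ ∪ {x | ‖G.lg c x‖ ≤ r})ᶜ) :=
      hcl.isClosed.isOpen_compl.measure_pos _ hne
    by_contra hb0
    have h1 : ∀ᵐ x : E n, x ∉ (L₀ ∪ {x | ‖G.lg c x‖ ≤ r})ᶜ := by
      filter_upwards [hb] with x hx hx2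
      have h2 : x ∉ L₀ := fun h => hx2 (Or.inl h)
      have h3 : r < ‖G.lg c x‖ := not_le.1 fun h => hx2 (Or.inr h)
      have h4 := hx h3
      rw [hu, indicator_of_notMem (fun h => h2 (hSL h))] at h4
      exact hb0 h4.symm
    rw [ae_iff] at h1
    simp only [not_not] at h1
    exact hpos.ne' h1
  subst hb0
  -- the inner constant is one
  have ha1 : a = 1 := by
    by_contra ha1
    have h1 : ∀ᵐ x : E n, x ∉ S := by
      filter_upwards [ha, hb, hnull'] with x h1 h2 h3 h4
      rcases lt_or_gt_of_ne h3 with h5 | h5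
      · have h6 := h1 h5
        rw [hu, indicator_of_mem h4] at h6
        exact ha1 h6.symm
      · have h6 := h2 h5
        rw [hu, indicator_of_mem h4] at h6
        exact one_ne_zero h6
    have h2 : volume S = 0 := by
      rw [ae_iff] at h1
      simpa using h1
    have h3 : riemVol M S = 0 := by
      unfold riemVol
      exact setLIntegral_measure_zero _ _ h2
    have h4 : 0 < modelVol n κ r := by
      have h5 := modelVol_co_strictMono (n := n) (by omega) κ (mem_Ici.2 le_rfl)
        (mem_Ici.2 hr.le) hr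
      rwa [modelVol_zero] at h5
    rw [h3] at hV
    exact (ENNReal.ofReal_pos.2 h4).ne hV
  subst ha1
  have hfin : ∀ᵐ x : E n, x ∈ S ↔ x ∈ {x | ‖G.lg c x‖ < r} := by
    filter_upwards [ha, hb, hnull'] with x h1 h2 h3
    constructor
    · intro h4
      rcases lt_or_gt_of_ne h3 with h5 | h5
      · exact h5
      · have h6 := h2 h5
        rw [hu, indicator_of_mem h4] at h6
        exact absurd h6 one_ne_zero
    · intro h4
      by_contra h5
      have h6 := h1 h4
      rw [hu, indicator_of_notMem h5] at h6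
      exact zero_ne_one h6
  filter_upwards [hfin] with x hx
  exact propext hx

end Vale.Agent.P219.Co
end
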