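import Vale.Agent.P219.H817.R2

open MeasureTheory Set Filter Topology Matrix
open scoped ENNReal ContDiff

noncomputable section

namespace Vale.Agent.P219.Co

variable {n : ℕ}

/-- A sequence of plateau functions approaching the set in the equality case. -/
theorem exists_seq (hn : 2 ≤ n) {k κ : ℝ} (hk : 0 ≤ k)
    (hVM : ∀ r, modelVol n κ r = TPH.VR n k r) (hAM : ∀ r, modelArea n κ r = TPH.AR n k r)
    (FI : TPH.FuncIso n k) (M : RiemMetric n) (e : Fin n → E n → E n)
    (he : Vale.Agent.P219.TriangularFrame (old M) e) (hs : Vale.Agent.P219.SecLE (old M) 0)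
    (F : CH.GFlow (old M).g) (hcurv : TPH.MonoSn (CH.toGeo (old M) e he hs F) k)
    {S L₀ : Set (E n)} (hS : MeasurableSet S) (hL₀ : IsCompact L₀) (hSL : S ⊆ L₀) {r : ℝ}
    (hr : 0 < r) (hV : riemVol M S = ENNReal.ofReal (modelVol n κ r))
    (hP : perimeter M S ≤ ENNReal.ofReal (modelArea n κ r)) :
    ∃ (L : Set (E n)) (h : ℕ → E n → ℝ), IsCompact L ∧ (∀ j, ContDiff ℝ 1 (h j)) ∧
      (∀ j x, 0 ≤ h j x) ∧ (∀ j x, h j x ≤ 1) ∧ (∀ j x, x ∉ L → h j x = 0) ∧
      (∀ δ : ℝ, 0 < δ → ∀ᶠ j in atTop,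
        (CH.toGeo (old M) e he hs F).per (h j) ≤ TPH.AR n k r + δ) ∧
      (∀ᶠ j in atTop, TPH.AR n k r / 2 ≤ (CH.toGeo (old M) e he hs F).per (h j)) ∧
      Tendsto (fun j => TPH.V1 (CH.toGeo (old M) e he hs F) (h j)) atTop (𝓝 (TPH.VR n k r)) ∧
      Tendsto (fun j => (CH.toGeo (old M) e he hs F).vol.real {x | 0 < h j x ∧ h j x < 1}) atTop
        (𝓝 0) ∧
      Tendsto (fun j => (CH.toGeo (old M) e he hs F).vol {x | 0 < h j x ∧ h j x < 1}) atTop
        (𝓝 0) ∧
      Tendsto (fun j => ∫⁻ x, ENNReal.ofReal |h j x - S.indicator (fun _ => (1 : ℝ)) x|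
        ∂(CH.toGeo (old M) e he hs F).vol) atTop (𝓝 0) := by
  have hlc := leb_compacts n
  have hn1 : 1 ≤ n := by omega
  set G := CH.toGeo (old M) e he hs F with hG
  have hA0 : 0 < modelArea n κ r := modelArea_pos hn1 κ hr
  have hPt : perimeter M S ≠ ⊤ := ne_top_of_le_ne_top ENNReal.ofReal_ne_top hP
  set L : Set (E n) := Metric.cthickening 1 L₀ with hL
  have hLc : IsCompact L := hL₀.cthickening
  -- the plateau functions
  have happ : ∀ δ : ℝ, 0 < δ → ∃ f : E n → ℝ, ContDiff ℝ 1 f ∧ (∀ x, x ∉ L → f x = 0) ∧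
      ∫⁻ x, ENNReal.ofReal (|f x - S.indicator (fun _ => (1 : ℝ)) x| * volDensity M x) ∂leb n
        ≤ ENNReal.ofReal δ ∧ gradMass M f ≤ ENNReal.ofReal (modelArea n κ r + δ) := by
    intro δ hδ
    obtain ⟨f, h1, h2, h3, h4⟩ := perimeter_approx_cpt M hS hL₀ hSL hPt hδ
    refine ⟨f, h1, h2, h3, h4.trans ?_⟩
    rw [ENNReal.ofReal_add hA0.le hδ.le]
    gcongr
  have hη : ∀ j : ℕ, (0 : ℝ) < 1 / ((j : ℝ) + 1) := fun j => by positivity
  choose h hh h0 h1 hL0 hg hd hlay using fun j : ℕ =>
    exists_plateau M hS hLc hA0.le happ (hη j)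
  have hη0 : Tendsto (fun j : ℕ => 1 / ((j : ℝ) + 1)) atTop (𝓝 0) :=
    tendsto_one_div_add_atTop_nhds_zero_nat
  have hcs : ∀ j, HasCompactSupport (h j) := fun j => HasCompactSupport.intro hLc (hL0 j)
  -- volumes
  have hVr0 : 0 ≤ modelVol n κ r := by
    rw [← modelVol_zero (n := n) κ]
    exact modelVol_mono κ hn1 le_rfl hr.le
  have hmeas1 : ∀ j, MeasurableSet {x | h j x = 1} := fun j =>
    (isClosed_eq (hh j).continuous continuous_const).measurableSet
  have hmeas2 : ∀ j, MeasurableSet {x | 0 < h j x ∧ h j x < 1} := fun j =>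
    ((isOpen_lt continuous_const (hh j).continuous).inter
      (isOpen_lt (hh j).continuous continuous_const)).measurableSet
  have hlayer : ∀ j, G.vol.real {x | 0 < h j x ∧ h j x < 1} ≤ 1 / ((j : ℝ) + 1) := by
    intro j
    rw [Measure.real, hG, vol_co_apply M e he hs F (hmeas2 j)]
    exact ENNReal.toReal_le_of_le_ofReal (hη j).le (hlay j)
  have hlay0 : Tendsto (fun j => G.vol.real {x | 0 < h j x ∧ h j x < 1}) atTop (𝓝 0) :=
    squeeze_zero (fun j => measureReal_nonneg) hlayer hη0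
  have hmain : ∀ j, riemVol M {x | h j x = 1} ≤ riemVol M S + ENNReal.ofReal (1 / ((j : ℝ) + 1)) ∧
      riemVol M S ≤ riemVol M {x | h j x = 1} + ENNReal.ofReal (1 / ((j : ℝ) + 1)) +
        ENNReal.ofReal (1 / ((j : ℝ) + 1)) := by
    intro j
    have hm : Measurable fun x => |h j x - S.indicator (fun _ => (1 : ℝ)) x| :=
      ((hh j).continuous.measurable.sub (measurable_const.indicator hS)).abs
    set Bd : Set (E n) := {x | 1 ≤ |h j x - S.indicator (fun _ => (1 : ℝ)) x|} with hBd
    have hBm : MeasurableSet Bd := measurableSet_le measurable_const hm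
    have hbad : riemVol M Bd ≤ ENNReal.ofReal (1 / ((j : ℝ) + 1)) := by
      refine le_trans ?_ (hd j)
      rw [← muG_apply M hBm]
      have e1 := mul_meas_ge_le_lintegral₀ (μ := muG M) hm.ennreal_ofReal.aemeasurable 1
      have e2 : {x | (1 : ℝ≥0∞) ≤ ENNReal.ofReal |h j x - S.indicator (fun _ => (1 : ℝ)) x|} =
          Bd := by
        ext x
        simp only [hBd, mem_ofPred_eq]
        exact ENNReal.one_le_ofReal
      rw [e2, one_mul, lintegral_muG M hm.ennreal_ofReal] at e1
      refine e1.trans (le_of_eq (lintegral_congr fun x => ?_))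
      exact (ENNReal.ofReal_mul (abs_nonneg _)).symm
    constructor
    · have hsub : {x | h j x = 1} ⊆ S ∪ Bd := by
        intro x hx
        by_cases hxS : x ∈ S
        · exact Or.inl hxS
        · right
          have hx' : h j x = 1 := hx
          show 1 ≤ |h j x - S.indicator (fun _ => (1 : ℝ)) x|
          rw [indicator_of_notMem hxS, hx', sub_zero, abs_one]
      rw [← muG_apply M (hmeas1 j), ← muG_apply M hS]
      refine (measure_mono hsub).trans ((measure_union_le _ _).trans ?_)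
      rw [muG_apply M hBm]
      gcongr
    · have hsub : S ⊆ ({x | h j x = 1} ∪ Bd) ∪ {x | 0 < h j x ∧ h j x < 1} := by
        intro x hxS
        rcases (h1 j x).eq_or_lt with e1 | e1
        · exact Or.inl (Or.inl e1)
        · rcases (h0 j x).eq_or_lt with e2 | e2
          · left
            right
            show 1 ≤ |h j x - S.indicator (fun _ => (1 : ℝ)) x|
            rw [indicator_of_mem hxS, ← e2, zero_sub, abs_neg, abs_one]
          · exact Or.inr ⟨e2, e1⟩
      rw [← muG_apply M (hmeas1 j), ← muG_apply M hS]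
      refine (measure_mono hsub).trans ((measure_union_le _ _).trans ?_)
      refine add_le_add ((measure_union_le _ _).trans ?_) ?_
      · rw [muG_apply M hBm]
        gcongr
      · rw [muG_apply M (hmeas2 j)]
        exact hlay j
  have hv1 : Tendsto (fun j => TPH.V1 G (h j)) atTop (𝓝 (TPH.VR n k r)) := by
    rw [← hVM]
    have hb : ∀ j, |TPH.V1 G (h j) - modelVol n κ r| ≤ 2 * (1 / ((j : ℝ) + 1)) := by
      intro j
      obtain ⟨e1, e2⟩ := hmain j
      have hfin : riemVol M {x | h j x = 1} ≠ ⊤ := by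
        refine ne_top_of_le_ne_top ?_ e1
        rw [hV]
        exact ENNReal.add_ne_top.2 ⟨ENNReal.ofReal_ne_top, ENNReal.ofReal_ne_top⟩
      have e3 : TPH.V1 G (h j) = (riemVol M {x | h j x = 1}).toReal := by
        unfold TPH.V1
        rw [Measure.real, hG, vol_co_apply M e he hs F (hmeas1 j)]
      rw [hV, ← ENNReal.ofReal_add hVr0 (hη j).le] at e1
      have e4 : TPH.V1 G (h j) ≤ modelVol n κ r + 1 / ((j : ℝ) + 1) := by
        rw [e3]
        have := hη j
        exact ENNReal.toReal_le_of_le_ofReal (by linarith) e1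
      have e5 : modelVol n κ r ≤ TPH.V1 G (h j) + 1 / ((j : ℝ) + 1) + 1 / ((j : ℝ) + 1) := by
        rw [hV, ← ENNReal.ofReal_toReal hfin, ← e3,
          ← ENNReal.ofReal_add (TPH.sliceh_V1_nonneg G (h j)) (hη j).le,
          ← ENNReal.ofReal_add (add_nonneg (TPH.sliceh_V1_nonneg G (h j)) (hη j).le)
            (hη j).le] at e2
        exact (ENNReal.ofReal_le_ofReal_iff (add_nonneg (add_nonneg
          (TPH.sliceh_V1_nonneg G (h j)) (hη j).le) (hη j).le)).1 e2
      rw [abs_le]
      constructor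
      · linarith
      · have := hη j
        linarith
    rw [tendsto_iff_dist_tendsto_zero]
    have hz : Tendsto (fun j : ℕ => 2 * (1 / ((j : ℝ) + 1))) atTop (𝓝 (2 * 0)) :=
      hη0.const_mul 2
    rw [mul_zero] at hz
    exact squeeze_zero (fun j => dist_nonneg) (fun j => hb j) hz
  have hper : ∀ δ : ℝ, 0 < δ → ∀ᶠ j in atTop, G.per (h j) ≤ TPH.AR n k r + δ := by
    intro δ hδ
    filter_upwards [hη0.eventually (gt_mem_nhds hδ)] with j hj
    rw [hG, per_eq M e he hs F (hh j), ← hAM]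
    refine (ENNReal.toReal_le_of_le_ofReal (by have := hη j; linarith) (hg j)).trans ?_
    linarith
  have hη0' : Tendsto (fun j : ℕ => ENNReal.ofReal (1 / ((j : ℝ) + 1))) atTop (𝓝 0) := by
    have h1 := (ENNReal.continuous_ofReal.tendsto 0).comp hη0
    rwa [ENNReal.ofReal_zero] at h1
  -- the perimeters tend to the model area
  have hVpos : 0 < TPH.VR n k r := by
    have h1 := TPH.VR_strictMonoOn (k := k) hn1 hk (mem_Ici.2 le_rfl) (mem_Ici.2 hr.le) hr
    rwa [TPH.VR_zero] at h1
  have hApos : 0 < TPH.AR n k r := TPH.AR_pos hn1 hk hr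
  have hlow : ∀ᶠ j in atTop, TPH.AR n k r / 2 ≤ G.per (h j) := by
    obtain ⟨I, hImono, hIcont, hI0, hIz, hIR, hId⟩ :=
      TPH.exists_profile (n := n) (k := k) hn hk
    have hinf : ∀ j, 0 ≤ G.per (h j) - I (TPH.V1 G (h j)) := by
      intro j
      obtain ⟨R', hR', hVR⟩ := TPH.exists_VR (n := n) (k := k) hn1 hk
        (TPH.sliceh_V1_nonneg G (h j))
      have h2 := FI G hcurv (h j) (hh j) (hcs j) (fun x => ⟨h0 j x, h1 j x⟩) R' hR' hVR.le
      rw [← hVR, hIR R' hR']
      linarith only [h2]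
    have hIV : Tendsto (fun j => I (TPH.V1 G (h j))) atTop (𝓝 (TPH.AR n k r)) := by
      rw [← hIR r hr.le]
      have h3 : Tendsto (fun j => TPH.V1 G (h j)) atTop (𝓝[Ici 0] (TPH.VR n k r)) :=
        tendsto_nhdsWithin_iff.2 ⟨hv1, Eventually.of_forall fun j => TPH.sliceh_V1_nonneg G (h j)⟩
      exact (hIcont (TPH.VR n k r) hVpos.le).tendsto.comp h3
    filter_upwards [hIV.eventually (lt_mem_nhds
      (show TPH.AR n k r / 2 < TPH.AR n k r by linarith only [hApos]))] with j hj
    have h5 := hinf j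
    linarith only [h5, hj]
  refine ⟨L, h, hLc, hh, h0, h1, hL0, hper, hlow, hv1, hlay0, ?_, ?_⟩
  · refine tendsto_of_tendsto_of_tendsto_of_le_of_le tendsto_const_nhds hη0'
      (fun j => bot_le) fun j => ?_
    show G.vol {x | 0 < h j x ∧ h j x < 1} ≤ ENNReal.ofReal (1 / ((j : ℝ) + 1))
    rw [hG, vol_co_apply M e he hs F (hmeas2 j)]
    exact hlay j
  · refine tendsto_of_tendsto_of_tendsto_of_le_of_le tendsto_const_nhds hη0'
      (fun j => bot_le) fun j => ?_
    refine le_trans (le_of_eq ?_) (hd j)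
    have hm : Measurable fun x => |h j x - S.indicator (fun _ => (1 : ℝ)) x| :=
      ((hh j).continuous.measurable.sub (measurable_const.indicator hS)).abs
    have hvol : G.vol = muG M := by
      refine Measure.ext fun A hA => ?_
      rw [hG, vol_co_apply M e he hs F hA, muG_apply M hA]
    rw [hvol, lintegral_muG M hm.ennreal_ofReal]
    exact lintegral_congr fun x => (ENNReal.ofReal_mul (abs_nonneg _)).symm

end Vale.Agent.P219.Co
end
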