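import Vale.Agent.P219.Bdl.B15

open MeasureTheory Set Filter Topology Metric
open scoped ENNReal ContDiff

noncomputable section

namespace Vale.Agent.P219.N2

open Vale.Agent.P219.TP Vale.Agent.P219.TPH

/-- Fatou's lemma at a point `p`, for sets of finite perimeter. -/
theorem rfs_fatou {G : Geo 2} {k ct : ℝ} (hk : 0 ≤ k) (hG : MonoSn G k) (hct : k ≤ ct)
    {S : Set (E 2)} {h : ℕ → E 2 → ℝ} (hh : ∀ j, ContDiff ℝ 1 (h j))
    (h0 : ∀ j x, 0 ≤ h j x) (h1 : ∀ j x, h j x ≤ 1) {p N₀ : E 2} {y N : ℕ → E 2}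
    (hN : Tendsto N atTop (𝓝 N₀)) (hN1 : ‖N₀‖ = 1) (hy : Tendsto y atTop (𝓝 p))
    (hD : ∀ m, G.D (h m) (y m) ≠ 0)
    (hdd : Tendsto (fun m => rDD G k ct (h m) (N m) (y m)) atTop (𝓝 0))
    (hae : ∀ᵐ v : E 2, ∀ᶠ m in atTop,
      h m (G.ex (y m) v) = S.indicator (fun _ => (1 : ℝ)) (G.ex p v)) :
    ∀ᵐ v : E 2, (G.ex p v ∈ S → rI G k ct N₀ p v = 0) ∧
      (G.ex p v ∉ S → max 0 (rB k ct N₀ v) = 0) := by
  have hlt : ∀ m, h m (y m) < 1 := fun m => rlt_one (h1 _) (hD m)
  set f : ℕ → E 2 → ℝ≥0∞ := fun m v => ENNReal.ofReal (rD G k ct (h m) (N m) (y m) v) with hf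
  have hfm : ∀ m, Measurable (f m) := fun m =>
    (rmeas_rD (hh _).continuous _ _).ennreal_ofReal
  have hlim : ∀ᵐ v : E 2, liminf (fun m => f m v) atTop = 0 := by
    have h3 := lintegral_liminf_le (u := (atTop : Filter ℕ)) (μ := (volume : Measure (E 2))) hfm
    have ht : Tendsto (fun m => ∫⁻ v, f m v) atTop (𝓝 0) := hdd
    rw [ht.liminf_eq] at h3
    exact (lintegral_eq_zero_iff (Measurable.liminf hfm)).1 (le_antisymm h3 bot_le)
  have hne : ∀ᵐ v : E 2, v ≠ 0 := by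
    rw [ae_iff]
    simp only [ne_eq, not_not]
    exact measure_singleton (0 : E 2)
  filter_upwards [hlim, hne, hae] with v hl hv hev
  constructor
  · intro hmem
    have hc : ContinuousAt (fun z : E 2 × E 2 => rI G k ct z.1 z.2 v) (N₀, p) :=
      rcont_rI continuousAt_fst continuousAt_snd continuousAt_const hv
    refine rzero (inv_pos.2 (norm_pos_iff.2 hv)) (rI_nonneg (ct := ct) hk hG hct hN1 p hv)
      (hc.tendsto.comp (hN.prodMk_nhds hy)) ?_ hl
    filter_upwards [hev] with m hm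
    rw [indicator_of_mem hmem] at hm
    simp only [hf]
    unfold rD
    rw [if_pos (by rw [hm]; exact hlt m)]
    rfl
  · intro hmem
    have hc : ContinuousAt (fun z : E 2 => max 0 (rB k ct z v)) N₀ :=
      continuousAt_const.max (rcont_rB continuousAt_id continuousAt_const hv)
    refine rzero (inv_pos.2 (norm_pos_iff.2 hv)) (le_max_left _ _)
      (hc.tendsto.comp hN) ?_ hl
    filter_upwards [hev] with m hm
    rw [indicator_of_notMem hmem] at hm
    simp only [hf]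
    unfold rD
    rw [if_neg (by rw [hm]; exact not_lt.2 (h0 _ _))]
    rfl

end Vale.Agent.P219.N2
end
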