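import Vale.Agent.P219.H817.Defs
import Vale.Agent.P219.CoIsoK

open MeasureTheory Set
open scoped ENNReal ContDiff

noncomputable section

namespace Vale.Agent.P219.Co

variable {n : ℕ}

/-- The data of an isometry of the open geodesic ball of `M_K` onto `Ω`. -/
structure IsoData (M : RiemMetric n) (K : ℝ) (Ω : Set (E n)) (r : ℝ) (φ : E n → E n) : Prop where
  smooth : ∀ k, ContDiffOn ℝ ∞ (fun y => φ y k) {y | ∑ i, y i ^ 2 < sn √(-K) r ^ 2}
  inj : Set.InjOn φ {y | ∑ i, y i ^ 2 < sn √(-K) r ^ 2}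
  image : φ '' {y | ∑ i, y i ^ 2 < sn √(-K) r ^ 2} = Ω
  metric : ∀ y, ∑ i, y i ^ 2 < sn √(-K) r ^ 2 → ∀ i j, ∑ k, ∑ l, M.g (φ y) k l *
      pd i (fun z => φ z k) y * pd j (fun z => φ z l) y =
        (if i = j then 1 else 0) + K * y i * y j / (1 - K * ∑ m, y m ^ 2)

theorem IsometricToBallK.data {M : RiemMetric n} {K : ℝ} {D : SmoothDomain n} {r : ℝ}
    (h : IsometricToBallK M K D r) : ∃ φ, IsoData M K D.carrier r φ := by
  obtain ⟨φ, h1, h2, h3, h4⟩ := h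
  exact ⟨φ, h1, h2, h3, h4⟩

end Vale.Agent.P219.Co
end
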