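import Vale.Agent.P219.H817.R3
import Vale.Agent.P219.H817.R4
import Vale.Agent.P219.H817.R5
import Vale.Agent.P219.H817.R6
import Vale.Agent.P219.H732.Sel
import Vale.Agent.P219.H861.Conv
import Vale.Agent.P219.H907.Scale
import Vale.Agent.P219.H907.Scale2
import Vale.Agent.P219.H817.R10

open MeasureTheory Set Filter Topology Metric
open scoped ENNReal ContDiff

noncomputable section

namespace Vale.Agent.P219.Co

/-- Dimension two: in the equality case the set agrees a.e. with a domain all of whose boundary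
points satisfy the chord relations. -/
theorem rig_two {k κ : ℝ} (hk : 0 ≤ k)
    (hVM : ∀ r, modelVol 2 κ r = TPH.VR 2 k r) (hAM : ∀ r, modelArea 2 κ r = TPH.AR 2 k r)
    (M : RiemMetric 2) (e : Fin 2 → E 2 → E 2)
    (he : Vale.Agent.P219.TriangularFrame (old M) e) (hs : Vale.Agent.P219.SecLE (old M) 0)
    (F : CH.GFlow (old M).g) (hcurv : TPH.MonoSn (CH.toGeo (old M) e he hs F) k)
    {S L₀ : Set (E 2)} (hS : MeasurableSet S) (hL₀ : IsCompact L₀) (hSL : S ⊆ L₀) {r : ℝ}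
    (hr : 0 < r) (hV : riemVol M S = ENNReal.ofReal (modelVol 2 κ r))
    (hP : perimeter M S ≤ ENNReal.ofReal (modelArea 2 κ r)) :
    ∃ (p N : E 2) (D : SmoothDomain 2), ‖N‖ = 1 ∧ S =ᵐ[leb 2] D.carrier ∧
      ∀ q ∈ frontier D.carrier, q ≠ p →
        N2.rB k (N2.ct k r) N ((CH.toGeo (old M) e he hs F).lg p q) = 0 ∧
        ‖(CH.toGeo (old M) e he hs F).lg p q‖ *
          ((CH.toGeo (old M) e he hs F).T p ((CH.toGeo (old M) e he hs F).lg p q)).det =
          TPH.sn k ‖(CH.toGeo (old M) e he hs F).lg p q‖ := by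
  obtain ⟨L, h, hL, hh, h0, h1, hL0, hper, hlow, hv1, hlay, hlay', hd⟩ :=
    exists_seq le_rfl hk hVM hAM (funcIso_all le_rfl hk) M e he hs F hcurv hS hL₀ hSL hr hV hP
  set G := CH.toGeo (old M) e he hs F with hG
  obtain ⟨p, N₀, j, y, N, hN1, hj, hy, hN, hD, hdd⟩ :=
    N2.rfs_select hk hcurv hr hh hL hL0 h0 h1 hper hlow hv1 hlay
  have hSf : G.vol S ≠ ⊤ := by
    rw [hG, vol_co_apply M e he hs F hS, hV]
    exact ENNReal.ofReal_ne_top
  obtain ⟨φ, hφ, hae⟩ := N2.rfs_conv G hS hSf (fun j => (hh j).continuous) h0 h1 hd hlay' hj hy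
    hL hL0
  have hφt : Tendsto φ atTop atTop := hφ.tendsto_atTop
  have hdd' : Tendsto (fun m => N2.rDD G k (N2.ct k r) (h (j (φ m))) (N (φ m)) (y (φ m))) atTop
      (𝓝 0) := by
    have h2 : Tendsto (fun m : ℕ => ENNReal.ofReal (1 / ((m : ℝ) + 1))) atTop (𝓝 0) := by
      have := (ENNReal.continuous_ofReal.tendsto 0).comp
        (tendsto_one_div_add_atTop_nhds_zero_nat (𝕜 := ℝ))
      rwa [ENNReal.ofReal_zero] at this
    exact tendsto_of_tendsto_of_tendsto_of_le_of_le tendsto_const_nhds (h2.comp hφt)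
      (fun m => bot_le) fun m => hdd (φ m)
  have hkey := N2.rfs_fatou (G := G) (ct := N2.ct k r) (S := S) hk hcurv (N2.lt_ct hk hr).le
    (h := fun m => h (j (φ m))) (fun m => hh _) (fun m => h0 _) (fun m => h1 _)
    (hN.comp hφt) hN1 (hy.comp hφt) (fun m => hD (φ m)) hdd' hae
  obtain ⟨D, hDc⟩ := rfs_domain G hk hr (p := p) hN1
  obtain ⟨h3, h4⟩ := N2.rfs_chord hk hcurv hr hN1 hkey hDc
  exact ⟨p, N₀, D, hN1, h3, h4⟩

/-- Rigidity for bounded sets, `K = 0`. -/
theorem rig_bdd_zero {n : ℕ} (hn : 2 ≤ n) (M : RiemMetric n) (hM : GeodesicallyComplete M)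
    (hs : SecLE M 0) {S L₀ : Set (E n)} (hS : MeasurableSet S) (hL₀ : IsCompact L₀)
    (hSL : S ⊆ L₀) {r : ℝ} (hr : 0 < r) (hV : riemVol M S = ENNReal.ofReal (modelVol n 0 r))
    (hP : perimeter M S ≤ ENNReal.ofReal (modelArea n 0 r)) :
    ∃ D : SmoothDomain n, S =ᵐ[leb n] D.carrier ∧ IsometricToBallK M 0 D r := by
  obtain ⟨e, he⟩ := CH.exists_triangularFrame (old M)
  have hs' := secLE_old_of_frame ⟨e, he⟩ hs
  obtain ⟨F⟩ := CH.exists_gflow (CH.isMetricOn (old M)) (geoComplete_old hM)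
  have hn1 : 1 ≤ n := by omega
  have hVM : ∀ r, modelVol n 0 r = TPH.VR n 0 r := fun r => by
    rw [← modelVol_old]
    unfold Vale.Agent.P219.modelVol TPH.VR
    rw [TP.sig_eq hn1, CH.om_eq]
    simp only [CH.gl_sn_zero]
  have hAM : ∀ r, modelArea n 0 r = TPH.AR n 0 r := fun r => by
    rw [← modelArea_old]
    unfold Vale.Agent.P219.modelArea TPH.AR
    rw [TP.sig_eq hn1, CH.om_eq, CH.gl_sn_zero]
  have hvD : ∀ D : SmoothDomain n, S =ᵐ[leb n] D.carrier →
      riemVol M D.carrier = ENNReal.ofReal (modelVol n 0 r) := by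
    intro D hD
    rw [← hV]
    exact setLIntegral_congr hD.symm
  rcases hn.eq_or_lt with rfl | hn3
  · obtain ⟨p, N, D, hN, hD, hfr⟩ := rig_two le_rfl hVM hAM M e he hs' F (TPH.MonoSn.zero _) hS
      hL₀ hSL hr hV hP
    exact ⟨D, hD, iso_chord_flat M e he hs' F D hr hN hfr (hvD D hD)⟩
  · have LR : SA.LimRig n 0 := by
      rcases Nat.eq_or_lt_of_le (Nat.succ_le_of_lt hn3) with h3 | h4
      · obtain rfl : n = 3 := h3.symm
        exact SA.limRig_three (densFieldStmt (by omega)) le_rfl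
      · exact SA.limRig_four (densFieldStmt (by omega)) (by omega) le_rfl (limSob n)
    obtain ⟨c, hc⟩ := rig_ball hn le_rfl hVM hAM (funcIso_all hn le_rfl) LR M e he hs' F
      (TPH.MonoSn.zero _) hS hL₀ hSL hr hV hP
    obtain ⟨D, hD⟩ := exists_ballDomain hn (CH.toGeo (old M) e he hs' F) c hr
    have hD' : S =ᵐ[leb n] D.carrier := by rw [hD]; exact hc
    refine ⟨D, hD', iso_center_flat hn M e he hs' F D hr c (fun q hq => ?_) (hvD D hD')⟩
    rw [hD] at hq
    exact frontier_lt_subset_eq (BD.lg_contDiff _ c).continuous.norm continuous_const hq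

/-- Rigidity for bounded sets, `K = -1`. -/
theorem rig_bdd_one {n : ℕ} (hn : 2 ≤ n) (M : RiemMetric n) (hM : GeodesicallyComplete M)
    (hs : SecLE M (-1)) {S L₀ : Set (E n)} (hS : MeasurableSet S) (hL₀ : IsCompact L₀)
    (hSL : S ⊆ L₀) {r : ℝ} (hr : 0 < r) (hV : riemVol M S = ENNReal.ofReal (modelVol n (-1) r))
    (hP : perimeter M S ≤ ENNReal.ofReal (modelArea n (-1) r)) :
    ∃ D : SmoothDomain n, S =ᵐ[leb n] D.carrier ∧ IsometricToBallK M (-1) D r := by
  obtain ⟨e, he⟩ := CH.exists_triangularFrame (old M)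
  have hs' := secLE_old_of_frame ⟨e, he⟩ hs
  obtain ⟨F⟩ := CH.exists_gflow (CH.isMetricOn (old M)) (geoComplete_old hM)
  have hn1 : 1 ≤ n := by omega
  have hcurv : TPH.MonoSn (CH.toGeo (old M) e he (CH.secLE_zero hs') F) 1 :=
    (TPH.curv_of_geoH (CH.toGeoH (old M) e he hs' F hn)).monoSn
  have hVM : ∀ r, modelVol n (-1) r = TPH.VR n 1 r := fun r => by
    rw [← modelVol_old]
    unfold Vale.Agent.P219.modelVol TPH.VR
    rw [TP.sig_eq hn1, CH.om_eq]
    simp only [CH.gl_sn_one]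
  have hAM : ∀ r, modelArea n (-1) r = TPH.AR n 1 r := fun r => by
    rw [← modelArea_old]
    unfold Vale.Agent.P219.modelArea TPH.AR
    rw [TP.sig_eq hn1, CH.om_eq, CH.gl_sn_one]
  have hvD : ∀ D : SmoothDomain n, S =ᵐ[leb n] D.carrier →
      riemVol M D.carrier = ENNReal.ofReal (modelVol n (-1) r) := by
    intro D hD
    rw [← hV]
    exact setLIntegral_congr hD.symm
  rcases hn.eq_or_lt with rfl | hn3
  · obtain ⟨p, N, D, hN, hD, hfr⟩ := rig_two zero_le_one hVM hAM M e he (CH.secLE_zero hs') F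
      hcurv hS hL₀ hSL hr hV hP
    exact ⟨D, hD, iso_chord_one M e he hs' F D hr hN hfr (hvD D hD)⟩
  · have LR : SA.LimRig n 1 := by
      rcases Nat.eq_or_lt_of_le (Nat.succ_le_of_lt hn3) with h3 | h4
      · obtain rfl : n = 3 := h3.symm
        exact SA.limRig_three (densFieldStmt (by omega)) zero_le_one
      · exact SA.limRig_four (densFieldStmt (by omega)) (by omega) zero_le_one (limSob n)
    obtain ⟨c, hc⟩ := rig_ball hn zero_le_one hVM hAM (funcIso_all hn zero_le_one) LR M e he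
      (CH.secLE_zero hs') F hcurv hS hL₀ hSL hr hV hP
    obtain ⟨D, hD⟩ := exists_ballDomain hn (CH.toGeo (old M) e he (CH.secLE_zero hs') F) c hr
    have hD' : S =ᵐ[leb n] D.carrier := by rw [hD]; exact hc
    refine ⟨D, hD', iso_center_one hn M e he hs' F D hr c (fun q hq => ?_) (hvD D hD')⟩
    rw [hD] at hq
    exact frontier_lt_subset_eq (BD.lg_contDiff _ c).continuous.norm continuous_const hq

/-- Rigidity for bounded sets. -/
theorem rig_bdd {n : ℕ} (hn : 2 ≤ n) {K : ℝ} (hK : K ≤ 0) (M : RiemMetric n)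
    (hM : GeodesicallyComplete M) (hs : SecLE M K) {S L₀ : Set (E n)} (hS : MeasurableSet S)
    (hL₀ : IsCompact L₀) (hSL : S ⊆ L₀) {r : ℝ} (hr : 0 < r)
    (hV : riemVol M S = ENNReal.ofReal (modelVol n K r))
    (hP : perimeter M S ≤ ENNReal.ofReal (modelArea n K r)) :
    ∃ D : SmoothDomain n, S =ᵐ[leb n] D.carrier ∧ IsometricToBallK M K D r := by
  rcases hK.eq_or_lt with rfl | hκ
  · exact rig_bdd_zero hn M hM hs hS hL₀ hSL hr hV hP
  · obtain ⟨b, hb0, hb, hb2⟩ : ∃ b : ℝ, √(-K) = b ∧ 0 < b ∧ -K = b ^ 2 :=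
      ⟨√(-K), rfl, Real.sqrt_pos.2 (neg_pos.2 hκ), (Real.sq_sqrt (neg_pos.2 hκ).le).symm⟩
    obtain ⟨D, hD, hI⟩ := rig_bdd_one hn (scale M (-K) (neg_pos.2 hκ)) (scale_complete _ hM)
      (scale_sec hκ hs) hS hL₀ hSL (mul_pos hb hr)
      (by rw [scale_riemVol hb _ hb2, scale_modelVol (by omega) hb hb2, hV,
        ENNReal.ofReal_mul (pow_nonneg hb.le n)])
      (by
        rw [scale_perimeter (by omega) hb _ hb2, scale_modelArea hb hb2,
          ENNReal.ofReal_mul (pow_nonneg hb.le (n - 1))]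
        gcongr)
    refine ⟨D, hD, rcc_of_scale hκ ?_⟩
    rw [hb0]
    exact hI

end Vale.Agent.P219.Co
end
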