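import Vale.Agent.P219.H817.R8
import Vale.Agent.P219.H861.Cut
import Vale.Agent.P219.H732.Prof
import Vale.Agent.P219.H941.Iter

open MeasureTheory Set Filter Topology
open scoped ENNReal ContDiff

noncomputable section

namespace Vale.Agent.P219.Co

variable {n : ℕ}

theorem riemVol_null (M : RiemMetric n) {S : Set (E n)} (h : riemVol M S = 0) : leb n S = 0 := by
  unfold riemVol at h
  rw [lintegral_eq_zero_iff ((volDensity_cont M).measurable.ennreal_ofReal)] at h
  by_contra hne
  have h1 : ∀ᵐ x ∂((leb n).restrict S), False := by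
    filter_upwards [h] with x hx
    simp only [Pi.zero_apply, ENNReal.ofReal_eq_zero] at hx
    exact absurd (volDensity_pos M x) (not_lt.2 hx)
  rw [Filter.eventually_false_iff_eq_bot, ae_eq_bot, Measure.restrict_eq_zero] at h1
  exact hne h1

/-- In the equality case the set is bounded, up to a null set. -/
theorem ae_bdd (hn : 2 ≤ n) {K : ℝ} (hK : K ≤ 0) (M : RiemMetric n)
    (hM : GeodesicallyComplete M) (hs : SecLE M K) {S : Set (E n)} (hS : MeasurableSet S)
    {r : ℝ} (hr : 0 < r) (hV : riemVol M S = ENNReal.ofReal (modelVol n K r))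
    (hP : perimeter M S ≤ ENNReal.ofReal (modelArea n K r)) :
    ∃ L₀ : Set (E n), IsCompact L₀ ∧ riemVol M (S \ L₀) = 0 := by
  have hn1 : 1 ≤ n := by omega
  obtain ⟨C, B, hC, hBc, hBm, hBu, hcut⟩ := cut_ineq hn hK M hM hs hS hr hV hP
  obtain ⟨c, C₁, μ, hc, hC₁, hμ, hμV, hp1, hp2⟩ := profile_facts (n := n) hn hK hr
  have hVfin : riemVol M S ≠ ⊤ := by rw [hV]; exact ENNReal.ofReal_ne_top
  have hBmeas : ∀ t, MeasurableSet (B t) := fun t => (hBc t).measurableSet
  have hVr0 : 0 ≤ modelVol n K r := hμ.le.trans hμV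
  set m : ℝ → ℝ := fun t => (riemVol M (S \ B t)).toReal with hm
  have hfin : ∀ t, riemVol M (S \ B t) ≠ ⊤ := fun t =>
    ne_top_of_le_ne_top hVfin (riemVol_mono M sdiff_subset)
  have hanti : Antitone m := fun a b hab =>
    ENNReal.toReal_mono (hfin a) (riemVol_mono M (sdiff_subset_sdiff_right (hBm hab)))
  have h0 : ∀ t, 0 ≤ m t := fun t => ENNReal.toReal_nonneg
  have hlimE : Tendsto (fun t : ℝ => muG M (S \ B t)) atTop (𝓝 0) := by
    have h1 := tendsto_measure_iInter_atTop (μ := muG M) (s := fun t : ℝ => S \ B t)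
      (fun t => (hS.diff (hBmeas t)).nullMeasurableSet)
      (fun a b hab => sdiff_subset_sdiff_right (hBm hab))
      ⟨0, by rw [muG_apply M (hS.diff (hBmeas 0))]; exact hfin 0⟩
    have h2 : ⋂ t : ℝ, S \ B t = ∅ := by
      rw [← sdiff_iUnion, hBu, sdiff_univ]
    rwa [h2, measure_empty] at h1
  have hlim : Tendsto m atTop (𝓝 0) := by
    have h1 := (ENNReal.tendsto_toReal ENNReal.zero_ne_top).comp hlimE
    rw [ENNReal.toReal_zero] at h1
    refine h1.congr fun t => ?_
    simp only [Function.comp_apply, hm]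
    rw [muG_apply M (hS.diff (hBmeas t))]
  obtain ⟨T₁, hT₁⟩ := eventually_atTop.1 (hlim.eventually (gt_mem_nhds hμ))
  have key : ∀ t ε : ℝ, max T₁ 1 ≤ t → 0 < ε → ε ≤ 1 →
      c * m (t + ε) ^ (((n : ℝ) - 1) / n) ≤ C₁ * m t + C / ε * (m t - m (t + ε)) := by
    intro t ε ht hε hε1
    have ht1 : 1 ≤ t := (le_max_right _ _).trans ht
    have hmt : m t < μ := hT₁ t ((le_max_left _ _).trans ht)
    obtain ⟨R₁, hR₁, hVR₁⟩ := modelVol_co_surj (n := n) hn1 K
      (show 0 ≤ modelVol n K r - m t by linarith)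
    obtain ⟨R₂, hR₂, hVR₂⟩ := modelVol_co_surj (n := n) hn1 K (h0 (t + ε))
    have hsplit : riemVol M S = riemVol M (S ∩ B t) + riemVol M (S \ B t) := by
      rw [← muG_apply M hS, ← muG_apply M (hS.inter (hBmeas t)),
        ← muG_apply M (hS.diff (hBmeas t)), measure_inter_add_sdiff S (hBmeas t)]
    have hfI : riemVol M (S ∩ B t) ≠ ⊤ := ne_top_of_le_ne_top hVfin (riemVol_mono M inter_subset_left)
    have e1 : modelVol n K r = (riemVol M (S ∩ B t)).toReal + m t := by
      rw [hm, ← ENNReal.toReal_add hfI (hfin t), ← hsplit, hV, ENNReal.toReal_ofReal hVr0]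
    have e2 : ENNReal.ofReal (modelVol n K R₁) ≤ riemVol M (S ∩ B t) := by
      rw [hVR₁, ENNReal.ofReal_le_iff_le_toReal hfI]
      linarith
    have e3 : ENNReal.ofReal (modelVol n K R₂) ≤ riemVol M (S \ B (t + ε)) := by
      rw [hVR₂, ENNReal.ofReal_toReal (hfin _)]
    have h1 := hcut t ε R₁ R₂ ht1 hε hε1 hR₁ hR₂ e2 e3
    have e4 : (riemVol M (S ∩ (B (t + ε) \ B t))).toReal = m t - m (t + ε) := by
      have hsub : S \ B (t + ε) ⊆ S \ B t := sdiff_subset_sdiff_right (hBm (by linarith))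
      have hset : S ∩ (B (t + ε) \ B t) = (S \ B t) \ (S \ B (t + ε)) := by
        ext x
        simp only [mem_inter_iff, Set.mem_sdiff]
        tauto
      rw [hset, ← muG_apply M ((hS.diff (hBmeas t)).diff (hS.diff (hBmeas (t + ε)))),
        measure_sdiff hsub (hS.diff (hBmeas _)).nullMeasurableSet
          (by rw [muG_apply M (hS.diff (hBmeas _))]; exact hfin _),
        muG_apply M (hS.diff (hBmeas _)), muG_apply M (hS.diff (hBmeas _)),
        ENNReal.toReal_sub_of_le (riemVol_mono M hsub) (hfin _)]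
    rw [e4] at h1
    have h2 := hp1 R₁ hR₁ (by rw [hVR₁]; linarith) (by rw [hVR₁]; linarith [h0 t])
    rw [hVR₁] at h2
    have h3 := hp2 R₂ hR₂
    rw [hVR₂] at h3
    have h4 : C₁ * (modelVol n K r - (modelVol n K r - m t)) = C₁ * m t := by ring
    linarith
  obtain ⟨T, hT⟩ := iterate hanti h0 hlim hn hc hC₁ hC key
  refine ⟨B T, hBc T, ?_⟩
  rcases (ENNReal.toReal_eq_zero_iff _).1 hT with h | h
  · exact h
  · exact absurd h (hfin T)

/-- **Rigidity**: in the equality case the set agrees almost everywhere with a domain isometric to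
the geodesic ball of the model space. -/
theorem rig_all (hn : 2 ≤ n) {K : ℝ} (hK : K ≤ 0) (M : RiemMetric n)
    (hM : GeodesicallyComplete M) (hs : SecLE M K) {S : Set (E n)} (hS : MeasurableSet S)
    {r : ℝ} (hr : 0 < r) (hV : riemVol M S = ENNReal.ofReal (modelVol n K r))
    (hP : perimeter M S ≤ ENNReal.ofReal (modelArea n K r)) :
    ∃ D : SmoothDomain n, S =ᵐ[leb n] D.carrier ∧ IsometricToBallK M K D r := by
  obtain ⟨L₀, hL₀, h0⟩ := ae_bdd hn hK M hM hs hS hr hV hP
  have hLm : MeasurableSet L₀ := hL₀.measurableSet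
  have hnull : leb n (S \ L₀) = 0 := riemVol_null M h0
  have hae : (S ∩ L₀ : Set (E n)) =ᵐ[leb n] S := by
    have h1 : ∀ᵐ x ∂leb n, x ∉ S \ L₀ := by
      rw [ae_iff]
      simp only [not_not]
      exact hnull
    filter_upwards [h1] with x hx
    refine propext ⟨fun h => h.1, fun h => ⟨h, ?_⟩⟩
    by_contra h2
    exact hx ⟨h, h2⟩
  have hV' : riemVol M (S ∩ L₀) = ENNReal.ofReal (modelVol n K r) := by
    rw [← hV]
    exact setLIntegral_congr hae
  have hP' : perimeter M (S ∩ L₀) ≤ ENNReal.ofReal (modelArea n K r) := by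
    refine le_trans (le_of_eq ?_) hP
    unfold perimeter
    refine iSup_congr fun X => iSup_congr fun hX => ?_
    rw [setIntegral_congr_set hae]
  obtain ⟨D, hD, hI⟩ := rig_bdd hn hK M hM hs (hS.inter hLm) hL₀ inter_subset_right hr hV' hP'
  exact ⟨D, hae.symm.trans hD, hI⟩

end Vale.Agent.P219.Co
end
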