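import Vale.Agent.P219.Bdl.B15
import Vale.Agent.P219.H817.Defs
import Vale.Agent.P219.H817.Mass

open MeasureTheory Set Filter Topology
open scoped ENNReal ContDiff

noncomputable section

namespace Vale.Agent.P219.CH

variable {n : ℕ} {M : RiemMetric n} {e : Fin n → E n → E n}

theorem x817_vol_apply (he : TriangularFrame M e) (hs : SecLE M 0) (F : GFlow M.g) {S : Set (E n)}
    (hS : MeasurableSet S) : (toGeo M e he hs F).vol S = riemVol M S := by
  have h1 : (toGeo M e he hs F).vol =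
      volume.withDensity fun x => ENNReal.ofReal (volDensity M x) := rfl
  rw [h1, withDensity_apply _ hS]
  rfl

theorem x817_gl {k κ : ℝ} (hVM : ∀ r, modelVol n κ r = TPH.VR n k r)
    (hAM : ∀ r, modelArea n κ r = TPH.AR n k r) (FI : TPH.FuncIso n k)
    (he : TriangularFrame M e) (hs0 : SecLE M 0) (F : GFlow M.g)
    (hcurv : TPH.MonoSn (toGeo M e he hs0 F) k) {h : E n → ℝ} (hh : ContDiff ℝ 1 h)
    (hcs : HasCompactSupport h) (h01 : ∀ x, 0 ≤ h x ∧ h x ≤ 1) {R : ℝ} (hR : 0 ≤ R)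
    (hV : ENNReal.ofReal (modelVol n κ R) ≤ riemVol M {x | h x = 1}) :
    ENNReal.ofReal (modelArea n κ R) ≤
      ∫⁻ x, ENNReal.ofReal (covNorm M x (fderiv ℝ h x) * volDensity M x) := by
  set G := toGeo M e he hs0 F with hG
  have hm1 : MeasurableSet {x | h x = 1} :=
    (isClosed_eq hh.continuous continuous_const).measurableSet
  have hfin : riemVol M {x | h x = 1} ≠ ⊤ := by
    rw [← x817_vol_apply he hs0 F hm1]
    refine ((measure_mono fun x hx => ?_).trans_lt
      ((toGeo M e he hs0 F).vol_compact_lt_top hcs.isCompact)).ne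
    refine subset_tsupport h ?_
    have : h x = 1 := hx
    rw [Function.mem_support, this]
    exact one_ne_zero
  have h1 : TPH.VR n k R ≤ G.vol.real {x | h x = 1} := by
    rw [Measure.real, hG, x817_vol_apply he hs0 F hm1, ← hVM]
    exact (ENNReal.ofReal_le_iff_le_toReal hfin).1 hV
  have h2 := FI G hcurv h hh hcs h01 R hR h1
  rw [← hAM] at h2
  have hnn : ∀ x, 0 ≤ covNorm M x (fderiv ℝ h x) * volDensity M x := fun x =>
    mul_nonneg (covNorm_nonneg M e he x _) (volDensity_gt M e he x).le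
  have hc : Continuous fun x => covNorm M x (fderiv ℝ h x) * volDensity M x :=
    (covNorm_fderiv_continuous M e he hh).mul (volDensity_smooth M e he).continuous
  unfold TP.Geo.per at h2
  rw [hG, integral_vol he hs0 F] at h2
  simp only [norm_D_eq he hs0 F] at h2
  rw [integral_eq_lintegral_of_nonneg_ae (Eventually.of_forall hnn) hc.aestronglyMeasurable] at h2
  by_cases ht : ∫⁻ x, ENNReal.ofReal (covNorm M x (fderiv ℝ h x) * volDensity M x) = ⊤
  · rw [ht]
    exact le_top
  · exact (ENNReal.ofReal_le_iff_le_toReal ht).2 h2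

theorem x817_one (hn : 2 ≤ n) (FI : TPH.FuncIso n 1)
    (M : RiemMetric n) (hc : GeoComplete M.g) (hs : SecLE M (-1)) {h : E n → ℝ}
    (hh : ContDiff ℝ 1 h) (hcs : HasCompactSupport h) (h01 : ∀ x, 0 ≤ h x ∧ h x ≤ 1) {R : ℝ}
    (hR : 0 ≤ R) (hV : ENNReal.ofReal (modelVol n (-1) R) ≤ riemVol M {x | h x = 1}) :
    ENNReal.ofReal (modelArea n (-1) R) ≤
      ∫⁻ x, ENNReal.ofReal (covNorm M x (fderiv ℝ h x) * volDensity M x) := by
  obtain ⟨e, he⟩ := exists_triangularFrame M
  obtain ⟨F⟩ := exists_gflow (isMetricOn M) hc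
  have hn1 : 1 ≤ n := by omega
  refine x817_gl (fun r => ?_) (fun r => ?_) FI he (secLE_zero hs) F
    (TPH.curv_of_geoH (toGeoH M e he hs F hn)).monoSn hh hcs h01 hR hV
  · unfold modelVol TPH.VR
    rw [TP.sig_eq hn1, om_eq]
    simp only [gl_sn_one]
  · unfold modelArea TPH.AR
    rw [TP.sig_eq hn1, om_eq, gl_sn_one]

theorem x817_zero (hn : 2 ≤ n) (FI : TPH.FuncIso n 0)
    (M : RiemMetric n) (hc : GeoComplete M.g) (hs : SecLE M 0) {h : E n → ℝ}
    (hh : ContDiff ℝ 1 h) (hcs : HasCompactSupport h) (h01 : ∀ x, 0 ≤ h x ∧ h x ≤ 1) {R : ℝ}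
    (hR : 0 ≤ R) (hV : ENNReal.ofReal (modelVol n 0 R) ≤ riemVol M {x | h x = 1}) :
    ENNReal.ofReal (modelArea n 0 R) ≤
      ∫⁻ x, ENNReal.ofReal (covNorm M x (fderiv ℝ h x) * volDensity M x) := by
  obtain ⟨e, he⟩ := exists_triangularFrame M
  obtain ⟨F⟩ := exists_gflow (isMetricOn M) hc
  have hn1 : 1 ≤ n := by omega
  refine x817_gl (fun r => ?_) (fun r => ?_) FI he hs F (TPH.MonoSn.zero _) hh hcs h01 hR hV
  · unfold modelVol TPH.VR
    rw [TP.sig_eq hn1, om_eq]
    simp only [gl_sn_zero]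
  · unfold modelArea TPH.AR
    rw [TP.sig_eq hn1, om_eq, gl_sn_zero]

end Vale.Agent.P219.CH

namespace Vale.Agent.P219.Co


variable {n : ℕ}

theorem funcIso_all (hn : 2 ≤ n) {k : ℝ} (hk : 0 ≤ k) : TPH.FuncIso n k := by
  rcases hn.eq_or_lt with rfl | hn
  · exact SA.funcIso_two hk
  · rcases Nat.eq_or_lt_of_le (Nat.succ_le_of_lt hn) with h3 | h4
    · obtain rfl : n = 3 := h3.symm
      exact SA.funcIso_three (densFieldStmt (by omega)) hk
    · exact SA.funcIso_four (densFieldStmt (by omega)) (by omega) hk (limSob n)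

theorem gradMass_old {M : RiemMetric n} {e : Fin n → E n → Fin n → ℝ} (he : TriangularFrame M e)
    {f : E n → ℝ} (hf : Differentiable ℝ f) :
    ∫⁻ x, ENNReal.ofReal (covNorm (old M) x (fderiv ℝ f x) *
      Vale.Agent.P219.volDensity (old M) x) = gradMass M f := by
  unfold gradMass leb
  simp only [gradNorm_old he hf, volDensity_old]

theorem gradMass_scale (hn : 1 ≤ n) {M : RiemMetric n} {b : ℝ} (hb : 0 < b) {c : ℝ} (hc : 0 < c)
    (hbc : c = b ^ 2) (f : E n → ℝ) :
    gradMass (scale M c hc) f = ENNReal.ofReal (b ^ (n - 1)) * gradMass M f := by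
  unfold gradMass
  rw [← lintegral_const_mul' _ _ ENNReal.ofReal_ne_top]
  congr 1
  funext x
  rw [← ENNReal.ofReal_mul (pow_nonneg hb.le (n - 1)), scale_volDensity hb hc hbc,
    scale_gradNorm hb hc hbc]
  congr 1
  obtain ⟨m, rfl⟩ : ∃ m, n = m + 1 := ⟨n - 1, by omega⟩
  rw [Nat.add_sub_cancel, pow_succ]
  field_simp

/-- The functional inequality on every Cartan-Hadamard manifold. -/
theorem plateau (hn : 2 ≤ n) {K : ℝ} (hK : K ≤ 0) (M : RiemMetric n)
    (hM : GeodesicallyComplete M) (hs : SecLE M K) {h : E n → ℝ} (hh : ContDiff ℝ 1 h)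
    (hcs : HasCompactSupport h) (h01 : ∀ x, 0 ≤ h x ∧ h x ≤ 1) {R : ℝ} (hR : 0 ≤ R)
    (hV : ENNReal.ofReal (modelVol n K R) ≤ riemVol M {x | h x = 1}) :
    ENNReal.ofReal (modelArea n K R) ≤ gradMass M h := by
  have hd : Differentiable ℝ h := hh.differentiable one_ne_zero
  rcases hK.eq_or_lt with rfl | hκ
  · obtain ⟨e, he⟩ := CH.exists_triangularFrame (old M)
    have h1 := CH.x817_zero hn (funcIso_all hn le_rfl) (old M) (geoComplete_old hM)
      (secLE_old_of_frame ⟨e, he⟩ hs) hh hcs h01 hR (by rwa [riemVol_old, modelVol_old])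
    rwa [modelArea_old, gradMass_old (frame_of_old he) hd] at h1
  · set b : ℝ := √(-K) with hbdef
    have hb : 0 < b := Real.sqrt_pos.2 (neg_pos.2 hκ)
    have hb2 : -K = b ^ 2 := (Real.sq_sqrt (neg_pos.2 hκ).le).symm
    set M' := scale M (-K) (neg_pos.2 hκ) with hM'
    obtain ⟨e, he⟩ := CH.exists_triangularFrame (old M')
    have hV' : ENNReal.ofReal (Vale.Agent.P219.modelVol n (-1) (b * R)) ≤
        Vale.Agent.P219.riemVol (old M') {x | h x = 1} := by
      rw [riemVol_old, modelVol_old, hM', scale_riemVol hb _ hb2, scale_modelVol (by omega) hb hb2,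
        ENNReal.ofReal_mul (pow_nonneg hb.le n)]
      gcongr
    have h1 := CH.x817_one hn (funcIso_all hn zero_le_one) (old M')
      (geoComplete_old (scale_complete _ hM)) (secLE_old_of_frame ⟨e, he⟩ (scale_sec hκ hs)) hh hcs
      h01 (mul_nonneg hb.le hR) hV'
    rw [modelArea_old, gradMass_old (frame_of_old he) hd, scale_modelArea hb hb2, hM',
      gradMass_scale (by omega) hb _ hb2, ENNReal.ofReal_mul (pow_nonneg hb.le (n - 1))] at h1
    exact (ENNReal.mul_le_mul_iff_right (by simpa using pow_pos hb (n - 1))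
      ENNReal.ofReal_ne_top).1 h1

end Vale.Agent.P219.Co
end
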