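import Vale.Agent.P219.H817.T9

open MeasureTheory Set Filter Topology Matrix
open scoped ENNReal ContDiff

noncomputable section

namespace Vale.Agent.P219.Co

variable {n : ℕ}

theorem sn_cont (b : ℝ) : Continuous (sn b) := by
  unfold sn
  by_cases h : b = 0
  · simp only [h, if_true]
    exact continuous_id
  · simp only [h, if_false]
    fun_prop

theorem sn_pos {b : ℝ} (hb : 0 ≤ b) {r : ℝ} (hr : 0 < r) : 0 < sn b r := by
  unfold sn
  split_ifs with h
  · exact hr
  · have hb' : 0 < b := lt_of_le_of_ne hb (Ne.symm h)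
    exact div_pos (Real.sinh_pos_iff.2 (mul_pos hb' hr)) hb'

theorem modelArea_pos (hn : 1 ≤ n) (κ : ℝ) {r : ℝ} (hr : 0 < r) : 0 < modelArea n κ r := by
  have h1 := omega_co_pos n
  have h2 : (0 : ℝ) < n := by exact_mod_cast hn
  exact mul_pos (mul_pos h2 h1) (pow_pos (sn_pos (Real.sqrt_nonneg _) hr) _)

theorem modelArea_nonneg (κ : ℝ) {r : ℝ} (hr : 0 ≤ r) : 0 ≤ modelArea n κ r := by
  have h1 := omega_co_pos n
  refine mul_nonneg (mul_nonneg (Nat.cast_nonneg n) h1.le) (pow_nonneg ?_ _)
  rcases hr.eq_or_lt with h | h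
  · rw [← h]
    unfold sn
    split_ifs <;> simp
  · exact (sn_pos (Real.sqrt_nonneg _) h).le

theorem modelVol_hasDerivAt (κ r : ℝ) : HasDerivAt (modelVol n κ) (modelArea n κ r) r := by
  have hc : Continuous fun t => sn √(-κ) t ^ (n - 1) := (sn_cont _).pow _
  have h := (intervalIntegral.integral_hasDerivAt_right (a := 0) (b := r)
    (hc.intervalIntegrable _ _) hc.aestronglyMeasurable.stronglyMeasurableAtFilter
    hc.continuousAt).const_mul (n * omega n)
  exact h

/-- The layer inequality in terms of the rearrangement. -/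
theorem layer_rearr (hn : 2 ≤ n) {K : ℝ} (hK : K ≤ 0) (M : RiemMetric n)
    (hM : GeodesicallyComplete M) (hs : SecLE M K) {f : E n → ℝ} (hf : ContDiff ℝ 1 f)
    (hcs : HasCompactSupport f) {r s : ℝ} (hr : 0 ≤ r)
    (hlt : rearr M K f s < rearr M K f r) :
    ENNReal.ofReal (modelArea n K r * (rearr M K f r - rearr M K f s)) ≤
      ∫⁻ x in {x | rearr M K f s < |f x| ∧ |f x| < rearr M K f r},
        ENNReal.ofReal (gradNorm M f x * volDensity M x) ∂leb n := by
  have ha0 : 0 ≤ rearr M K f s := rearr_nonneg M K s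
  refine le_trans ?_ (layer_ineq hn hK M hM hs hf hcs ha0 hlt)
  rw [mul_comm, ENNReal.ofReal_mul (sub_pos.2 hlt).le]
  gcongr
  exact le_isoProfile hr (vol_ge_rearr M K hf.continuous hcs (ha0.trans_lt hlt))

/-- Hölder on a layer. -/
theorem layer_p (hn : 2 ≤ n) {K : ℝ} (hK : K ≤ 0) (M : RiemMetric n)
    (hM : GeodesicallyComplete M) (hs : SecLE M K) {f : E n → ℝ} (hf : ContDiff ℝ 1 f)
    (hcs : HasCompactSupport f) {p : ℝ} (hp : 1 ≤ p) {r s : ℝ} (hr : 0 ≤ r) (hrs : r < s)
    (hlt : rearr M K f s < rearr M K f r) :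
    ENNReal.ofReal ((modelArea n K r * (rearr M K f r - rearr M K f s)) ^ p /
        (modelVol n K s - modelVol n K r) ^ (p - 1)) ≤
      ∫⁻ x in {x | rearr M K f s < |f x| ∧ |f x| < rearr M K f r},
        ENNReal.ofReal (gradNorm M f x ^ p * volDensity M x) ∂leb n := by
  set L : Set (E n) := {x | rearr M K f s < |f x| ∧ |f x| < rearr M K f r} with hL
  have hfc := hf.continuous
  have hLm : MeasurableSet L :=
    (level_meas hfc _).inter (measurableSet_lt hfc.abs.measurable measurable_const)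
  have hVlt : modelVol n K r < modelVol n K s :=
    modelVol_co_strictMono (by omega) K hr (hr.trans hrs.le) hrs
  have hV0 : 0 < modelVol n K s - modelVol n K r := sub_pos.2 hVlt
  have hA0 : 0 ≤ modelArea n K r * (rearr M K f r - rearr M K f s) :=
    mul_nonneg (modelArea_nonneg K hr) (sub_pos.2 hlt).le
  have h1 := layer_rearr hn hK M hM hs hf hcs hr hlt
  have h2 := vol_layer_le M K (by omega) hfc hcs hr hlt
  rw [← hL] at h1 h2
  have hgm : Measurable fun x => ENNReal.ofReal (gradNorm M f x) :=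
    (gradNorm_cont M hf).measurable.ennreal_ofReal
  -- rewriting with the Riemannian measure
  have hmeas : ∀ q : ℝ, 0 ≤ q → ∫⁻ x in L, ENNReal.ofReal (gradNorm M f x ^ q * volDensity M x) ∂leb n =
      ∫⁻ x, ENNReal.ofReal (gradNorm M f x) ^ q ∂(muG M).restrict L := by
    intro q hq
    have e1 : (muG M).restrict L = ((leb n).restrict L).withDensity
        fun x => ENNReal.ofReal (volDensity M x) := restrict_withDensity hLm _
    rw [e1, lintegral_withDensity_eq_lintegral_mul _ (ofReal_volDensity_meas M)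
      (hgm.pow_const q)]
    refine lintegral_congr fun x => ?_
    rw [Pi.mul_apply, ENNReal.ofReal_rpow_of_nonneg (gradNorm_nonneg M f x) hq,
      ENNReal.ofReal_mul (Real.rpow_nonneg (gradNorm_nonneg M f x) _), mul_comm]
  have hmu : (muG M).restrict L univ ≤ ENNReal.ofReal (modelVol n K s - modelVol n K r) := by
    rw [Measure.restrict_apply_univ, muG_apply M hLm]
    exact h2
  rw [hmeas p (by linarith)]
  have h1' : ENNReal.ofReal (modelArea n K r * (rearr M K f r - rearr M K f s)) ≤
      ∫⁻ x, ENNReal.ofReal (gradNorm M f x) ∂(muG M).restrict L := by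
    refine h1.trans (le_of_eq ?_)
    have h3 := hmeas 1 zero_le_one
    simp only [Real.rpow_one, ENNReal.rpow_one] at h3
    exact h3
  rcases hp.eq_or_lt with rfl | hp1
  · simp only [Real.rpow_one, sub_self, Real.rpow_zero, div_one, ENNReal.rpow_one]
    exact h1'
  -- Hölder
  have hpq := Real.HolderConjugate.conjExponent hp1
  set q : ℝ := p.conjExponent with hq
  have hq0 : 0 < q := hpq.symm.pos
  have hp0 : 0 < p := by linarith
  have hH := ENNReal.lintegral_mul_le_Lp_mul_Lq ((muG M).restrict L) hpq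
    (f := fun x => ENNReal.ofReal (gradNorm M f x)) (g := fun _ => 1) hgm.aemeasurable
    aemeasurable_const
  simp only [Pi.mul_apply, mul_one, ENNReal.one_rpow, lintegral_one] at hH
  set A : ℝ≥0∞ := ∫⁻ x, ENNReal.ofReal (gradNorm M f x) ^ p ∂(muG M).restrict L with hA
  have h5 : ENNReal.ofReal (modelArea n K r * (rearr M K f r - rearr M K f s)) ≤
      A ^ (1 / p) * ENNReal.ofReal (modelVol n K s - modelVol n K r) ^ (1 / q) := by
    refine h1'.trans (hH.trans ?_)
    gcongr
  have h6 := ENNReal.rpow_le_rpow h5 hp0.le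
  rw [ENNReal.mul_rpow_of_nonneg _ _ hp0.le, ← ENNReal.rpow_mul, ← ENNReal.rpow_mul,
    one_div_mul_cancel hp0.ne', ENNReal.rpow_one] at h6
  have h7 : 1 / q * p = p - 1 := by
    have := hpq.inv_add_inv_eq_one
    field_simp at this ⊢
    linarith
  rw [h7, ENNReal.ofReal_rpow_of_nonneg hA0 hp0.le,
    ENNReal.ofReal_rpow_of_nonneg hV0.le (by linarith)] at h6
  have hVp : 0 < (modelVol n K s - modelVol n K r) ^ (p - 1) := Real.rpow_pos_of_pos hV0 _
  rw [ENNReal.ofReal_div_of_pos hVp]
  exact ENNReal.div_le_of_le_mul h6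

/-- The Pólya-Szegő inequality on Cartan-Hadamard manifolds. -/
theorem polya_szego (hn : 2 ≤ n) {K : ℝ} (hK : K ≤ 0) (M : RiemMetric n)
    (hM : GeodesicallyComplete M) (hs : SecLE M K) {f : E n → ℝ} (hf : ContDiff ℝ 1 f)
    (hcs : HasCompactSupport f) {p : ℝ} (hp : 1 ≤ p) :
    ∫⁻ r in Ioi (0 : ℝ), ENNReal.ofReal (|deriv (rearr M K f) r| ^ p * modelArea n K r) ≤
      ∫⁻ x, ENNReal.ofReal (gradNorm M f x ^ p * volDensity M x) ∂leb n := by
  have hfc := hf.continuous
  set F : ℝ → ℝ := rearr M K f with hF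
  have hanti : AntitoneOn F (Ici 0) := rearr_antitone M K (by omega) hfc hcs
  refine fatou_ps (V := modelVol n K) hanti (modelArea_co_cont K)
    (fun r hr => modelArea_pos (by omega) K hr) (fun r => modelVol_hasDerivAt K r) hp ?_
  intro Δ N hΔ
  set L : ℕ → Set (E n) := fun i => {x | F ((i + 1) * Δ) < |f x| ∧ |f x| < F (i * Δ)} with hL
  have hLm : ∀ i, MeasurableSet (L i) := fun i =>
    (level_meas hfc _).inter (measurableSet_lt hfc.abs.measurable measurable_const)
  set g : E n → ℝ≥0∞ := fun x => ENNReal.ofReal (gradNorm M f x ^ p * volDensity M x) with hg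
  have hterm : ∀ i : ℕ, ENNReal.ofReal ((modelArea n K (i * Δ) * (F (i * Δ) - F ((i + 1) * Δ))) ^ p /
      (modelVol n K ((i + 1) * Δ) - modelVol n K (i * Δ)) ^ (p - 1)) ≤
      ∫⁻ x in L i, g x ∂leb n := by
    intro i
    have hi0 : (0 : ℝ) ≤ i * Δ := by positivity
    have hlt : (i : ℝ) * Δ < (i + 1) * Δ := by nlinarith
    have hle : F ((i + 1) * Δ) ≤ F (i * Δ) := hanti hi0 (hi0.trans hlt.le) hlt.le
    rcases hle.eq_or_lt with h | h
    · rw [h, sub_self, mul_zero, Real.zero_rpow (by linarith), zero_div, ENNReal.ofReal_zero]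
      exact bot_le
    · exact layer_p hn hK M hM hs hf hcs hp hi0 hlt h
  have hdisj : Pairwise (Function.onFun Disjoint L) := by
    have haux : ∀ i j : ℕ, i < j → Disjoint (L i) (L j) := by
      intro i j hij
      rw [Set.disjoint_left]
      intro x hx hx'
      have h1 : F ((i + 1) * Δ) < |f x| := hx.1
      have h2 : |f x| < F (j * Δ) := hx'.2
      have h3 : ((i : ℝ) + 1) ≤ j := by exact_mod_cast hij
      have h4 : F (j * Δ) ≤ F ((i + 1) * Δ) := by
        have h5 : ((i : ℝ) + 1) * Δ ≤ j * Δ := mul_le_mul_of_nonneg_right h3 hΔ.le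
        have h6 : (0 : ℝ) ≤ ((i : ℝ) + 1) * Δ := by positivity
        exact hanti h6 (h6.trans h5) h5
      linarith
    intro i j hij
    rcases lt_or_gt_of_ne hij with h | h
    · exact haux i j h
    · exact (haux j i h).symm
  calc ∑ i ∈ Finset.range N, ENNReal.ofReal ((modelArea n K (i * Δ) *
        (F (i * Δ) - F ((i + 1) * Δ))) ^ p /
        (modelVol n K ((i + 1) * Δ) - modelVol n K (i * Δ)) ^ (p - 1))
      ≤ ∑ i ∈ Finset.range N, ∫⁻ x in L i, g x ∂leb n := Finset.sum_le_sum fun i _ => hterm i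
    _ = ∫⁻ x in ⋃ i ∈ Finset.range N, L i, g x ∂leb n := by
        rw [lintegral_biUnion_finset (fun i _ j _ hij => hdisj hij) fun i _ => hLm i]
    _ ≤ ∫⁻ x, g x ∂leb n := setLIntegral_le_lintegral _ _

/-- The rearrangement is locally Lipschitz. -/
theorem rearr_lip (hn : 2 ≤ n) {K : ℝ} (hK : K ≤ 0) (M : RiemMetric n)
    (hM : GeodesicallyComplete M) (hs : SecLE M K) {f : E n → ℝ} (hf : ContDiff ℝ 1 f)
    (hcs : HasCompactSupport f) {C : ℝ} (hC : ∀ x, gradNorm M f x ≤ C) {r s : ℝ} (hr : 0 ≤ r)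
    (hrs : r ≤ s) :
    modelArea n K r * (rearr M K f r - rearr M K f s) ≤ C * (modelVol n K s - modelVol n K r) := by
  have hC0 : 0 ≤ C := (gradNorm_nonneg M f 0).trans (hC 0)
  have hVle := modelVol_mono (n := n) K (by omega) hr hrs
  have hanti := rearr_antitone M K (by omega) hf.continuous hcs
  rcases (hanti hr (hr.trans hrs) hrs).eq_or_lt with h | h
  · rw [h, sub_self, mul_zero]
    exact mul_nonneg hC0 (sub_nonneg.2 hVle)
  have h1 := layer_rearr hn hK M hM hs hf hcs hr h
  have h2 := vol_layer_le M K (by omega) hf.continuous hcs hr h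
  have h3 : ∫⁻ x in {x | rearr M K f s < |f x| ∧ |f x| < rearr M K f r},
        ENNReal.ofReal (gradNorm M f x * volDensity M x) ∂leb n ≤
      ENNReal.ofReal C * ENNReal.ofReal (modelVol n K s - modelVol n K r) := by
    calc ∫⁻ x in {x | rearr M K f s < |f x| ∧ |f x| < rearr M K f r},
          ENNReal.ofReal (gradNorm M f x * volDensity M x) ∂leb n
        ≤ ∫⁻ x in {x | rearr M K f s < |f x| ∧ |f x| < rearr M K f r},
          ENNReal.ofReal C * ENNReal.ofReal (volDensity M x) ∂leb n := by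
          refine lintegral_mono fun x => ?_
          rw [← ENNReal.ofReal_mul hC0]
          exact ENNReal.ofReal_le_ofReal
            (mul_le_mul_of_nonneg_right (hC x) (volDensity_pos M x).le)
      _ = ENNReal.ofReal C * riemVol M {x | rearr M K f s < |f x| ∧ |f x| < rearr M K f r} := by
          rw [lintegral_const_mul' _ _ ENNReal.ofReal_ne_top]
          rfl
      _ ≤ _ := by gcongr
  rw [← ENNReal.ofReal_mul hC0] at h3
  exact (ENNReal.ofReal_le_ofReal_iff (mul_nonneg hC0 (sub_nonneg.2 hVle))).1 (h1.trans h3)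

end Vale.Agent.P219.Co
end
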