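import Vale.Agent.P219.H817.T10

open MeasureTheory Set Filter Topology Matrix
open scoped ENNReal ContDiff

noncomputable section

namespace Vale.Agent.P219.Co

variable {n : ℕ}

theorem modelVol_co_surj (hn : 1 ≤ n) (κ : ℝ) {V : ℝ} (hV : 0 ≤ V) :
    ∃ r, 0 ≤ r ∧ modelVol n κ r = V := by
  obtain ⟨r, hr, h⟩ := modelVol_surj n hn κ V hV
  exact ⟨r, hr, by rw [← modelVol_old, h]⟩

/-- The measure of a centred ball of the model, in polar coordinates. -/
theorem lintegral_modelArea (κ : ℝ) {ρ : ℝ} (hρ : 0 ≤ ρ) :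
    ∫⁻ r in Ioo (0 : ℝ) ρ, ENNReal.ofReal (modelArea n κ r) =
      ENNReal.ofReal (modelVol n κ ρ) := by
  have hc := modelArea_co_cont (n := n) κ
  have h1 : modelVol n κ ρ = ∫ r in Ioo (0 : ℝ) ρ, modelArea n κ r := by
    unfold modelVol modelArea
    rw [← intervalIntegral.integral_const_mul, intervalIntegral.integral_of_le hρ,
      integral_Ioc_eq_integral_Ioo]
  have hI : IntegrableOn (modelArea n κ) (Ioo 0 ρ) :=
    (hc.continuousOn.integrableOn_Icc (a := 0) (b := ρ)).mono_set Ioo_subset_Icc_self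
  rw [h1, ofReal_integral_eq_lintegral_ofReal hI]
  filter_upwards [self_mem_ae_restrict measurableSet_Ioo] with r hr
  exact modelArea_nonneg κ hr.1.le

/-- The rearrangement is equimeasurable. -/
theorem equimeas (hn : 1 ≤ n) (M : RiemMetric n) (K : ℝ) {f : E n → ℝ} (hf : Continuous f)
    (hcs : HasCompactSupport f) {t : ℝ} (ht : 0 ≤ t) :
    ∫⁻ r in {r | t < rearr M K f r} ∩ Ioi 0, ENNReal.ofReal (modelArea n K r) =
      riemVol M {x | t < |f x|} := by
  have hfin := level_fin M hf hcs ht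
  obtain ⟨ρ, hρ, hV⟩ := modelVol_co_surj hn K
    (ENNReal.toReal_nonneg (a := riemVol M {x | t < |f x|}))
  have hV' : ENNReal.ofReal (modelVol n K ρ) = riemVol M {x | t < |f x|} := by
    rw [hV, ENNReal.ofReal_toReal hfin.ne]
  have hset : {r | t < rearr M K f r} ∩ Ioi 0 = Ioo 0 ρ := by
    ext r
    simp only [mem_inter_iff, mem_ofPred_eq, mem_Ioi, mem_Ioo]
    rw [lt_rearr_iff M K hf hcs ht, ← hV']
    constructor
    · rintro ⟨h1, h2⟩
      refine ⟨h2, ?_⟩
      by_contra h3
      push Not at h3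
      exact absurd h1 (not_lt.2 (ENNReal.ofReal_le_ofReal (modelVol_mono K hn hρ h3)))
    · rintro ⟨h1, h2⟩
      refine ⟨?_, h1⟩
      have h3 := modelVol_co_strictMono hn K (mem_Ici.2 h1.le) (mem_Ici.2 hρ) h2
      have h4 : 0 ≤ modelVol n K r := by
        rw [← modelVol_zero (n := n) K]
        exact modelVol_mono K hn le_rfl h1.le
      exact (ENNReal.ofReal_lt_ofReal_iff (h4.trans_lt h3)).2 h3
  rw [hset, lintegral_modelArea K hρ, hV']

/-- `∫ F(r)^q A(r) dr = ∫ |f|^q dvol`. -/
theorem mass_rearr (hn : 1 ≤ n) (M : RiemMetric n) (K : ℝ) {f : E n → ℝ} (hf : Continuous f)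
    (hcs : HasCompactSupport f) {q : ℝ} (hq : 0 < q) :
    ∫⁻ r in Ioi (0 : ℝ), ENNReal.ofReal (rearr M K f r ^ q * modelArea n K r) =
      ∫⁻ x, ENNReal.ofReal (|f x| ^ q * volDensity M x) ∂leb n := by
  set F : ℝ → ℝ := rearr M K f with hF
  have hanti : AntitoneOn F (Ici 0) := rearr_antitone M K hn hf hcs
  have hFm : AEMeasurable F (volume.restrict (Ioi 0)) :=
    aemeasurable_restrict_of_antitoneOn measurableSet_Ioi (hanti.mono Ioi_subset_Ici_self)
  have hAm : Measurable fun r => ENNReal.ofReal (modelArea n K r) :=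
    (modelArea_co_cont K).measurable.ennreal_ofReal
  set ν : Measure ℝ := (volume.restrict (Ioi 0)).withDensity
    fun r => ENNReal.ofReal (modelArea n K r) with hν
  have hFν : AEMeasurable F ν := hFm.mono_ac (withDensity_absolutelyContinuous _ _)
  have hl : ∫⁻ r in Ioi (0 : ℝ), ENNReal.ofReal (F r ^ q * modelArea n K r) =
      ∫⁻ r, ENNReal.ofReal (F r ^ q) ∂ν := by
    rw [hν, lintegral_withDensity_eq_lintegral_mul₀' hAm.aemeasurable
      ((hFν.pow_const q).ennreal_ofReal)]
    refine setLIntegral_congr_fun measurableSet_Ioi fun r _ => ?_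
    rw [Pi.mul_apply, ENNReal.ofReal_mul (Real.rpow_nonneg (rearr_nonneg M K r) _), mul_comm]
  have hr : ∫⁻ x, ENNReal.ofReal (|f x| ^ q * volDensity M x) ∂leb n =
      ∫⁻ x, ENNReal.ofReal (|f x| ^ q) ∂muG M := by
    have hm : Measurable fun x => ENNReal.ofReal (|f x| ^ q) :=
      (hf.abs.measurable.pow_const q).ennreal_ofReal
    rw [lintegral_muG M hm]
    refine lintegral_congr fun x => ?_
    rw [ENNReal.ofReal_mul (Real.rpow_nonneg (abs_nonneg _) _)]
  rw [hl, hr, lintegral_rpow_eq_lintegral_meas_lt_mul ν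
    (Eventually.of_forall fun r => rearr_nonneg M K r) hFν hq,
    lintegral_rpow_eq_lintegral_meas_lt_mul (muG M)
      (Eventually.of_forall fun x => abs_nonneg (f x)) hf.abs.measurable.aemeasurable hq]
  congr 1
  refine setLIntegral_congr_fun measurableSet_Ioi fun t ht => ?_
  congr 1
  have hmt : NullMeasurableSet {r | t < F r} (volume.restrict (Ioi 0)) :=
    nullMeasurableSet_lt aemeasurable_const hFm
  rw [muG_apply M (level_meas hf t), hν, withDensity_apply₀ _ hmt,
    Measure.restrict_restrict₀ hmt]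
  exact equimeas hn M K hf hcs (le_of_lt ht)

end Vale.Agent.P219.Co
end
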