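import Vale.Agent.P219.H817.T8

open MeasureTheory Set Filter Topology Matrix
open scoped ENNReal ContDiff

noncomputable section

namespace Vale.Agent.P219.Co

variable {n : ℕ}

/-- The data of a mollification of `u`. -/
def Mollified (u : E n → ℝ) (L : Set (E n)) : Prop :=
  ∃ (ν : ℕ → Measure (E n)) (f : ℕ → E n → ℝ),
    (∀ k, IsProbabilityMeasure (ν k)) ∧
    (∀ k : ℕ, ∀ᵐ y ∂ν k, ‖y‖ < 1 / ((k : ℝ) + 1)) ∧
    (∀ k, ContDiff ℝ ∞ (f k)) ∧ (∀ k x, |f k x| ≤ 1) ∧
    (∀ k x, f k x ≠ 0 → x ∈ Metric.cthickening (1 / ((k : ℝ) + 1)) L) ∧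
    (∀ᵐ x : E n, Tendsto (fun k => f k x) atTop (𝓝 (u x))) ∧
    ∀ (k : ℕ) (w : E n → ℝ), ContDiff ℝ ∞ w → HasCompactSupport w →
      ContDiff ℝ ∞ (fun x => ∫ y, w (x - y) ∂ν k) ∧
      HasCompactSupport (fun x => ∫ y, w (x - y) ∂ν k) ∧
      ∀ i : Fin n, ∫ x, f k x * fderiv ℝ w x (EuclideanSpace.single i 1) =
        ∫ x, u x * fderiv ℝ (fun x => ∫ y, w (x - y) ∂ν k) x (EuclideanSpace.single i 1)

/-- Sets of finite perimeter are limits of smooth functions of no larger total variation. -/
theorem perimeter_approx {K : ℝ} (hK : K ≤ 0) (M : RiemMetric n)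
    (hM : GeodesicallyComplete M) (hs : SecLE M K)
    (mol : ∀ (u : E n → ℝ) (L : Set (E n)), Measurable u → (∀ x, |u x| ≤ 1) → IsCompact L →
      (∀ x, x ∉ L → u x = 0) → Mollified u L)
    {S : Set (E n)} (hS : MeasurableSet S) (hfin : riemVol M S ≠ ⊤) (hP : perimeter M S ≠ ⊤)
    {δ : ℝ} (hδ : 0 < δ) : ∃ f : E n → ℝ, ContDiff ℝ 1 f ∧ HasCompactSupport f ∧
      ∫⁻ x, ENNReal.ofReal (|f x - S.indicator (fun _ => (1 : ℝ)) x| * volDensity M x) ∂leb n
        ≤ ENNReal.ofReal δ ∧ gradMass M f ≤ perimeter M S + ENNReal.ofReal δ := by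
  have hlc := leb_compacts n
  set P : ℝ := (perimeter M S).toReal with hPdef
  have hP0 : 0 ≤ P := ENNReal.toReal_nonneg
  set V : ℝ := (riemVol M S).toReal with hVdef
  have hV0 : 0 ≤ V := ENNReal.toReal_nonneg
  -- the parameters
  set δ₁ : ℝ := min (δ / 2) (δ / (2 * (V + 1))) with hδ₁
  have hδ₁0 : 0 < δ₁ := lt_min (by positivity) (by positivity)
  have hδ₁V : δ₁ * V ≤ δ / 2 := by
    have h1 : δ₁ * V ≤ δ / (2 * (V + 1)) * V := mul_le_mul_of_nonneg_right (min_le_right _ _) hV0
    refine h1.trans ?_
    rw [div_mul_eq_mul_div, div_le_div_iff₀ (by positivity) (by norm_num)]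
    nlinarith
  set c : ℝ := 1 + δ / (2 * (P + δ₁ * V + 1)) with hc
  have hB0 : 0 ≤ P + δ₁ * V := by positivity
  have hc1 : 1 < c := by
    rw [hc]
    have : 0 < δ / (2 * (P + δ₁ * V + 1)) := by positivity
    linarith
  have hcB : c * (P + δ₁ * V) ≤ P + δ := by
    have h1 : δ / (2 * (P + δ₁ * V + 1)) * (P + δ₁ * V) ≤ δ / 2 := by
      rw [div_mul_eq_mul_div, div_le_div_iff₀ (by positivity) (by norm_num)]
      nlinarith
    rw [hc, add_mul, one_mul]
    linarith
  obtain ⟨χ, hχ, hχc, hχ0, hχ1, hχg, hχS⟩ := exists_cutoff hK M hM hs hS hfin hδ₁0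
  set u : E n → ℝ := S.indicator χ with hu
  have hum : Measurable u := hχ.continuous.measurable.indicator hS
  have hu1 : ∀ x, |u x| ≤ 1 := by
    intro x
    by_cases hx : x ∈ S
    · rw [hu, indicator_of_mem hx, abs_of_nonneg (hχ0 x)]
      exact hχ1 x
    · rw [hu, indicator_of_notMem hx, abs_zero]
      exact zero_le_one
  have hu0 : ∀ x, x ∉ tsupport χ → u x = 0 := by
    intro x hx
    by_cases hxS : x ∈ S
    · rw [hu, indicator_of_mem hxS, image_eq_zero_of_notMem_tsupport hx]
    · rw [hu, indicator_of_notMem hxS]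
  obtain ⟨ν, f, hν, hνb, hfs, hf1, hfsupp, hflim, hw⟩ := mol u (tsupport χ) hum hu1 hχc.isCompact hu0
  set L : Set (E n) := Metric.cthickening 1 (tsupport χ) with hL
  have hLc : IsCompact L := hχc.isCompact.cthickening
  have hf0 : ∀ k x, x ∉ L → f k x = 0 := by
    intro k x hx
    by_contra h
    refine hx (Metric.cthickening_mono ?_ _ (hfsupp k x h))
    rw [div_le_one (by positivity)]
    linarith [(Nat.cast_nonneg k : (0 : ℝ) ≤ k)]
  have hfc : ∀ k, HasCompactSupport (f k) := fun k => HasCompactSupport.intro hLc (hf0 k)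
  obtain ⟨ε, hε, hav⟩ := average_norm M hLc hc1
  -- the total variation
  have hgrad : ∀ k : ℕ, 1 / ((k : ℝ) + 1) < ε → gradMass M (f k) ≤ ENNReal.ofReal (P + δ) := by
    intro k hk
    have hνk := hν k
    refine (gradMass_le_of_flux M (hfs k) (hfc k) (B := c * (P + δ₁ * V)) ?_).trans
      (ENNReal.ofReal_le_ofReal hcB)
    intro w hws hw0 hwn
    have hwL : ∀ i x, x ∉ L → w i x = 0 := by
      intro i x hx
      refine hw0 i x fun h => hx ?_
      exact closure_minimal (fun y hy => by
        by_contra h2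
        exact hy (hf0 k y h2)) hLc.isClosed h
    have hwc : ∀ i, HasCompactSupport (w i) := fun i => HasCompactSupport.intro hLc (hwL i)
    have hνε : ∀ᵐ y ∂ν k, ‖y‖ < ε := by
      filter_upwards [hνb k] with y hy
      exact hy.trans hk
    have hnorm := hav (ν k) (hν k) hνε w (fun i => (hws i).continuous) hwL hwn
    set W : Fin n → E n → ℝ := fun i x => ∫ y, w i (x - y) ∂ν k with hW
    have hWs : ∀ i, ContDiff ℝ ∞ (W i) := fun i => (hw k (w i) (hws i) (hwc i)).1
    have hWc : ∀ i, HasCompactSupport (W i) := fun i => (hw k (w i) (hws i) (hwc i)).2.1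
    have hWe : ∀ i, ∫ x, f k x * pd i (w i) x ∂leb n = ∫ x, u x * pd i (W i) x ∂leb n := by
      intro i
      have h1 := (hw k (w i) (hws i) (hwc i)).2.2 i
      have e1 : ∀ x, pd i (w i) x = fderiv ℝ (w i) x (EuclideanSpace.single i 1) := fun x =>
        pd_eq ((hws i).differentiable (by simp) x) i
      have e2 : ∀ x, pd i (W i) x = fderiv ℝ (W i) x (EuclideanSpace.single i 1) := fun x =>
        pd_eq ((hWs i).differentiable (by simp) x) i
      simp only [e1, e2]
      exact h1
    have hflux := flux_cutoff M hS hP hfin hχ hχc hχ0 hχ1 hχg hWs (by linarith : 0 < c) hnorm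
    refine le_trans (le_of_eq ?_) hflux
    have e3 : (fun x => f k x * ∑ i, pd i (w i) x) = fun x => ∑ i, f k x * pd i (w i) x :=
      funext fun x => Finset.mul_sum _ _ _
    have e4 : ∀ x, S.indicator (fun x => χ x * ∑ i, pd i (W i) x) x = ∑ i, u x * pd i (W i) x := by
      intro x
      by_cases hx : x ∈ S
      · rw [indicator_of_mem hx, Finset.mul_sum, hu, indicator_of_mem hx]
      · rw [indicator_of_notMem hx, hu, indicator_of_notMem hx]
        simp
    rw [e3, integral_finsetSum, ← integral_indicator hS]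
    · simp only [hWe, e4]
      rw [integral_finsetSum]
      intro i _
      have hc2 : Continuous fun x => χ x * pd i (W i) x :=
        hχ.continuous.mul (pd_contDiff (hWs i) i).continuous
      have h1 : Integrable (fun x => χ x * pd i (W i) x) (leb n) :=
        hc2.integrable_of_hasCompactSupport hχc.mul_right
      have h2 : (fun x => u x * pd i (W i) x) = S.indicator fun x => χ x * pd i (W i) x := by
        funext x
        by_cases hx : x ∈ S
        · rw [hu, indicator_of_mem hx, indicator_of_mem hx]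
        · rw [hu, indicator_of_notMem hx, indicator_of_notMem hx, zero_mul]
      rw [h2]
      exact h1.indicator hS
    · intro i _
      exact ((hfs k).continuous.mul (pd_contDiff (hws i) i).continuous
        ).integrable_of_hasCompactSupport (hfc k).mul_right
  -- the distance to the indicator
  have hdist : Tendsto (fun k => ∫⁻ x, ENNReal.ofReal (|f k x - u x| * volDensity M x) ∂leb n)
      atTop (𝓝 0) := by
    have h1 : Tendsto (fun k => ∫⁻ x, ENNReal.ofReal (|f k x - u x| * volDensity M x) ∂leb n)
        atTop (𝓝 (∫⁻ _, 0 ∂leb n)) := by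
      refine tendsto_lintegral_of_dominated_convergence
        (fun x => L.indicator (fun x => ENNReal.ofReal (2 * volDensity M x)) x) ?_ ?_ ?_ ?_
      · intro k
        exact (((hfs k).continuous.measurable.sub hum).abs.mul
          (volDensity_cont M).measurable).ennreal_ofReal
      · intro k
        refine Eventually.of_forall fun x => ?_
        show ENNReal.ofReal (|f k x - u x| * volDensity M x) ≤
          L.indicator (fun x => ENNReal.ofReal (2 * volDensity M x)) x
        by_cases hx : x ∈ L
        · rw [indicator_of_mem hx]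
          refine ENNReal.ofReal_le_ofReal (mul_le_mul_of_nonneg_right ?_ (volDensity_pos M x).le)
          have h2 := abs_sub (f k x) (u x)
          have h3 := hf1 k x
          have h4 := hu1 x
          linarith
        · rw [indicator_of_notMem hx, hf0 k x hx, hu0 x (fun h =>
            hx (Metric.self_subset_cthickening _ h))]
          simp
      · rw [lintegral_indicator hLc.isClosed.measurableSet]
        have hint : IntegrableOn (fun x => 2 * volDensity M x) L (leb n) :=
          (continuous_const.mul (volDensity_cont M)).continuousOn.integrableOn_compact hLc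
        exact ((hasFiniteIntegral_iff_ofReal (Eventually.of_forall fun x =>
          mul_nonneg zero_le_two (volDensity_pos M x).le)).1 hint.2).ne
      · have hflim' : ∀ᵐ x ∂leb n, Tendsto (fun k => f k x) atTop (𝓝 (u x)) := hflim
        filter_upwards [hflim'] with x hx
        have h2 : Tendsto (fun k => ENNReal.ofReal (|f k x - u x| * volDensity M x)) atTop
            (𝓝 (ENNReal.ofReal (|u x - u x| * volDensity M x))) :=
          (ENNReal.continuous_ofReal.tendsto _).comp
            (((hx.sub_const (u x)).abs).mul_const (volDensity M x))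
        rw [sub_self, abs_zero, zero_mul, ENNReal.ofReal_zero] at h2
        exact h2
    rwa [lintegral_zero] at h1
  have hkk : ∀ᶠ k : ℕ in atTop, 1 / ((k : ℝ) + 1) < ε :=
    tendsto_one_div_add_atTop_nhds_zero_nat.eventually (gt_mem_nhds hε)
  have hδ2 : (0 : ℝ≥0∞) < ENNReal.ofReal (δ / 2) := by
    rw [ENNReal.ofReal_pos]
    positivity
  obtain ⟨k, hk1, hk2⟩ := (hkk.and (hdist.eventually (gt_mem_nhds hδ2))).exists
  refine ⟨f k, (hfs k).of_le (by simp), hfc k, ?_, ?_⟩
  · have h1 : ∀ x, ENNReal.ofReal (|f k x - S.indicator (fun _ => (1 : ℝ)) x| * volDensity M x) ≤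
        ENNReal.ofReal (|f k x - u x| * volDensity M x) +
          (S ∩ {x | χ x ≠ 1}).indicator (fun x => ENNReal.ofReal (volDensity M x)) x := by
      intro x
      have hv := (volDensity_pos M x).le
      by_cases hx : x ∈ S ∩ {x | χ x ≠ 1}
      · rw [indicator_of_mem hx, ← ENNReal.ofReal_add (mul_nonneg (abs_nonneg _) hv) hv]
        refine ENNReal.ofReal_le_ofReal ?_
        rw [indicator_of_mem hx.1, hu, indicator_of_mem hx.1]
        have h2 : |f k x - 1| ≤ |f k x - χ x| + 1 := by
          have h3 := abs_sub_le (f k x) (χ x) 1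
          have h4 : |χ x - 1| ≤ 1 := by
            rw [abs_le]
            constructor
            · linarith [hχ0 x]
            · linarith [hχ1 x]
          linarith
        nlinarith
      · rw [indicator_of_notMem hx, add_zero]
        refine le_of_eq ?_
        congr 3
        by_cases hxS : x ∈ S
        · have h5 : χ x = 1 := by
            by_contra h6
            exact hx ⟨hxS, h6⟩
          rw [hu, indicator_of_mem hxS, indicator_of_mem hxS, h5]
        · rw [hu, indicator_of_notMem hxS, indicator_of_notMem hxS]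
    have hm : MeasurableSet (S ∩ {x | χ x ≠ 1}) :=
      hS.inter (hχ.continuous.measurable (measurableSet_singleton 1)).compl
    calc ∫⁻ x, ENNReal.ofReal (|f k x - S.indicator (fun _ => (1 : ℝ)) x| * volDensity M x) ∂leb n
        ≤ ∫⁻ x, (ENNReal.ofReal (|f k x - u x| * volDensity M x) +
          (S ∩ {x | χ x ≠ 1}).indicator (fun x => ENNReal.ofReal (volDensity M x)) x) ∂leb n :=
          lintegral_mono h1
      _ = ∫⁻ x, ENNReal.ofReal (|f k x - u x| * volDensity M x) ∂leb n +
          riemVol M (S ∩ {x | χ x ≠ 1}) := by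
          rw [lintegral_add_right _ ((ofReal_volDensity_meas M).indicator hm),
            lintegral_indicator hm]
          rfl
      _ ≤ ENNReal.ofReal (δ / 2) + ENNReal.ofReal (δ / 2) := by
          refine add_le_add hk2.le (hχS.trans (ENNReal.ofReal_le_ofReal (min_le_left _ _)))
      _ = ENNReal.ofReal δ := by
          rw [← ENNReal.ofReal_add (by positivity) (by positivity), add_halves]
  · refine (hgrad k hk1).trans ?_
    rw [ENNReal.ofReal_add hP0 hδ.le, hPdef, ENNReal.ofReal_toReal hP]

/-- The isoperimetric inequality for all measurable sets of finite volume. -/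
theorem isop_perimeter (hn : 2 ≤ n) {K : ℝ} (hK : K ≤ 0) (M : RiemMetric n)
    (hM : GeodesicallyComplete M) (hs : SecLE M K)
    (mol : ∀ (u : E n → ℝ) (L : Set (E n)), Measurable u → (∀ x, |u x| ≤ 1) → IsCompact L →
      (∀ x, x ∉ L → u x = 0) → Mollified u L)
    {S : Set (E n)} (hS : MeasurableSet S) (hfin : riemVol M S ≠ ⊤) :
    ∃ r, 0 ≤ r ∧ riemVol M S = ENNReal.ofReal (modelVol n K r) ∧
      ENNReal.ofReal (modelArea n K r) ≤ perimeter M S := by
  obtain ⟨r, hr, hV⟩ := modelVol_surj n (by omega : 1 ≤ n) K (riemVol M S).toReal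
    ENNReal.toReal_nonneg
  rw [modelVol_old] at hV
  have hV' : riemVol M S = ENNReal.ofReal (modelVol n K r) := by
    rw [hV, ENNReal.ofReal_toReal hfin]
  refine ⟨r, hr, hV', ?_⟩
  by_cases hP : perimeter M S = ⊤
  · rw [hP]
    exact le_top
  · exact of_approx hn hK M hM hs hS (fun δ hδ =>
      perimeter_approx hK M hM hs mol hS hfin hP hδ) hr hV'

end Vale.Agent.P219.Co
end
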