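import Vale.Agent.P219.H817.T11
import Vale.Agent.P219.H817.T12
import Vale.Agent.P219.H817.Moll
import Vale.Agent.P219.H732.Cst
import Vale.Agent.P219.H941.LipSharp

open MeasureTheory Set Filter Topology Matrix
open scoped ENNReal NNReal ContDiff

noncomputable section

namespace Vale.Agent.P219.Co

variable {n : ℕ}

/-- The rearrangement is continuous at `0`. -/
theorem rearr_cont_zero (hn : 1 ≤ n) (M : RiemMetric n) (K : ℝ) {f : E n → ℝ} (hf : Continuous f)
    (hcs : HasCompactSupport f) : ContinuousWithinAt (rearr M K f) (Ici 0) 0 := by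
  have hanti := rearr_antitone M K hn hf hcs
  have h0 := rearr_nonneg M K (f := f) 0
  rcases h0.eq_or_lt with h | h
  · have h1 : ∀ r ∈ Ici (0 : ℝ), rearr M K f r = 0 := fun r hr => le_antisymm
      ((hanti (mem_Ici.2 le_rfl) hr hr).trans_eq h.symm) (rearr_nonneg M K r)
    refine (continuousWithinAt_const (b := (0 : ℝ))).congr h1 (h1 0 (mem_Ici.2 le_rfl))
  rw [Metric.continuousWithinAt_iff]
  intro ε hε
  set t : ℝ := max (rearr M K f 0 - ε / 2) 0 with ht
  have ht0 : 0 ≤ t := le_max_right _ _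
  have htl : t < rearr M K f 0 := max_lt (by linarith) h
  have h1 := (lt_rearr_iff M K hf hcs ht0).1 htl
  have hc : ContinuousAt (fun r => ENNReal.ofReal (modelVol n K r)) 0 :=
    ENNReal.continuous_ofReal.continuousAt.comp (modelVol_hasDerivAt K 0).continuousAt
  have h2 : ∀ᶠ r in 𝓝 (0 : ℝ), ENNReal.ofReal (modelVol n K r) < riemVol M {x | t < |f x|} :=
    hc.eventually (gt_mem_nhds h1)
  rw [Metric.eventually_nhds_iff] at h2
  obtain ⟨d, hd, h3⟩ := h2
  refine ⟨d, hd, fun {r} hr hrd => ?_⟩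
  have h4 := (lt_rearr_iff M K hf hcs ht0).2 (h3 hrd)
  have h5 := hanti (mem_Ici.2 le_rfl) hr hr
  have h6 : rearr M K f 0 - ε / 2 ≤ t := le_max_left _ _
  rw [Real.dist_eq, abs_lt]
  constructor <;> linarith

theorem modelArea_mono (κ : ℝ) : MonotoneOn (modelArea n κ) (Ici 0) := by
  intro r hr s hs hrs
  have hsn0 : 0 ≤ sn √(-κ) r := by
    rcases (mem_Ici.1 hr).eq_or_lt with h | h
    · rw [← h]
      unfold sn
      split_ifs <;> simp
    · exact (sn_pos (Real.sqrt_nonneg _) h).le
  have hsn : sn √(-κ) r ≤ sn √(-κ) s := by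
    unfold sn
    split_ifs with h
    · exact hrs
    · have hb : 0 < √(-κ) := lt_of_le_of_ne (Real.sqrt_nonneg _) (Ne.symm h)
      have : Real.sinh (√(-κ) * r) ≤ Real.sinh (√(-κ) * s) :=
        Real.sinh_le_sinh.2 (mul_le_mul_of_nonneg_left hrs hb.le)
      gcongr
  have h1 := omega_co_pos n
  unfold modelArea
  have h2 : (0 : ℝ) ≤ n * omega n := by positivity
  exact mul_le_mul_of_nonneg_left (pow_le_pow_left₀ hsn0 hsn _) h2

/-- The isoperimetric inequality for all measurable sets of finite volume. -/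
theorem isop_all (hn : 2 ≤ n) {K : ℝ} (hK : K ≤ 0) (M : RiemMetric n)
    (hM : GeodesicallyComplete M) (hs : SecLE M K) {S : Set (E n)} (hS : MeasurableSet S)
    (hfin : riemVol M S ≠ ⊤) :
    ∃ r, 0 ≤ r ∧ riemVol M S = ENNReal.ofReal (modelVol n K r) ∧
      ENNReal.ofReal (modelArea n K r) ≤ perimeter M S :=
  isop_perimeter hn hK M hM hs (fun _ _ h1 h2 h3 h4 => mollify h1 h2 h3 h4) hS hfin

theorem exists_grad_bound (M : RiemMetric n) {f : E n → ℝ} (hf : ContDiff ℝ 1 f)
    (hcs : HasCompactSupport f) : ∃ C, ∀ x, gradNorm M f x ≤ C := by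
  have h1 : HasCompactSupport (gradNorm M f) := by
    refine HasCompactSupport.intro hcs.isCompact fun x hx => ?_
    have h2 : (fun i => pd i f x) = 0 := funext fun i =>
      pd_zero_of (isClosed_tsupport f) (fun _ h => image_eq_zero_of_notMem_tsupport h) i hx
    unfold gradNorm
    rw [h2, zero_dotProduct, Real.sqrt_zero]
  obtain ⟨C, hC⟩ := (gradNorm_cont M hf).bounded_above_of_compact_support h1
  exact ⟨C, fun x => (le_abs_self _).trans (hC x)⟩

theorem ballConst_eq (n : ℕ) (κ p q R : ℝ) : ballConst n κ p q R = sobConst n κ p q R := rfl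

/-- The sharp Sobolev inequalities of the balls of the space form hold on `M`. -/
theorem sobolev_ball (hn : 2 ≤ n) {K : ℝ} (hK : K ≤ 0) (M : RiemMetric n)
    (hM : GeodesicallyComplete M) (hs : SecLE M K) {f : E n → ℝ} (hf : ContDiff ℝ 1 f)
    (hcs : HasCompactSupport f) {p q R : ℝ} (hp : 1 ≤ p) (hq : 0 < q) (hR : 0 < R)
    (hV : riemVol M {x | f x ≠ 0} ≤ ENNReal.ofReal (modelVol n K R)) :
    sobConst n K p q R * mass M q f ^ (p / q) ≤ energy M p f := by
  rw [← ballConst_eq]
  obtain ⟨C, hC⟩ := exists_grad_bound M hf hcs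
  have hn1 : 1 ≤ n := by omega
  have h1 := fk_1d' (n := n) (κ := K) (p := p) (q := q) (R := R) (by linarith) hq hR
    (modelArea_co_cont K) (modelArea_mono K) (fun r hr => modelArea_pos hn1 K hr)
    (fun r => modelVol_hasDerivAt K r) (F := rearr M K f) (fun r _ => rearr_nonneg M K r)
    (rearr_antitone M K hn1 hf.continuous hcs) (fun r hr => rearr_zero M K hn1 hR.le hV hr)
    ⟨C, fun r s hr hrs => rearr_lip hn hK M hM hs hf hcs hC hr.le hrs⟩
  rw [mass_rearr hn1 M K hf.continuous hcs hq] at h1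
  exact h1.trans (polya_szego hn hK M hM hs hf hcs hp)

/-- The rearrangement does not increase the Lipschitz constant. -/
theorem rearr_lipschitz (hn : 2 ≤ n) {K : ℝ} (hK : K ≤ 0) (M : RiemMetric n)
    (hM : GeodesicallyComplete M) (hs : SecLE M K) {f : E n → ℝ} (hf : ContDiff ℝ 1 f)
    (hcs : HasCompactSupport f) {C : ℝ≥0} (hC : ∀ x, gradNorm M f x ≤ C) :
    LipschitzOnWith C (rearr M K f) (Ici 0) := by
  have hn1 : 1 ≤ n := by omega
  have hanti := rearr_antitone M K hn1 hf.continuous hcs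
  have h := lip_sharp (F := rearr M K f) (A := modelArea n K) (V := modelVol n K) (C := C)
    C.coe_nonneg hanti (modelArea_co_cont K) (fun r hr => modelArea_pos hn1 K hr)
    (fun r => modelVol_hasDerivAt K r)
    (fun r s hr hrs => rearr_lip hn hK M hM hs hf hcs hC hr.le hrs)
    (rearr_cont_zero hn1 M K hf.continuous hcs)
  refine LipschitzOnWith.of_dist_le_mul fun x hx y hy => ?_
  rcases le_total x y with hxy | hxy
  · have h1 := h x y hx hxy
    have h2 := hanti hx hy hxy
    rw [Real.dist_eq, Real.dist_eq, abs_of_nonneg (sub_nonneg.2 h2), abs_sub_comm,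
      abs_of_nonneg (sub_nonneg.2 hxy)]
    exact h1
  · have h1 := h y x hy hxy
    have h2 := hanti hy hx hxy
    rw [Real.dist_eq, Real.dist_eq, abs_sub_comm, abs_of_nonneg (sub_nonneg.2 h2),
      abs_of_nonneg (sub_nonneg.2 hxy)]
    exact h1

theorem sobConst_bounds (hn : 1 ≤ n) (κ : ℝ) {p q R : ℝ} (hp : 1 ≤ p) (hq : 0 < q) (hqp : q ≤ p)
    (hR : 0 < R) : 0 < sobConst n κ p q R ∧ sobConst n κ p q R ≠ ⊤ := by
  rw [← ballConst_eq]
  exact ⟨ballConst_pos hp hq hqp hR (modelArea_co_cont κ) (modelArea_mono κ)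
    fun _ hr => modelArea_pos hn κ hr,
    ballConst_ne_top hp hq hR (modelArea_co_cont κ) (modelArea_mono κ)
      fun _ hr => modelArea_pos hn κ hr⟩

end Vale.Agent.P219.Co
end
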