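import Vale.Agent.P219.H817.T1

open MeasureTheory Set Filter Topology Matrix
open scoped ENNReal ContDiff

noncomputable section

namespace Vale.Agent.P219.Co

variable {n : ℕ}

theorem isoProfile_mono (n : ℕ) (κ : ℝ) : Monotone (isoProfile n κ) := fun _ _ h =>
  iSup_mono fun _ => iSup_mono' fun h1 => ⟨⟨h1.1, h1.2.trans h⟩, le_rfl⟩

/-- A smooth step with a nonnegative derivative of integral `1`. -/
theorem exists_step {ε : ℝ} (hε : 0 < ε) : ∃ κ F : ℝ → ℝ, Continuous κ ∧ (∀ u, 0 ≤ κ u) ∧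
    (∀ u, u ≤ 0 → κ u = 0) ∧ (∀ u, ε ≤ u → κ u = 0) ∧ (∀ s, HasDerivAt F (κ s) s) ∧
    (∀ s, 0 ≤ F s) ∧ (∀ s, F s ≤ 1) ∧
    (∀ s, s ≤ 0 → F s = 0) ∧ (∀ s, ε ≤ s → F s = 1) ∧ ∫⁻ u, ENNReal.ofReal (κ u) = 1 := by
  let b : ContDiffBump (ε / 2 : ℝ) := ⟨ε / 4, ε / 2, by positivity, by linarith⟩
  set κ : ℝ → ℝ := b.normed volume with hκ
  have hsupp : ∀ u, u ∉ Ioo 0 ε → κ u = 0 := by
    intro u hu
    by_contra h
    have h1 : u ∈ Function.support κ := h
    rw [hκ, b.support_normed_eq, Real.ball_eq_Ioo] at h1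
    apply hu
    have h2 : b.rOut = ε / 2 := rfl
    rw [h2] at h1
    exact ⟨by linarith [h1.1], by linarith [h1.2]⟩
  have hc : Continuous κ := b.continuous_normed
  have hnn : ∀ u, 0 ≤ κ u := fun u => b.nonneg_normed u
  have hint : ∫ u, κ u = 1 := b.integral_normed
  have hI : Integrable κ := b.integrable_normed
  have hle0 : ∀ s, s ≤ 0 → ∫ u in (0 : ℝ)..s, κ u = 0 := by
    intro s hs
    rw [intervalIntegral.integral_symm, neg_eq_zero]
    refine intervalIntegral.integral_zero_ae (Eventually.of_forall fun u hu => ?_)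
    rw [uIoc_of_le hs] at hu
    exact hsupp u fun h => absurd h.1 (not_lt.2 hu.2)
  have hge : ∀ s, ε ≤ s → ∫ u in (0 : ℝ)..s, κ u = 1 := by
    intro s hs
    rw [← hint]
    refine intervalIntegral.integral_eq_integral_of_support_subset fun u hu => ?_
    by_contra h
    exact hu (hsupp u fun h2 => h ⟨h2.1, h2.2.le.trans hs⟩)
  have hmono : Monotone fun s => ∫ u in (0 : ℝ)..s, κ u := by
    intro s t hst
    have h1 := intervalIntegral.integral_add_adjacent_intervals (a := 0) (b := s) (c := t)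
      (hI.intervalIntegrable) (hI.intervalIntegrable)
    have h2 : 0 ≤ ∫ u in s..t, κ u := intervalIntegral.integral_nonneg hst fun u _ => hnn u
    show (∫ u in (0 : ℝ)..s, κ u) ≤ ∫ u in (0 : ℝ)..t, κ u
    linarith
  refine ⟨κ, fun s => ∫ u in (0 : ℝ)..s, κ u, hc, hnn, fun u hu => hsupp u fun h =>
    absurd h.1 (not_lt.2 hu), fun u hu => hsupp u fun h => absurd h.2 (not_lt.2 hu),
    fun s => ?_, fun s => ?_, fun s => ?_, hle0, hge, ?_⟩
  · exact intervalIntegral.integral_hasDerivAt_right (hI.intervalIntegrable)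
      hc.aestronglyMeasurable.stronglyMeasurableAtFilter hc.continuousAt
  · rcases le_total s 0 with h | h
    · exact (hle0 s h).ge
    · exact intervalIntegral.integral_nonneg h fun u _ => hnn u
  · rcases le_total ε s with h | h
    · exact (hge s h).le
    · exact (hmono h).trans (hge ε le_rfl).le
  · rw [← ofReal_integral_eq_lintegral_ofReal hI (Eventually.of_forall hnn), hint,
      ENNReal.ofReal_one]

/-- The chain rule for the gradient. -/
theorem gradNorm_comp (M : RiemMetric n) {f : E n → ℝ} {x : E n} (hf : DifferentiableAt ℝ f x)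
    {Φ : ℝ → ℝ} {c : ℝ} (hΦ : HasDerivAt Φ c (f x)) :
    gradNorm M (fun y => Φ (f y)) x = |c| * gradNorm M f x := by
  have h1 : ∀ i, pd i (fun y => Φ (f y)) x = c * pd i f x := by
    intro i
    have hd : DifferentiableAt ℝ (fun y => Φ (f y)) x := hΦ.differentiableAt.comp x hf
    rw [pd_eq hd, pd_eq hf]
    have h2 := (hΦ.comp_hasFDerivAt x hf.hasFDerivAt).fderiv
    have h3 : (Φ ∘ f) = fun y => Φ (f y) := rfl
    rw [h3] at h2
    rw [h2]
    simp
  unfold gradNorm
  have h2 : (fun i => pd i (fun y => Φ (f y)) x) = c • fun i => pd i f x := by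
    funext i
    simp [h1]
  rw [h2, Matrix.mulVec_smul, smul_dotProduct, dotProduct_smul, smul_eq_mul, smul_eq_mul,
    ← mul_assoc, ← sq, Real.sqrt_mul (sq_nonneg _), Real.sqrt_sq_eq_abs]

theorem gradNorm_nonneg (M : RiemMetric n) (f : E n → ℝ) (x : E n) : 0 ≤ gradNorm M f x :=
  Real.sqrt_nonneg _

theorem volDensity_pos (M : RiemMetric n) (x : E n) : 0 < volDensity M x :=
  Real.sqrt_pos.2 (M.pos x).det_pos

theorem volDensity_cont (M : RiemMetric n) : Continuous (volDensity M) := by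
  obtain ⟨e, he⟩ := CH.exists_triangularFrame (old M)
  have h := (volDensity_smooth (old M) e he).continuous
  have h2 : Vale.Agent.P219.volDensity (old M) = volDensity M := funext (volDensity_old M)
  rwa [h2] at h

theorem gradNorm_cont (M : RiemMetric n) {f : E n → ℝ} (hf : ContDiff ℝ 1 f) :
    Continuous (gradNorm M f) := by
  obtain ⟨e, he⟩ := CH.exists_triangularFrame (old M)
  have h := covNorm_fderiv_continuous (old M) e he hf
  have h2 : (fun x => covNorm (old M) x (fderiv ℝ f x)) = gradNorm M f := funext fun x =>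
    gradNorm_old (frame_of_old he) (hf.differentiable one_ne_zero) x
  rwa [h2] at h

/-- The inequality for a level, smoothed. -/
theorem level (hn : 2 ≤ n) {K : ℝ} (hK : K ≤ 0) (M : RiemMetric n)
    (hM : GeodesicallyComplete M) (hs : SecLE M K) {f : E n → ℝ} (hf : ContDiff ℝ 1 f)
    (hcs : HasCompactSupport f) {ε : ℝ} {κ F : ℝ → ℝ} (hκc : Continuous κ)
    (hκ0 : ∀ u, 0 ≤ κ u) (hκn : ∀ u, u ≤ 0 → κ u = 0) (hF : ∀ s, HasDerivAt F (κ s) s)
    (hF0 : ∀ s, 0 ≤ F s) (hF1 : ∀ s, F s ≤ 1) (hFn : ∀ s, s ≤ 0 → F s = 0)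
    (hFe : ∀ s, ε ≤ s → F s = 1) {t : ℝ} (ht : 0 < t) :
    isoProfile n K (riemVol M {x | t + ε ≤ |f x|}) ≤
      ∫⁻ x, ENNReal.ofReal (κ (|f x| - t)) *
        ENNReal.ofReal (gradNorm M f x * volDensity M x) ∂leb n := by
  set Φ : ℝ → ℝ := fun s => F (s - t) + F (-s - t) with hΦ
  have hΦd : ∀ s, HasDerivAt Φ (κ (s - t) - κ (-s - t)) s := by
    intro s
    have h1 : HasDerivAt (fun s => F (s - t)) (κ (s - t)) s := by
      have := (hF (s - t)).comp s ((hasDerivAt_id s).sub_const t)
      simpa [Function.comp_def] using this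
    have h2 : HasDerivAt (fun s => F (-s - t)) (-κ (-s - t)) s := by
      have := (hF (-s - t)).comp s ((hasDerivAt_neg s).sub_const t)
      simpa [Function.comp_def] using this
    have h3 : HasDerivAt Φ (κ (s - t) + -κ (-s - t)) s := h1.add h2
    rwa [← sub_eq_add_neg] at h3
  have hΦc : ContDiff ℝ 1 Φ := by
    rw [contDiff_one_iff_deriv]
    refine ⟨fun s => (hΦd s).differentiableAt, ?_⟩
    have : deriv Φ = fun s => κ (s - t) - κ (-s - t) := funext fun s => (hΦd s).deriv
    rw [this]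
    fun_prop
  have hΦabs : ∀ s, Φ s = F (|s| - t) := by
    intro s
    rcases le_total 0 s with h | h
    · rw [abs_of_nonneg h]
      simp only [hΦ]
      rw [hFn (-s - t) (by linarith), add_zero]
    · rw [abs_of_nonpos h]
      simp only [hΦ]
      rw [hFn (s - t) (by linarith), zero_add]
  have hκabs : ∀ s, |κ (s - t) - κ (-s - t)| = κ (|s| - t) := by
    intro s
    rcases le_total 0 s with h | h
    · rw [abs_of_nonneg h, hκn (-s - t) (by linarith), sub_zero, abs_of_nonneg (hκ0 _)]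
    · rw [abs_of_nonpos h, hκn (s - t) (by linarith), zero_sub, abs_neg, abs_of_nonneg (hκ0 _)]
  have hΦ0 : Φ 0 = 0 := by
    rw [hΦabs, abs_zero, zero_sub]
    exact hFn _ (by linarith)
  have hh : ContDiff ℝ 1 fun x => Φ (f x) := hΦc.comp hf
  have hhs : HasCompactSupport fun x => Φ (f x) := hcs.comp_left hΦ0
  have hfd : Differentiable ℝ f := hf.differentiable one_ne_zero
  have hmass : gradMass M (fun x => Φ (f x)) =
      ∫⁻ x, ENNReal.ofReal (κ (|f x| - t)) *
        ENNReal.ofReal (gradNorm M f x * volDensity M x) ∂leb n := by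
    unfold gradMass
    refine lintegral_congr fun x => ?_
    rw [gradNorm_comp M (hfd x) (hΦd (f x)), hκabs, mul_assoc, ENNReal.ofReal_mul (hκ0 _)]
  rw [← hmass]
  refine iSup₂_le fun R hR => ?_
  refine plateau hn hK M hM hs hh hhs (fun x => ?_) hR.1 (hR.2.trans ?_)
  · rw [hΦabs]
    exact ⟨hF0 _, hF1 _⟩
  · refine lintegral_mono_set fun x hx => ?_
    have hx' : t + ε ≤ |f x| := hx
    show Φ (f x) = 1
    rw [hΦabs]
    exact hFe _ (by linarith)

/-- The functional form, `t` bounded below. -/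
theorem coarea_pos (hn : 2 ≤ n) {K : ℝ} (hK : K ≤ 0) (M : RiemMetric n)
    (hM : GeodesicallyComplete M) (hs : SecLE M K) {f : E n → ℝ} (hf : ContDiff ℝ 1 f)
    (hcs : HasCompactSupport f) {ε : ℝ} (hε : 0 < ε) :
    ∫⁻ t in Ioi ε, isoProfile n K (riemVol M {x | t ≤ |f x|}) ≤ gradMass M f := by
  obtain ⟨κ, F, hκc, hκ0, hκn, -, hF, hF0, hF1, hFn, hFe, hint⟩ := exists_step hε
  have h1 : ∫⁻ t in Ioi ε, isoProfile n K (riemVol M {x | t ≤ |f x|}) =
      ∫⁻ t in Ioi (0 : ℝ), isoProfile n K (riemVol M {x | t + ε ≤ |f x|}) := by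
    have h2 := (measurePreserving_add_right (volume : Measure ℝ) ε).setLIntegral_comp_preimage_emb
      (measurableEmbedding_addRight ε)
      (fun t => isoProfile n K (riemVol M {x | t ≤ |f x|})) (Ioi ε)
    rw [← h2]
    congr 2
    ext t
    simp
  rw [h1]
  have hm : Measurable fun x => gradNorm M f x * volDensity M x :=
    ((gradNorm_cont M hf).mul (volDensity_cont M)).measurable
  calc ∫⁻ t in Ioi (0 : ℝ), isoProfile n K (riemVol M {x | t + ε ≤ |f x|})
      ≤ ∫⁻ t in Ioi (0 : ℝ), ∫⁻ x, ENNReal.ofReal (κ (|f x| - t)) *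
        ENNReal.ofReal (gradNorm M f x * volDensity M x) ∂leb n := by
        refine setLIntegral_mono' measurableSet_Ioi fun t ht => ?_
        exact level hn hK M hM hs hf hcs hκc hκ0 hκn hF hF0 hF1 hFn hFe ht
    _ ≤ ∫⁻ t, ∫⁻ x, ENNReal.ofReal (κ (|f x| - t)) *
        ENNReal.ofReal (gradNorm M f x * volDensity M x) ∂leb n := setLIntegral_le_lintegral _ _
    _ = ∫⁻ x, (∫⁻ t, ENNReal.ofReal (κ (|f x| - t)) *
        ENNReal.ofReal (gradNorm M f x * volDensity M x)) ∂leb n := by
        unfold leb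
        refine lintegral_lintegral_swap ?_
        refine Measurable.aemeasurable ?_
        have hm1 : Measurable fun p : ℝ × E n => κ (|f p.2| - p.1) := by
          refine Continuous.measurable (hκc.comp ?_)
          exact (hf.continuous.comp continuous_snd).abs.sub continuous_fst
        exact hm1.ennreal_ofReal.mul (hm.comp measurable_snd).ennreal_ofReal
    _ = gradMass M f := by
        unfold gradMass
        refine lintegral_congr fun x => ?_
        have hm2 : Measurable fun t => ENNReal.ofReal (κ (|f x| - t)) :=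
          (hκc.measurable.comp (measurable_const.sub measurable_id)).ennreal_ofReal
        rw [lintegral_mul_const _ hm2]
        have h3 : ∫⁻ t, ENNReal.ofReal (κ (|f x| - t)) = 1 := by
          rw [lintegral_sub_left_eq_self (fun u => ENNReal.ofReal (κ u)) |f x|, hint]
        rw [h3, one_mul]

/-- The functional form. -/
theorem coarea (hn : 2 ≤ n) {K : ℝ} (hK : K ≤ 0) (M : RiemMetric n)
    (hM : GeodesicallyComplete M) (hs : SecLE M K) {f : E n → ℝ} (hf : ContDiff ℝ 1 f)
    (hcs : HasCompactSupport f) :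
    ∫⁻ t in Ioi (0 : ℝ), isoProfile n K (riemVol M {x | t ≤ |f x|}) ≤ gradMass M f := by
  set g : ℝ → ℝ≥0∞ := fun t => isoProfile n K (riemVol M {x | t ≤ |f x|}) with hg
  have hU : Ioi (0 : ℝ) = ⋃ k : ℕ, Ioi (1 / ((k : ℝ) + 1)) := by
    ext t
    simp only [mem_Ioi, mem_iUnion]
    constructor
    · intro ht
      exact exists_nat_one_div_lt ht
    · rintro ⟨k, hk⟩
      exact lt_trans (by positivity) hk
  have hmono : Monotone fun k : ℕ => Ioi (1 / ((k : ℝ) + 1)) := by
    intro a b hab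
    refine Ioi_subset_Ioi ?_
    gcongr
  rw [← withDensity_apply _ measurableSet_Ioi, hU, hmono.measure_iUnion]
  refine iSup_le fun k => ?_
  rw [withDensity_apply _ measurableSet_Ioi]
  exact coarea_pos hn hK M hM hs hf hcs (by positivity)

end Vale.Agent.P219.Co
end
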