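import Vale.Agent.P219.H817.T2

open MeasureTheory Set Filter Topology Matrix
open scoped ENNReal ContDiff

noncomputable section

namespace Vale.Agent.P219.Co

variable {n : ℕ}

/-- The Riemannian measure. -/
def muG (M : RiemMetric n) : Measure (E n) :=
  (leb n).withDensity fun x => ENNReal.ofReal (volDensity M x)

theorem muG_apply (M : RiemMetric n) {S : Set (E n)} (hS : MeasurableSet S) :
    muG M S = riemVol M S := withDensity_apply _ hS

theorem ofReal_volDensity_meas (M : RiemMetric n) :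
    Measurable fun x => ENNReal.ofReal (volDensity M x) :=
  (volDensity_cont M).measurable.ennreal_ofReal

theorem lintegral_muG (M : RiemMetric n) {f : E n → ℝ≥0∞} (hf : Measurable f) :
    ∫⁻ x, f x ∂muG M = ∫⁻ x, f x * ENNReal.ofReal (volDensity M x) ∂leb n := by
  unfold muG
  rw [lintegral_withDensity_eq_lintegral_mul _ (ofReal_volDensity_meas M) hf]
  refine lintegral_congr fun x => ?_
  simp only [Pi.mul_apply]
  rw [mul_comm]

theorem le_isoProfile {κ R : ℝ} {V : ℝ≥0∞} (hR : 0 ≤ R) (h : ENNReal.ofReal (modelVol n κ R) ≤ V) :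
    ENNReal.ofReal (modelArea n κ R) ≤ isoProfile n κ V :=
  le_iSup₂ (f := fun (r : ℝ) (_ : 0 ≤ r ∧ ENNReal.ofReal (modelVol n κ r) ≤ V) =>
    ENNReal.ofReal (modelArea n κ r)) R ⟨hR, h⟩

/-- A function close to the indicator of a set has a large total variation. -/
theorem near_indicator (hn : 2 ≤ n) {K : ℝ} (hK : K ≤ 0) (M : RiemMetric n)
    (hM : GeodesicallyComplete M) (hs : SecLE M K) {f : E n → ℝ} (hf : ContDiff ℝ 1 f)
    (hcs : HasCompactSupport f) {S : Set (E n)} (hS : MeasurableSet S) {δ : ℝ} (hδ : 0 < δ)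
    {η : ℝ≥0∞} (hη : η ≠ ⊤)
    (hd : ∫⁻ x, ENNReal.ofReal (|f x - S.indicator (fun _ => (1 : ℝ)) x| * volDensity M x) ∂leb n
      ≤ ENNReal.ofReal δ * η) {R : ℝ} (hR : 0 ≤ R)
    (hV : ENNReal.ofReal (modelVol n K R) + η ≤ riemVol M S) :
    ENNReal.ofReal (1 - δ) * ENNReal.ofReal (modelArea n K R) ≤ gradMass M f := by
  refine le_trans ?_ (coarea hn hK M hM hs hf hcs)
  have hm : Measurable fun x => |f x - S.indicator (fun _ => (1 : ℝ)) x| :=
    (hf.continuous.measurable.sub (measurable_const.indicator hS)).abs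
  have hmeasD : MeasurableSet {x | δ ≤ |f x - S.indicator (fun _ => (1 : ℝ)) x|} :=
    measurableSet_le measurable_const hm
  have hbad : riemVol M {x | δ ≤ |f x - S.indicator (fun _ => (1 : ℝ)) x|} ≤ η := by
    have h1 := mul_meas_ge_le_lintegral₀ (μ := muG M) hm.ennreal_ofReal.aemeasurable
      (ENNReal.ofReal δ)
    have h2 : {x | ENNReal.ofReal δ ≤ ENNReal.ofReal |f x - S.indicator (fun _ => (1 : ℝ)) x|} =
        {x | δ ≤ |f x - S.indicator (fun _ => (1 : ℝ)) x|} := by
      ext x
      simp only [mem_ofPred_eq]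
      exact ENNReal.ofReal_le_ofReal_iff (abs_nonneg _)
    rw [h2, muG_apply M hmeasD, lintegral_muG M hm.ennreal_ofReal] at h1
    have h3 : ∀ x, ENNReal.ofReal |f x - S.indicator (fun _ => (1 : ℝ)) x| *
        ENNReal.ofReal (volDensity M x) =
        ENNReal.ofReal (|f x - S.indicator (fun _ => (1 : ℝ)) x| * volDensity M x) := fun x =>
      (ENNReal.ofReal_mul (abs_nonneg _)).symm
    simp only [h3] at h1
    exact (ENNReal.mul_le_mul_iff_right (by simpa using hδ) ENNReal.ofReal_ne_top).1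
      (h1.trans hd)
  have hkey : ∀ t ∈ Ioc (0 : ℝ) (1 - δ), ENNReal.ofReal (modelArea n K R) ≤
      isoProfile n K (riemVol M {x | t ≤ |f x|}) := by
    intro t ht
    refine le_isoProfile hR ?_
    have hmt : MeasurableSet {x | t ≤ |f x|} :=
      measurableSet_le measurable_const hf.continuous.abs.measurable
    have hsub : S ⊆ {x | t ≤ |f x|} ∪ {x | δ ≤ |f x - S.indicator (fun _ => (1 : ℝ)) x|} := by
      intro x hx
      by_cases h : t ≤ |f x|
      · exact Or.inl h
      · right
        show δ ≤ |f x - S.indicator (fun _ => (1 : ℝ)) x|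
        rw [indicator_of_mem hx]
        have h1 := abs_sub_abs_le_abs_sub (1 : ℝ) (f x)
        rw [abs_sub_comm, abs_one] at h1
        have h2 := ht.2
        push Not at h
        linarith
    have h1 : riemVol M S ≤ riemVol M {x | t ≤ |f x|} + η := by
      rw [← muG_apply M hS, ← muG_apply M hmt]
      refine (measure_mono hsub).trans ((measure_union_le _ _).trans ?_)
      rw [muG_apply M hmeasD]
      gcongr
    exact (ENNReal.add_le_add_iff_right hη).1 (hV.trans h1)
  calc ENNReal.ofReal (1 - δ) * ENNReal.ofReal (modelArea n K R)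
      = ∫⁻ t in Ioc (0 : ℝ) (1 - δ), ENNReal.ofReal (modelArea n K R) := by
        rw [setLIntegral_const, Real.volume_Ioc, sub_zero, mul_comm]
    _ ≤ ∫⁻ t in Ioc (0 : ℝ) (1 - δ), isoProfile n K (riemVol M {x | t ≤ |f x|}) :=
        setLIntegral_mono' measurableSet_Ioc hkey
    _ ≤ _ := lintegral_mono_set fun t ht => ht.1

theorem modelVol_co_strictMono (hn : 1 ≤ n) (κ : ℝ) : StrictMonoOn (modelVol n κ) (Ici 0) := by
  have h := modelVol_strictMonoOn n hn κ
  have h2 : Vale.Agent.P219.modelVol n κ = modelVol n κ := funext (modelVol_old n κ)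
  rwa [h2] at h

theorem modelArea_co_cont (κ : ℝ) : Continuous (modelArea n κ) := by
  have h := modelArea_continuous n κ
  have h2 : Vale.Agent.P219.modelArea n κ = modelArea n κ := funext (modelArea_old n κ)
  rwa [h2] at h

/-- The isoperimetric inequality from approximations. -/
theorem of_approx (hn : 2 ≤ n) {K : ℝ} (hK : K ≤ 0) (M : RiemMetric n)
    (hM : GeodesicallyComplete M) (hs : SecLE M K) {S : Set (E n)} (hS : MeasurableSet S)
    {P : ℝ≥0∞} (hP : ∀ δ : ℝ, 0 < δ → ∃ f : E n → ℝ, ContDiff ℝ 1 f ∧ HasCompactSupport f ∧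
      ∫⁻ x, ENNReal.ofReal (|f x - S.indicator (fun _ => (1 : ℝ)) x| * volDensity M x) ∂leb n
        ≤ ENNReal.ofReal δ ∧ gradMass M f ≤ P + ENNReal.ofReal δ)
    {r : ℝ} (hr : 0 ≤ r) (hV : riemVol M S = ENNReal.ofReal (modelVol n K r)) :
    ENNReal.ofReal (modelArea n K r) ≤ P := by
  by_cases hPt : P = ⊤
  · rw [hPt]
    exact le_top
  have hvol : ∀ r', 0 ≤ r' → r' < r → ENNReal.ofReal (modelArea n K r') ≤ P := by
    intro r' hr' hlt
    have hlt' : modelVol n K r' < modelVol n K r :=
      modelVol_co_strictMono (by omega) K hr' hr hlt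
    have h0 : 0 ≤ modelVol n K r' := by
      have h1 := (modelVol_co_strictMono (n := n) (by omega) K).monotoneOn
        (mem_Ici.2 le_rfl) (mem_Ici.2 hr') hr'
      have h2 : modelVol n K 0 = 0 := by
        unfold modelVol
        simp
      rwa [h2] at h1
    set η : ℝ := modelVol n K r - modelVol n K r' with hηdef
    have hη : 0 < η := sub_pos.2 hlt'
    have hkey : ∀ δ : ℝ, 0 < δ → δ < 1 →
        ENNReal.ofReal (1 - δ) * ENNReal.ofReal (modelArea n K r') ≤ P + ENNReal.ofReal δ := by
      intro δ hδ hδ1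
      obtain ⟨f, hf, hcs, hd, hg⟩ := hP (min δ (δ * η)) (lt_min hδ (mul_pos hδ hη))
      refine (near_indicator hn hK M hM hs hf hcs hS hδ (η := ENNReal.ofReal η)
        ENNReal.ofReal_ne_top ?_ hr' ?_).trans (hg.trans ?_)
      · refine hd.trans ?_
        rw [← ENNReal.ofReal_mul hδ.le]
        exact ENNReal.ofReal_le_ofReal (min_le_right _ _)
      · rw [hV, ← ENNReal.ofReal_add h0 hη.le]
        refine ENNReal.ofReal_le_ofReal ?_
        rw [hηdef]
        linarith
      · gcongr
        exact min_le_left _ _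
    have ht1 : Tendsto (fun δ : ℝ => ENNReal.ofReal (1 - δ) * ENNReal.ofReal (modelArea n K r'))
        (𝓝[>] 0) (𝓝 (ENNReal.ofReal (modelArea n K r'))) := by
      have h1 : Tendsto (fun δ : ℝ => ENNReal.ofReal ((1 - δ) * modelArea n K r')) (𝓝[>] 0)
          (𝓝 (ENNReal.ofReal ((1 - 0) * modelArea n K r'))) := by
        refine (ENNReal.continuous_ofReal.tendsto _).comp ?_
        refine Tendsto.mono_left ?_ nhdsWithin_le_nhds
        exact (Continuous.tendsto (by fun_prop) 0)
      rw [sub_zero, one_mul] at h1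
      refine h1.congr' ?_
      filter_upwards [Ioo_mem_nhdsGT (show (0 : ℝ) < 1 by norm_num)] with δ hδ
      rw [ENNReal.ofReal_mul (by linarith [hδ.2])]
    have ht2 : Tendsto (fun δ : ℝ => P + ENNReal.ofReal δ) (𝓝[>] 0) (𝓝 P) := by
      have h1 : Tendsto (fun δ : ℝ => ENNReal.ofReal δ) (𝓝[>] 0) (𝓝 (ENNReal.ofReal 0)) :=
        ((ENNReal.continuous_ofReal.tendsto 0)).mono_left nhdsWithin_le_nhds
      have h2 := h1.const_add P
      rwa [ENNReal.ofReal_zero, add_zero] at h2
    refine le_of_tendsto_of_tendsto ht1 ht2 ?_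
    filter_upwards [Ioo_mem_nhdsGT (show (0 : ℝ) < 1 by norm_num)] with δ hδ
    exact hkey δ hδ.1 hδ.2
  rcases hr.eq_or_lt with h0 | h0
  · have h1 : modelArea n K r = 0 := by
      unfold modelArea sn
      rw [← h0]
      have : n - 1 ≠ 0 := by omega
      simp [this]
    rw [h1]
    simp
  · have hcont : Continuous fun s => ENNReal.ofReal (modelArea n K s) :=
      ENNReal.continuous_ofReal.comp (modelArea_co_cont K)
    refine le_of_tendsto ((hcont.tendsto r).mono_left (nhdsWithin_le_nhds (s := Iio r))) ?_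
    filter_upwards [Ioo_mem_nhdsLT h0] with r' hr'
    exact hvol r' hr'.1.le hr'.2

end Vale.Agent.P219.Co
end
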