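import Vale.Agent.P219.H817.T3

open MeasureTheory Set Filter Topology Matrix
open scoped ENNReal ContDiff

noncomputable section

namespace Vale.Agent.P219.Co

variable {n : ℕ}

/-- `Sec ≤ K ≤ 0` gives `Sec ≤ 0`. -/
theorem secLE_zero_co {M : RiemMetric n} {K : ℝ} (hK : K ≤ 0) (hs : SecLE M K) : SecLE M 0 := by
  intro x u v
  refine (hs x u v).trans ?_
  have h := CH.cn_cs (CH.isMetricOn (old M)) x (WithLp.toLp 2 u) (WithLp.toLp 2 v)
  rw [old_apply, old_apply, old_apply] at h
  simp only at h
  rw [zero_mul]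
  exact mul_nonpos_of_nonpos_of_nonneg hK (sub_nonneg.2 h)

theorem omega_co_pos (n : ℕ) : 0 < omega n := by
  rw [← omega_old]
  exact Vale.Agent.P219.omega_pos n

/-- The Euclidean profile. -/
theorem isoProfile_zero_ge (hn : 1 ≤ n) {V : ℝ≥0∞} (hV : V ≠ ⊤) :
    ENNReal.ofReal (n * omega n ^ (1 / (n : ℝ))) * V ^ (((n : ℝ) - 1) / n) ≤ isoProfile n 0 V := by
  have hω := omega_co_pos n
  have hn0 : (0 : ℝ) < n := by exact_mod_cast hn
  have hn1 : (1 : ℝ) ≤ n := by exact_mod_cast hn
  set v : ℝ := V.toReal with hv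
  have hv0 : 0 ≤ v := ENNReal.toReal_nonneg
  have hVv : V = ENNReal.ofReal v := (ENNReal.ofReal_toReal hV).symm
  set r : ℝ := (v / omega n) ^ (1 / (n : ℝ)) with hr
  have hq0 : 0 ≤ v / omega n := div_nonneg hv0 hω.le
  have hr0 : 0 ≤ r := Real.rpow_nonneg hq0 _
  have hsn : ∀ t, sn √(-0) t = t := fun t => by
    unfold sn
    simp
  have hrn : r ^ n = v / omega n := by
    rw [hr, ← Real.rpow_natCast, ← Real.rpow_mul hq0, one_div, inv_mul_cancel₀ hn0.ne',
      Real.rpow_one]
  have hvol : modelVol n 0 r = v := by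
    unfold modelVol
    simp only [hsn]
    rw [integral_pow, Nat.sub_add_cancel hn, hrn]
    have h1 : (((n - 1 : ℕ) : ℝ) + 1) = n := by
      rw [Nat.cast_sub hn]
      push_cast
      ring
    rw [h1, zero_pow (by omega)]
    field_simp
    ring
  have harea : modelArea n 0 r = n * omega n ^ (1 / (n : ℝ)) * v ^ (((n : ℝ) - 1) / n) := by
    unfold modelArea
    rw [hsn, hr, ← Real.rpow_natCast, ← Real.rpow_mul hq0]
    have h1 : 1 / (n : ℝ) * ((n - 1 : ℕ) : ℝ) = ((n : ℝ) - 1) / n := by
      rw [Nat.cast_sub hn]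
      push_cast
      ring
    rw [h1, Real.div_rpow hv0 hω.le]
    have h2 : omega n = omega n ^ (1 / (n : ℝ)) * omega n ^ (((n : ℝ) - 1) / n) := by
      rw [← Real.rpow_add hω]
      have : 1 / (n : ℝ) + ((n : ℝ) - 1) / n = 1 := by field_simp; ring
      rw [this, Real.rpow_one]
    have h3 : 0 < omega n ^ (((n : ℝ) - 1) / n) := Real.rpow_pos_of_pos hω _
    field_simp
    nth_rewrite 1 [h2]
    ring
  have h1 := le_isoProfile (n := n) (κ := 0) (V := V) hr0 (by rw [hvol, hVv])
  refine le_trans (le_of_eq ?_) h1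
  rw [harea, hVv, ENNReal.ofReal_rpow_of_nonneg hv0 (div_nonneg (by linarith) hn0.le),
    ← ENNReal.ofReal_mul (by positivity)]

/-- The norm of a nonnegative function is at most the integral of the norms of the indicators of
its superlevel sets. -/
theorem layer_norm {α : Type*} [MeasurableSpace α] (μ : Measure α) [SFinite μ] {a : α → ℝ}
    (ha : Measurable a) {p : ℝ} (hp : 1 < p)
    (hfin : ∫⁻ x, ENNReal.ofReal (a x) ^ p ∂μ ≠ ⊤) :
    (∫⁻ x, ENNReal.ofReal (a x) ^ p ∂μ) ^ (1 / p) ≤
      ∫⁻ t in Ioi (0 : ℝ), μ {x | t ≤ a x} ^ (1 / p) := by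
  set A : ℝ≥0∞ := ∫⁻ x, ENNReal.ofReal (a x) ^ p ∂μ with hA
  have hp0 : 0 < p := by linarith
  by_cases hA0 : A = 0
  · rw [hA0, ENNReal.zero_rpow_of_pos (by positivity)]
    exact bot_le
  have hq := Real.HolderConjugate.conjExponent hp
  set q : ℝ := p.conjExponent with hqdef
  have hq0 : 0 < q := hq.symm.pos
  have hpq : (p - 1) * q = p := by
    rw [hqdef, Real.conjExponent]
    field_simp [(sub_pos.2 hp).ne']
  -- the indicator of the superlevel sets
  set I : ℝ → α → ℝ≥0∞ := fun t => {x | t ≤ a x}.indicator fun _ => 1 with hI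
  have hIm : Measurable fun z : ℝ × α => I z.1 z.2 := by
    have h1 : MeasurableSet {z : ℝ × α | z.1 ≤ a z.2} :=
      measurableSet_le measurable_fst (ha.comp measurable_snd)
    exact (measurable_const (a := (1 : ℝ≥0∞))).indicator h1
  have hlay : ∀ x, ENNReal.ofReal (a x) = ∫⁻ t in Ioi (0 : ℝ), I t x := by
    intro x
    have h1 : (fun t => I t x) = (Iic (a x)).indicator fun _ => 1 := by
      funext t
      simp only [hI, indicator, mem_ofPred_eq, mem_Iic]
    rw [h1, lintegral_indicator measurableSet_Iic, Measure.restrict_restrict measurableSet_Iic,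
      lintegral_one, Measure.restrict_apply_univ, inter_comm, Ioi_inter_Iic, Real.volume_Ioc,
      sub_zero]
  have hmain : A ≤ A ^ (1 / q) * ∫⁻ t in Ioi (0 : ℝ), μ {x | t ≤ a x} ^ (1 / p) := by
    calc A = ∫⁻ x, ENNReal.ofReal (a x) ^ (p - 1) * (∫⁻ t in Ioi (0 : ℝ), I t x) ∂μ := by
          rw [hA]
          refine lintegral_congr fun x => ?_
          rw [← hlay]
          nth_rewrite 3 [← ENNReal.rpow_one (ENNReal.ofReal (a x))]
          by_cases h0 : ENNReal.ofReal (a x) = 0
          · rw [h0, ENNReal.zero_rpow_of_pos hp0, ENNReal.zero_rpow_of_pos (by linarith), zero_mul]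
          · rw [← ENNReal.rpow_add _ _ h0 ENNReal.ofReal_ne_top]
            congr 1
            ring
      _ = ∫⁻ x, (∫⁻ t in Ioi (0 : ℝ), ENNReal.ofReal (a x) ^ (p - 1) * I t x) ∂μ := by
          refine lintegral_congr fun x => ?_
          have h3 : Measurable fun t => I t x := hIm.comp (measurable_id.prodMk measurable_const)
          rw [lintegral_const_mul _ h3]
      _ = ∫⁻ t in Ioi (0 : ℝ), (∫⁻ x, ENNReal.ofReal (a x) ^ (p - 1) * I t x ∂μ) := by
          refine lintegral_lintegral_swap ?_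
          refine Measurable.aemeasurable ?_
          exact ((ha.comp measurable_fst).ennreal_ofReal.pow_const _).mul
            (hIm.comp measurable_swap)
      _ ≤ ∫⁻ t in Ioi (0 : ℝ), A ^ (1 / q) * μ {x | t ≤ a x} ^ (1 / p) := by
          refine lintegral_mono fun t => ?_
          have h1 := ENNReal.lintegral_mul_le_Lp_mul_Lq μ hq.symm
            (f := fun x => ENNReal.ofReal (a x) ^ (p - 1)) (g := I t)
            (ha.ennreal_ofReal.pow_const _).aemeasurable
            (hIm.comp (measurable_const.prodMk measurable_id)).aemeasurable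
          simp only [Pi.mul_apply] at h1
          refine h1.trans (le_of_eq ?_)
          congr 2
          · refine lintegral_congr fun x => ?_
            rw [← ENNReal.rpow_mul, hpq]
          · have h2 : ∀ x, I t x ^ p = I t x := by
              intro x
              by_cases h : t ≤ a x
              · have : I t x = 1 := indicator_of_mem (s := {x | t ≤ a x}) h _
                rw [this, ENNReal.one_rpow]
              · have : I t x = 0 := indicator_of_notMem (s := {x | t ≤ a x}) h _
                rw [this, ENNReal.zero_rpow_of_pos hp0]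
            simp only [h2]
            rw [hI]
            simp only
            rw [lintegral_indicator (measurableSet_le measurable_const ha), lintegral_one,
              Measure.restrict_apply_univ]
      _ = A ^ (1 / q) * ∫⁻ t in Ioi (0 : ℝ), μ {x | t ≤ a x} ^ (1 / p) := by
          refine lintegral_const_mul' _ _ ?_
          exact ENNReal.rpow_ne_top_of_nonneg (by positivity) hfin
  have hsplit : A = A ^ (1 / q) * A ^ (1 / p) := by
    rw [← ENNReal.rpow_add _ _ hA0 hfin]
    have : 1 / q + 1 / p = 1 := by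
      rw [one_div, one_div, add_comm]
      exact hq.inv_add_inv_eq_one
    rw [this, ENNReal.rpow_one]
  have hAq0 : A ^ (1 / q) ≠ 0 := by
    intro h
    rcases ENNReal.rpow_eq_zero_iff.1 h with ⟨h1, -⟩ | ⟨h1, -⟩
    · exact hA0 h1
    · exact hfin h1
  have hAqt : A ^ (1 / q) ≠ ⊤ := ENNReal.rpow_ne_top_of_nonneg (by positivity) hfin
  nth_rewrite 1 [hsplit] at hmain
  exact (ENNReal.mul_le_mul_iff_right hAq0 hAqt).1 hmain

/-- The sharp `L¹` Sobolev inequality. -/
theorem sobolev (hn : 2 ≤ n) {K : ℝ} (hK : K ≤ 0) (M : RiemMetric n)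
    (hM : GeodesicallyComplete M) (hs : SecLE M K) {f : E n → ℝ} (hf : ContDiff ℝ 1 f)
    (hcs : HasCompactSupport f) :
    ENNReal.ofReal (n * omega n ^ (1 / (n : ℝ))) *
      (∫⁻ x, ENNReal.ofReal (|f x| ^ ((n : ℝ) / (n - 1)) * volDensity M x) ∂leb n) ^
        (((n : ℝ) - 1) / n) ≤ gradMass M f := by
  have hn2 : (2 : ℝ) ≤ n := by exact_mod_cast hn
  have hp : 1 < (n : ℝ) / (n - 1) := by
    rw [lt_div_iff₀ (by linarith)]
    linarith
  have hpinv : 1 / ((n : ℝ) / (n - 1)) = ((n : ℝ) - 1) / n := by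
    rw [one_div_div]
  have ham : Measurable fun x => |f x| := hf.continuous.abs.measurable
  have hconv : ∫⁻ x, ENNReal.ofReal (|f x| ^ ((n : ℝ) / (n - 1)) * volDensity M x) ∂leb n =
      ∫⁻ x, ENNReal.ofReal |f x| ^ ((n : ℝ) / (n - 1)) ∂muG M := by
    rw [lintegral_muG M (ham.ennreal_ofReal.pow_const _)]
    refine lintegral_congr fun x => ?_
    rw [ENNReal.ofReal_mul (Real.rpow_nonneg (abs_nonneg _) _),
      ENNReal.ofReal_rpow_of_nonneg (abs_nonneg _) (by linarith)]
  have hloc : ∀ L : Set (E n), IsCompact L → muG M L < ⊤ := by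
    intro L hL
    rw [muG_apply M hL.measurableSet]
    unfold riemVol leb
    obtain ⟨C, hC⟩ := (hL.image (volDensity_cont M)).bddAbove
    refine lt_of_le_of_lt (setLIntegral_mono' (g := fun _ => ENNReal.ofReal C)
      hL.measurableSet fun x hx => ENNReal.ofReal_le_ofReal (hC (mem_image_of_mem _ hx))) ?_
    rw [setLIntegral_const]
    exact ENNReal.mul_lt_top ENNReal.ofReal_lt_top hL.measure_lt_top
  have hfin : ∫⁻ x, ENNReal.ofReal |f x| ^ ((n : ℝ) / (n - 1)) ∂muG M ≠ ⊤ := by
    obtain ⟨C, hC⟩ := (hcs.isCompact_range hf.continuous |>.image continuous_abs).bddAbove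
    have hle : ∀ x, ENNReal.ofReal |f x| ^ ((n : ℝ) / (n - 1)) ≤
        (tsupport f).indicator (fun _ => ENNReal.ofReal C ^ ((n : ℝ) / (n - 1))) x := by
      intro x
      by_cases hx : x ∈ tsupport f
      · rw [indicator_of_mem hx]
        refine ENNReal.rpow_le_rpow (ENNReal.ofReal_le_ofReal (hC ⟨f x, ⟨x, rfl⟩, rfl⟩)) ?_
        linarith
      · rw [indicator_of_notMem hx, image_eq_zero_of_notMem_tsupport hx, abs_zero,
          ENNReal.ofReal_zero, ENNReal.zero_rpow_of_pos (by linarith)]
    refine ((lintegral_mono hle).trans_lt ?_).ne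
    rw [lintegral_indicator hcs.isCompact.measurableSet, setLIntegral_const]
    exact ENNReal.mul_lt_top (ENNReal.rpow_lt_top_of_nonneg (by linarith) ENNReal.ofReal_ne_top)
      (hloc _ hcs.isCompact)
  have hsf : SFinite (muG M) := by
    unfold muG leb
    infer_instance
  have h1 := layer_norm (muG M) ham hp hfin
  rw [hpinv] at h1
  rw [hconv]
  calc ENNReal.ofReal (n * omega n ^ (1 / (n : ℝ))) *
      (∫⁻ x, ENNReal.ofReal |f x| ^ ((n : ℝ) / (n - 1)) ∂muG M) ^ (((n : ℝ) - 1) / n)
      ≤ ENNReal.ofReal (n * omega n ^ (1 / (n : ℝ))) *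
        ∫⁻ t in Ioi (0 : ℝ), muG M {x | t ≤ |f x|} ^ (((n : ℝ) - 1) / n) := by gcongr
    _ = ∫⁻ t in Ioi (0 : ℝ), ENNReal.ofReal (n * omega n ^ (1 / (n : ℝ))) *
        muG M {x | t ≤ |f x|} ^ (((n : ℝ) - 1) / n) :=
        (lintegral_const_mul' _ _ ENNReal.ofReal_ne_top).symm
    _ ≤ ∫⁻ t in Ioi (0 : ℝ), isoProfile n 0 (riemVol M {x | t ≤ |f x|}) := by
        refine setLIntegral_mono' measurableSet_Ioi fun t ht => ?_
        have hmt : MeasurableSet {x | t ≤ |f x|} := measurableSet_le measurable_const ham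
        have hfint : riemVol M {x | t ≤ |f x|} ≠ ⊤ := by
          rw [← muG_apply M hmt]
          refine ((measure_mono fun x hx => ?_).trans_lt (hloc _ hcs.isCompact)).ne
          refine subset_tsupport f (Function.mem_support.2 fun h0 => ?_)
          have hx' : t ≤ |f x| := hx
          rw [h0, abs_zero] at hx'
          exact absurd ht (not_lt.2 hx')
        rw [muG_apply M hmt]
        exact isoProfile_zero_ge (by omega) hfint
    _ ≤ gradMass M f := coarea hn le_rfl M hM (secLE_zero_co hK hs) hf hcs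

end Vale.Agent.P219.Co
end
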