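import Vale.Agent.P219.H817.T4

open MeasureTheory Set Filter Topology Matrix
open scoped ENNReal ContDiff

noncomputable section

namespace Vale.Agent.P219.Co

variable {n : ℕ}

/-- Cutoff functions with small gradient. -/
theorem exists_cutoff {K : ℝ} (hK : K ≤ 0) (M : RiemMetric n)
    (hM : GeodesicallyComplete M) (hs : SecLE M K) {S : Set (E n)} (hS : MeasurableSet S)
    (hfin : riemVol M S ≠ ⊤) {δ : ℝ} (hδ : 0 < δ) :
    ∃ χ : E n → ℝ, ContDiff ℝ ∞ χ ∧ HasCompactSupport χ ∧ (∀ x, 0 ≤ χ x) ∧ (∀ x, χ x ≤ 1) ∧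
      (∀ x, gradNorm M χ x ≤ δ) ∧ riemVol M (S ∩ {x | χ x ≠ 1}) ≤ ENNReal.ofReal δ := by
  obtain ⟨e, he⟩ := CH.exists_triangularFrame (old M)
  obtain ⟨F⟩ := CH.exists_gflow (CH.isMetricOn (old M)) (geoComplete_old hM)
  have hs0 : Vale.Agent.P219.SecLE (old M) 0 := secLE_old_of_frame ⟨e, he⟩ (secLE_zero_co hK hs)
  set G := CH.toGeo (old M) e he hs0 F with hG
  set Fo : E n → ℝ := End.FG G 0 0 with hFo
  have hFs : ContDiff ℝ ∞ Fo := End.FG_smooth_right G 0 0
  have hF0 : ∀ x, 0 ≤ Fo x := End.FG_nonneg G 0 0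
  have hFd : Differentiable ℝ Fo := hFs.differentiable (by simp)
  have hsq : ∀ x, ‖G.lg 0 x‖ ^ 2 = 2 * Fo x := by
    intro x
    have h := End.sn_sq_eq_FG G 0 0 x
    have h2 : TPH.sn 0 ‖G.lg 0 x‖ = ‖G.lg 0 x‖ := by
      unfold TPH.sn
      simp
    rw [h2] at h
    rw [h]
    ring
  have hgF : ∀ x, gradNorm M Fo x = √(2 * Fo x) := by
    intro x
    have h1 := CH.norm_D_eq he hs0 F Fo x
    rw [gradNorm_old (frame_of_old he) hFd] at h1
    have h2 : ‖G.D Fo x‖ ^ 2 = 2 * Fo x + 0 ^ 2 * Fo x ^ 2 := End.norm_D_FG G 0 0 x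
    rw [← h1, ← hG, ← Real.sqrt_sq (norm_nonneg (G.D Fo x)), h2]
    congr 1
    ring
  -- the profile
  set θ : ℝ → ℝ := fun s => Real.smoothTransition (2 - s) with hθ
  have hθs : ContDiff ℝ ∞ θ := Real.smoothTransition.contDiff.comp (contDiff_const.sub contDiff_id)
  have hθ1 : ∀ s, s ≤ 1 → θ s = 1 := fun s hs => Real.smoothTransition.one_of_one_le (by linarith)
  have hθ0 : ∀ s, 2 ≤ s → θ s = 0 := fun s hs => Real.smoothTransition.zero_of_nonpos (by linarith)
  have hθd : ∀ s, HasDerivAt θ (deriv θ s) s := fun s =>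
    (hθs.differentiable (by simp) s).hasDerivAt
  have hθc : Continuous (deriv θ) := hθs.continuous_deriv (by simp)
  obtain ⟨C, hC⟩ : ∃ C, ∀ s, ‖deriv θ s * √(2 * s)‖ ≤ C := by
    refine Continuous.bounded_above_of_compact_support (hθc.mul (by fun_prop)) ?_
    refine HasCompactSupport.intro (isCompact_Icc (a := (0 : ℝ)) (b := 2)) fun s hs => ?_
    rw [mem_Icc, not_and_or, not_le, not_le] at hs
    rcases hs with hs | hs
    · rw [Real.sqrt_eq_zero_of_nonpos (by linarith), mul_zero]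
    · have h1 : θ =ᶠ[𝓝 s] fun _ => 0 := by
        filter_upwards [Ioi_mem_nhds hs] with t ht
        exact hθ0 t (le_of_lt ht)
      rw [h1.deriv_eq, deriv_const, zero_mul]
  have hC0 : 0 ≤ C := (norm_nonneg _).trans (hC 0)
  -- the volume of the complements of the balls tends to zero
  set s : ℕ → Set (E n) := fun k => S ∩ {x | ((k : ℝ) + 1) ^ 2 < Fo x} with hsdef
  have hsm : ∀ k, MeasurableSet (s k) := fun k =>
    hS.inter (isOpen_lt continuous_const hFs.continuous).measurableSet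
  have hanti : Antitone s := by
    intro a b hab x hx
    have h1 : ((b : ℝ) + 1) ^ 2 < Fo x := hx.2
    have h2 : (a : ℝ) ≤ b := by exact_mod_cast hab
    have h3 : ((a : ℝ) + 1) ^ 2 ≤ ((b : ℝ) + 1) ^ 2 := by gcongr
    exact ⟨hx.1, h3.trans_lt h1⟩
  have hempty : ⋂ k, s k = ∅ := by
    rw [eq_empty_iff_forall_notMem]
    intro x hx
    rw [mem_iInter] at hx
    obtain ⟨k, hk⟩ := exists_nat_ge (Fo x)
    have h1 : ((k : ℝ) + 1) ^ 2 < Fo x := (hx k).2
    have h2 : (0 : ℝ) ≤ k := Nat.cast_nonneg k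
    nlinarith
  have hlim : Tendsto (fun k => muG M (s k)) atTop (𝓝 0) := by
    have h1 := tendsto_measure_iInter_atTop (μ := muG M) (fun k => (hsm k).nullMeasurableSet)
      hanti ⟨0, ?_⟩
    · rw [hempty, measure_empty] at h1
      exact h1
    · refine ne_top_of_le_ne_top hfin ?_
      rw [← muG_apply M hS]
      exact measure_mono inter_subset_left
  have hδ' : (0 : ℝ≥0∞) < ENNReal.ofReal δ := by simpa using hδ
  obtain ⟨k, hk1, hk2⟩ := ((hlim.eventually (gt_mem_nhds hδ')).and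
    ((tendsto_natCast_atTop_atTop (R := ℝ)).eventually (eventually_ge_atTop (C / δ)))).exists
  set m : ℝ := (k : ℝ) + 1 with hm
  have hm0 : 0 < m := by positivity
  have hCm : C / m ≤ δ := by
    rw [div_le_iff₀ hm0]
    rw [div_le_iff₀ hδ] at hk2
    nlinarith
  refine ⟨fun x => θ (Fo x / m ^ 2), hθs.comp (hFs.div_const _), ?_, fun x =>
    Real.smoothTransition.nonneg _, fun x => Real.smoothTransition.le_one _, fun x => ?_, ?_⟩
  · refine HasCompactSupport.intro (G.isCompact_gball 0 (2 * m)) fun x hx => ?_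
    apply hθ0
    have h1 : 2 * m < ‖G.lg 0 x‖ := not_le.1 hx
    rw [le_div_iff₀ (by positivity)]
    have h2 := hsq x
    nlinarith
  · have hd : HasDerivAt (fun t => θ (t / m ^ 2)) (deriv θ (Fo x / m ^ 2) * (1 / m ^ 2)) (Fo x) := by
      have h1 : HasDerivAt (fun t : ℝ => t / m ^ 2) (1 / m ^ 2) (Fo x) :=
        (hasDerivAt_id (Fo x)).div_const _
      exact (hθd (Fo x / m ^ 2)).comp (Fo x) h1
    rw [gradNorm_comp M (hFd x) hd, hgF]
    refine le_trans ?_ hCm
    have h2 : √(2 * Fo x) = m * √(2 * (Fo x / m ^ 2)) := by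
      have : 2 * Fo x = m ^ 2 * (2 * (Fo x / m ^ 2)) := by field_simp
      rw [this, Real.sqrt_mul (sq_nonneg _), Real.sqrt_sq hm0.le]
    have h3 := hC (Fo x / m ^ 2)
    rw [norm_mul, Real.norm_eq_abs, Real.norm_eq_abs, abs_of_nonneg (Real.sqrt_nonneg _)] at h3
    rw [h2, abs_mul, abs_of_nonneg (by positivity : (0 : ℝ) ≤ 1 / m ^ 2)]
    calc |deriv θ (Fo x / m ^ 2)| * (1 / m ^ 2) * (m * √(2 * (Fo x / m ^ 2)))
        = (|deriv θ (Fo x / m ^ 2)| * √(2 * (Fo x / m ^ 2))) / m := by field_simp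
      _ ≤ C / m := by gcongr
  · have hsub : S ∩ {x | θ (Fo x / m ^ 2) ≠ 1} ⊆ s k := by
      intro x hx
      refine ⟨hx.1, ?_⟩
      by_contra h
      refine hx.2 (hθ1 _ ?_)
      have h' : Fo x ≤ m ^ 2 := not_lt.1 h
      rw [div_le_one (by positivity)]
      exact h'
    refine (lintegral_mono_set hsub).trans ?_
    have h1 := muG_apply M (hsm k)
    unfold riemVol at h1
    rw [← h1]
    exact hk1.le

end Vale.Agent.P219.Co
end
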