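import Vale.Agent.P219.H817.T5

open MeasureTheory Set Filter Topology Matrix
open scoped ENNReal ContDiff

noncomputable section

namespace Vale.Agent.P219.Co

variable {n : ℕ}

theorem leb_compacts (n : ℕ) : IsFiniteMeasureOnCompacts (leb n) := by
  unfold leb
  infer_instance

theorem volDensity_contDiff (M : RiemMetric n) : ContDiff ℝ ∞ (volDensity M) := by
  obtain ⟨e, he⟩ := CH.exists_triangularFrame (old M)
  have h := volDensity_smooth (old M) e he
  have h2 : Vale.Agent.P219.volDensity (old M) = volDensity M := funext (volDensity_old M)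
  rwa [h2] at h

theorem pd_contDiff {f : E n → ℝ} (hf : ContDiff ℝ ∞ f) (i : Fin n) : ContDiff ℝ ∞ (pd i f) := by
  have h : pd i f = fun x => fderiv ℝ f x (basisVec i) := funext fun x =>
    pd_eq (hf.differentiable (by simp) x) i
  rw [h]
  exact (hf.fderiv_right (m := ∞) (by simp)).clm_apply contDiff_const

theorem pd_zero_of {f : E n → ℝ} {L : Set (E n)} (hL : IsClosed L) (hf : ∀ x, x ∉ L → f x = 0)
    (i : Fin n) {x : E n} (hx : x ∉ L) : pd i f x = 0 := by
  have h1 : f =ᶠ[𝓝 x] fun _ => (0 : ℝ) := by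
    filter_upwards [hL.isOpen_compl.mem_nhds hx] with y hy
    exact hf y hy
  have h2 : DifferentiableAt ℝ f x := (differentiableAt_const (0 : ℝ)).congr_of_eventuallyEq h1
  rw [pd_eq h2, h1.fderiv_eq]
  simp

theorem pd_compact {f : E n → ℝ} (hc : HasCompactSupport f) (i : Fin n) :
    HasCompactSupport (pd i f) :=
  HasCompactSupport.intro hc.isCompact fun _ hx =>
    pd_zero_of (isClosed_tsupport f) (fun _ h => image_eq_zero_of_notMem_tsupport h) i hx

theorem pd_mul {f g : E n → ℝ} {x : E n} (hf : DifferentiableAt ℝ f x)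
    (hg : DifferentiableAt ℝ g x) (i : Fin n) :
    pd i (fun y => f y * g y) x = f x * pd i g x + g x * pd i f x := by
  have h : DifferentiableAt ℝ (fun y => f y * g y) x := hf.mul hg
  rw [pd_eq h, pd_eq hf, pd_eq hg, fderiv_fun_mul hf hg]
  simp

theorem pd_div_const {f : E n → ℝ} {x : E n} (hf : DifferentiableAt ℝ f x) (c : ℝ) (i : Fin n) :
    pd i (fun y => f y / c) x = pd i f x / c := by
  have h1 : (fun y => f y / c) = fun y => c⁻¹ * f y := by
    funext y
    rw [div_eq_inv_mul]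
  rw [h1, pd_eq (hf.const_mul _), pd_eq hf, fderiv_const_mul hf]
  simp [div_eq_inv_mul]

theorem g_pos (M : RiemMetric n) (x : E n) (v : Fin n → ℝ) : 0 ≤ v ⬝ᵥ M.g x *ᵥ v := by
  have h := (CH.isMetricOn (old M)).nonneg (mem_univ x) (WithLp.toLp 2 v)
  rw [old_apply] at h
  exact h

theorem g_inv_mul (M : RiemMetric n) (x : E n) (p : Fin n → ℝ) :
    M.g x *ᵥ ((M.g x)⁻¹ *ᵥ p) = p := by
  rw [mulVec_mulVec, mul_nonsing_inv _ ((M.pos x).det_pos.ne'.isUnit), one_mulVec]

theorem ginv_eq (M : RiemMetric n) (x : E n) (p : Fin n → ℝ) :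
    ((M.g x)⁻¹ *ᵥ p) ⬝ᵥ M.g x *ᵥ ((M.g x)⁻¹ *ᵥ p) = p ⬝ᵥ (M.g x)⁻¹ *ᵥ p := by
  rw [g_inv_mul, dotProduct_comm]

theorem ginv_nonneg (M : RiemMetric n) (x : E n) (p : Fin n → ℝ) :
    0 ≤ p ⬝ᵥ (M.g x)⁻¹ *ᵥ p := by
  rw [← ginv_eq]
  exact g_pos M x _

/-- Cauchy-Schwarz between a vector and a covector. -/
theorem dot_le (M : RiemMetric n) (x : E n) (w p : Fin n → ℝ) :
    |w ⬝ᵥ p| ≤ √(w ⬝ᵥ M.g x *ᵥ w) * √(p ⬝ᵥ (M.g x)⁻¹ *ᵥ p) := by
  have h := CH.cn_cs (CH.isMetricOn (old M)) x (WithLp.toLp 2 w)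
    (WithLp.toLp 2 ((M.g x)⁻¹ *ᵥ p))
  rw [old_apply, old_apply, old_apply] at h
  simp only at h
  rw [ginv_eq, g_inv_mul] at h
  rw [← Real.sqrt_mul (g_pos M x w)]
  exact Real.abs_le_sqrt h

/-- The flux of a field through the reduced boundary is bounded by the perimeter. -/
theorem flux_le (M : RiemMetric n) {S : Set (E n)} (hP : perimeter M S ≠ ⊤)
    {w : Fin n → E n → ℝ} (hw : ∀ i, ContDiff ℝ ∞ (w i)) (hwc : ∀ i, HasCompactSupport (w i))
    {c : ℝ} (hc : 0 < c)
    (hle : ∀ x, (fun i => w i x) ⬝ᵥ M.g x *ᵥ (fun i => w i x) ≤ (c * volDensity M x) ^ 2) :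
    ∫ x in S, ∑ i, pd i (w i) x ∂leb n ≤ c * (perimeter M S).toReal := by
  have hv : ∀ x, 0 < volDensity M x := volDensity_pos M
  have hcv : ∀ x, 0 < c * volDensity M x := fun x => mul_pos hc (hv x)
  set X : E n → Fin n → ℝ := fun x i => w i x / (c * volDensity M x) with hX
  have hXt : TestField M X := by
    refine ⟨fun i => ?_, ?_, fun x => ?_⟩
    · exact (hw i).div (contDiff_const.mul (volDensity_contDiff M)) fun x => (hcv x).ne'
    · refine HasCompactSupport.intro (isCompact_iUnion fun i => (hwc i).isCompact) fun x hx => ?_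
      funext i
      rw [mem_iUnion, not_exists] at hx
      simp only [hX, Pi.zero_apply]
      rw [image_eq_zero_of_notMem_tsupport (hx i), zero_div]
    · have h1 : X x = (c * volDensity M x)⁻¹ • fun i => w i x := by
        funext i
        simp only [hX, Pi.smul_apply, smul_eq_mul]
        rw [div_eq_inv_mul]
      rw [h1, mulVec_smul, smul_dotProduct, dotProduct_smul, smul_eq_mul, smul_eq_mul,
        ← mul_assoc, ← sq, inv_pow, inv_mul_le_iff₀ (pow_pos (hcv x) 2), mul_one]
      exact hle x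
  have hdiv : ∀ x, divg M X x * volDensity M x = (∑ i, pd i (w i) x) / c := by
    intro x
    have h1 : ∀ i, pd i (fun y => volDensity M y * X y i) x = pd i (w i) x / c := by
      intro i
      have h2 : (fun y => volDensity M y * X y i) = fun y => w i y / c := by
        funext y
        simp only [hX]
        have := (hv y).ne'
        field_simp
      rw [h2, pd_div_const ((hw i).differentiable (by simp) x)]
    unfold divg
    simp only [h1]
    rw [← Finset.sum_div]
    have := (hv x).ne'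
    field_simp
  have h2 : ENNReal.ofReal (∫ x in S, divg M X x * volDensity M x ∂leb n) ≤ perimeter M S :=
    le_iSup₂ (f := fun (X : E n → Fin n → ℝ) (_ : TestField M X) =>
      ENNReal.ofReal (∫ x in S, divg M X x * volDensity M x ∂leb n)) X hXt
  simp only [hdiv] at h2
  rw [integral_div] at h2
  have h3 := (ENNReal.ofReal_le_iff_le_toReal hP).1 h2
  rw [div_le_iff₀ hc] at h3
  linarith

theorem riemVol_toReal (M : RiemMetric n) {S : Set (E n)}
    (hfin : riemVol M S ≠ ⊤) : IntegrableOn (volDensity M) S (leb n) ∧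
      ∫ x in S, volDensity M x ∂leb n = (riemVol M S).toReal := by
  have hI : IntegrableOn (volDensity M) S (leb n) := by
    refine ⟨(volDensity_cont M).aestronglyMeasurable, ?_⟩
    rw [hasFiniteIntegral_iff_ofReal (Eventually.of_forall fun x => (volDensity_pos M x).le)]
    exact lt_top_iff_ne_top.2 hfin
  refine ⟨hI, ?_⟩
  rw [integral_eq_lintegral_of_nonneg_ae (Eventually.of_forall fun x => (volDensity_pos M x).le)
    (volDensity_cont M).aestronglyMeasurable]
  rfl

/-- The flux with a cutoff. -/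
theorem flux_cutoff (M : RiemMetric n) {S : Set (E n)} (hS : MeasurableSet S)
    (hP : perimeter M S ≠ ⊤) (hfin : riemVol M S ≠ ⊤) {χ : E n → ℝ} (hχ : ContDiff ℝ ∞ χ)
    (hχc : HasCompactSupport χ) (h0 : ∀ x, 0 ≤ χ x) (h1 : ∀ x, χ x ≤ 1) {δ : ℝ}
    (hg : ∀ x, gradNorm M χ x ≤ δ) {w : Fin n → E n → ℝ} (hw : ∀ i, ContDiff ℝ ∞ (w i))
    {c : ℝ} (hc : 0 < c)
    (hle : ∀ x, (fun i => w i x) ⬝ᵥ M.g x *ᵥ (fun i => w i x) ≤ (c * volDensity M x) ^ 2) :
    ∫ x in S, χ x * ∑ i, pd i (w i) x ∂leb n ≤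
      c * ((perimeter M S).toReal + δ * (riemVol M S).toReal) := by
  have := leb_compacts n
  have hχd : Differentiable ℝ χ := hχ.differentiable (by simp)
  have hwd : ∀ i, Differentiable ℝ (w i) := fun i => (hw i).differentiable (by simp)
  have hA := flux_le M hP (w := fun i x => χ x * w i x) (fun i => hχ.mul (hw i))
    (fun i => hχc.mul_right) hc (fun x => by
      have e1 : (fun i => χ x * w i x) = χ x • fun i => w i x := rfl
      rw [e1, mulVec_smul, smul_dotProduct, dotProduct_smul, smul_eq_mul, smul_eq_mul,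
        ← mul_assoc, ← sq]
      have e2 : χ x ^ 2 ≤ 1 := pow_le_one₀ (h0 x) (h1 x)
      calc χ x ^ 2 * ((fun i => w i x) ⬝ᵥ M.g x *ᵥ fun i => w i x)
          ≤ 1 * ((fun i => w i x) ⬝ᵥ M.g x *ᵥ fun i => w i x) :=
            mul_le_mul_of_nonneg_right e2 (g_pos M x _)
        _ ≤ _ := by rw [one_mul]; exact hle x)
  have hexp : ∀ x, ∑ i, pd i (fun y => χ y * w i y) x =
      χ x * ∑ i, pd i (w i) x + ∑ i, w i x * pd i χ x := by
    intro x
    rw [Finset.mul_sum, ← Finset.sum_add_distrib]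
    exact Finset.sum_congr rfl fun i _ => pd_mul (hχd x) (hwd i x) i
  have hc1 : Continuous fun x => χ x * ∑ i, pd i (w i) x :=
    hχ.continuous.mul (continuous_finsetSum _ fun i _ => (pd_contDiff (hw i) i).continuous)
  have hi1 : IntegrableOn (fun x => χ x * ∑ i, pd i (w i) x) S (leb n) :=
    (hc1.integrable_of_hasCompactSupport (hχc.mul_right) (μ := leb n)).integrableOn
  have hc2 : Continuous fun x => ∑ i, w i x * pd i χ x :=
    continuous_finsetSum _ fun i _ => (hw i).continuous.mul (pd_contDiff hχ i).continuous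
  have hs2 : HasCompactSupport fun x => ∑ i, w i x * pd i χ x := by
    refine HasCompactSupport.intro hχc.isCompact fun x hx => ?_
    refine Finset.sum_eq_zero fun i _ => ?_
    rw [pd_zero_of (isClosed_tsupport χ) (fun _ h => image_eq_zero_of_notMem_tsupport h) i hx,
      mul_zero]
  have hi2 : IntegrableOn (fun x => ∑ i, w i x * pd i χ x) S (leb n) :=
    (hc2.integrable_of_hasCompactSupport hs2 (μ := leb n)).integrableOn
  simp only [hexp] at hA
  rw [integral_add hi1 hi2] at hA
  obtain ⟨hvI, hvE⟩ := riemVol_toReal M hfin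
  have hB : -(c * δ * (riemVol M S).toReal) ≤ ∫ x in S, ∑ i, w i x * pd i χ x ∂leb n := by
    rw [← hvE, ← integral_const_mul, ← integral_neg]
    refine setIntegral_mono_on (hvI.const_mul _).neg hi2 hS fun x _ => ?_
    have h2 := dot_le M x (fun i => w i x) (fun i => pd i χ x)
    have h3 : √((fun i => w i x) ⬝ᵥ M.g x *ᵥ fun i => w i x) ≤ c * volDensity M x := by
      rw [Real.sqrt_le_left (mul_pos hc (volDensity_pos M x)).le]
      exact hle x
    have h4 : |∑ i, w i x * pd i χ x| ≤ c * volDensity M x * δ :=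
      h2.trans (mul_le_mul h3 (hg x) (Real.sqrt_nonneg _) (mul_pos hc (volDensity_pos M x)).le)
    have h5 := neg_abs_le (∑ i, w i x * pd i χ x)
    nlinarith
  nlinarith

end Vale.Agent.P219.Co
end
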