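import Vale.Agent.P219.H817.T6

open MeasureTheory Set Filter Topology Matrix
open scoped ENNReal ContDiff

noncomputable section

namespace Vale.Agent.P219.Co

variable {n : ℕ}

theorem ginv_contDiff (M : RiemMetric n) (i j : Fin n) :
    ContDiff ℝ ∞ fun x => (M.g x)⁻¹ i j := by
  obtain ⟨e, he⟩ := CH.exists_triangularFrame (old M)
  have h : (fun x => (M.g x)⁻¹ i j) = fun x => ∑ a, e a x i * e a x j := by
    funext x
    rw [inv_eq_fmat (frame_of_old he) x, Matrix.mul_apply]
    rfl
  rw [h]
  refine ContDiff.sum fun a _ => ContDiff.mul ?_ ?_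
  · exact (frame_of_old he).smooth a i
  · exact (frame_of_old he).smooth a j

/-- A lower bound for the total variation by duality. -/
theorem gradMass_le_of_flux (M : RiemMetric n) {f : E n → ℝ} (hf : ContDiff ℝ ∞ f)
    (hcs : HasCompactSupport f) {B : ℝ}
    (hB : ∀ w : Fin n → E n → ℝ, (∀ i, ContDiff ℝ ∞ (w i)) →
      (∀ i x, x ∉ tsupport f → w i x = 0) →
      (∀ x, (fun i => w i x) ⬝ᵥ M.g x *ᵥ (fun i => w i x) ≤ (volDensity M x) ^ 2) →
      ∫ x, f x * ∑ i, pd i (w i) x ∂leb n ≤ B) : gradMass M f ≤ ENNReal.ofReal B := by
  have := leb_compacts n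
  have hfd : Differentiable ℝ f := hf.differentiable (by simp)
  have hvp := volDensity_pos M
  set p : E n → Fin n → ℝ := fun x i => pd i f x with hp
  set q : Fin n → E n → ℝ := fun i x => ((M.g x)⁻¹ *ᵥ p x) i with hq
  set N2 : E n → ℝ := fun x => p x ⬝ᵥ (M.g x)⁻¹ *ᵥ p x with hN2
  have hN20 : ∀ x, 0 ≤ N2 x := fun x => ginv_nonneg M x _
  have hgN : ∀ x, gradNorm M f x = √(N2 x) := fun x => rfl
  have hps : ∀ i, ContDiff ℝ ∞ fun x => p x i := fun i => pd_contDiff hf i
  have hqs : ∀ i, ContDiff ℝ ∞ (q i) := by
    intro i
    have h : q i = fun x => ∑ j, (M.g x)⁻¹ i j * p x j := rfl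
    rw [h]
    exact ContDiff.sum fun j _ => (ginv_contDiff M i j).mul (hps j)
  have hN2s : ContDiff ℝ ∞ N2 := by
    have h : N2 = fun x => ∑ i, p x i * q i x := rfl
    rw [h]
    exact ContDiff.sum fun i _ => (hps i).mul (hqs i)
  have hp0 : ∀ x, x ∉ tsupport f → p x = 0 := by
    intro x hx
    funext i
    exact pd_zero_of (isClosed_tsupport f) (fun _ h => image_eq_zero_of_notMem_tsupport h) i hx
  have hI : Integrable (fun x => √(N2 x) * volDensity M x) (leb n) := by
    refine Continuous.integrable_of_hasCompactSupport ?_ ?_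
    · exact (hN2s.continuous.sqrt).mul (volDensity_cont M)
    · refine HasCompactSupport.intro hcs.isCompact fun x hx => ?_
      have : N2 x = 0 := by
        simp only [hN2]
        rw [hp0 x hx, zero_dotProduct]
      rw [this, Real.sqrt_zero, zero_mul]
  -- the test fields
  have hkey : ∀ s : ℝ, 0 < s →
      ∫ x, √(N2 x) * volDensity M x ∂leb n ≤
        B + s * ∫ x in tsupport f, volDensity M x ∂leb n := by
    intro s hs
    have hDpos : ∀ x, 0 < N2 x + s ^ 2 := fun x => by have := hN20 x; positivity
    set R : E n → ℝ := fun x => √(N2 x + s ^ 2) with hR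
    have hRpos : ∀ x, 0 < R x := fun x => Real.sqrt_pos.2 (hDpos x)
    have hRs : ContDiff ℝ ∞ R := (hN2s.add contDiff_const).sqrt fun x => (hDpos x).ne'
    have hRsq : ∀ x, R x ^ 2 = N2 x + s ^ 2 := fun x => Real.sq_sqrt (hDpos x).le
    set w : Fin n → E n → ℝ := fun i x => -(volDensity M x / R x * q i x) with hw
    have hws : ∀ i, ContDiff ℝ ∞ (w i) := fun i =>
      (((volDensity_contDiff M).div hRs fun x => (hRpos x).ne').mul (hqs i)).neg
    have hw0 : ∀ i x, x ∉ tsupport f → w i x = 0 := by
      intro i x hx
      simp only [hw, hq]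
      rw [hp0 x hx, mulVec_zero, Pi.zero_apply, mul_zero, neg_zero]
    have hwn : ∀ x, (fun i => w i x) ⬝ᵥ M.g x *ᵥ (fun i => w i x) ≤ (volDensity M x) ^ 2 := by
      intro x
      have e1 : (fun i => w i x) = (-(volDensity M x / R x)) • ((M.g x)⁻¹ *ᵥ p x) := by
        funext i
        simp only [hw, hq, Pi.smul_apply, smul_eq_mul, neg_mul]
      rw [e1, mulVec_smul, smul_dotProduct, dotProduct_smul, smul_eq_mul, smul_eq_mul,
        ginv_eq, ← mul_assoc, ← sq, neg_sq, div_pow]
      have h1 : p x ⬝ᵥ (M.g x)⁻¹ *ᵥ p x = N2 x := rfl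
      rw [h1, hRsq, div_mul_eq_mul_div, div_le_iff₀ (hDpos x)]
      exact mul_le_mul_of_nonneg_left (by nlinarith) (sq_nonneg _)
    have h1 := hB w hws hw0 hwn
    -- integration by parts
    have hparts : ∀ i, ∫ x, f x * pd i (w i) x ∂leb n = -∫ x, p x i * w i x ∂leb n := by
      intro i
      have hwd : Differentiable ℝ (w i) := (hws i).differentiable (by simp)
      have h2 : ∀ x, pd i (w i) x = fderiv ℝ (w i) x (basisVec i) := fun x => pd_eq (hwd x) i
      have h3 : ∀ x, p x i = fderiv ℝ f x (basisVec i) := fun x => pd_eq (hfd x) i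
      have hc1 : Continuous fun x => pd i (w i) x := (pd_contDiff (hws i) i).continuous
      simp only [h2, h3]
      unfold leb
      refine integral_mul_fderiv_eq_neg_fderiv_mul_of_integrable ?_ ?_ ?_ (fun x _ => hfd x)
        fun x _ => hwd x
      · have : (fun x => fderiv ℝ f x (basisVec i) * w i x) = fun x => p x i * w i x := by
          funext x
          rw [h3]
        rw [this]
        exact ((hps i).continuous.mul (hws i).continuous).integrable_of_hasCompactSupport
          ((pd_compact hcs i).mul_right)
      · have : (fun x => f x * fderiv ℝ (w i) x (basisVec i)) = fun x => f x * pd i (w i) x := by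
          funext x
          rw [h2]
        rw [this]
        exact (hf.continuous.mul hc1).integrable_of_hasCompactSupport hcs.mul_right
      · exact (hf.continuous.mul (hws i).continuous).integrable_of_hasCompactSupport hcs.mul_right
    have hsum : ∫ x, f x * ∑ i, pd i (w i) x ∂leb n =
        ∫ x, volDensity M x / R x * N2 x ∂leb n := by
      have h2 : (fun x => f x * ∑ i, pd i (w i) x) = fun x => ∑ i, f x * pd i (w i) x :=
        funext fun x => Finset.mul_sum _ _ _
      rw [h2, integral_finsetSum]
      · simp only [hparts]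
        rw [Finset.sum_neg_distrib, ← integral_finsetSum]
        · rw [← integral_neg]
          refine integral_congr_ae (Eventually.of_forall fun x => ?_)
          simp only [hw, mul_neg, Finset.sum_neg_distrib, neg_neg]
          have h3 : N2 x = ∑ i, p x i * q i x := rfl
          rw [h3, Finset.mul_sum]
          refine Finset.sum_congr rfl fun i _ => ?_
          ring
        · intro i _
          exact ((hps i).continuous.mul (hws i).continuous).integrable_of_hasCompactSupport
            ((pd_compact hcs i).mul_right)
      · intro i _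
        exact (hf.continuous.mul (pd_contDiff (hws i) i).continuous).integrable_of_hasCompactSupport
          hcs.mul_right
    rw [hsum] at h1
    have hIs : Integrable (fun x => (tsupport f).indicator (volDensity M) x) (leb n) :=
      (integrable_indicator_iff (isClosed_tsupport f).measurableSet).2
        ((volDensity_cont M).continuousOn.integrableOn_compact hcs.isCompact)
    have hI2 : Integrable (fun x => volDensity M x / R x * N2 x) (leb n) := by
      refine Continuous.integrable_of_hasCompactSupport ?_ ?_
      · exact ((volDensity_cont M).div hRs.continuous fun x => (hRpos x).ne').mul hN2s.continuous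
      · refine HasCompactSupport.intro hcs.isCompact fun x hx => ?_
        have : N2 x = 0 := by
          simp only [hN2]
          rw [hp0 x hx, zero_dotProduct]
        rw [this, mul_zero]
    rw [← integral_indicator (isClosed_tsupport f).measurableSet, ← integral_const_mul]
    have h4 : ∫ x, √(N2 x) * volDensity M x ∂leb n ≤
        ∫ x, (volDensity M x / R x * N2 x + s * (tsupport f).indicator (volDensity M) x) ∂leb n := by
      refine integral_mono hI (hI2.add (hIs.const_mul s)) fun x => ?_
      show √(N2 x) * volDensity M x ≤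
        volDensity M x / R x * N2 x + s * (tsupport f).indicator (volDensity M) x
      by_cases hx : x ∈ tsupport f
      · rw [indicator_of_mem hx]
        have h5 : √(N2 x) ≤ N2 x / R x + s := by
          have h6 : √(N2 x) ^ 2 = N2 x := Real.sq_sqrt (hN20 x)
          have h7 : 0 ≤ √(N2 x) := Real.sqrt_nonneg _
          have h8 : R x ≤ √(N2 x) + s := by
            rw [hR]
            refine Real.sqrt_le_iff.2 ⟨by positivity, ?_⟩
            nlinarith
          have h9 : √(N2 x) ≤ R x := Real.sqrt_le_sqrt (by nlinarith)
          have hRp := hRpos x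
          rw [← sub_le_iff_le_add, le_div_iff₀ hRp]
          rcases le_total (√(N2 x)) s with h | h
          · nlinarith
          · nlinarith
        have h6 := mul_le_mul_of_nonneg_right h5 (hvp x).le
        calc √(N2 x) * volDensity M x ≤ (N2 x / R x + s) * volDensity M x := h6
          _ = _ := by ring
      · rw [indicator_of_notMem hx, mul_zero, add_zero]
        have : N2 x = 0 := by
          simp only [hN2]
          rw [hp0 x hx, zero_dotProduct]
        rw [this]
        simp
    rw [integral_add hI2 (hIs.const_mul s)] at h4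
    linarith
  have hfin : ∫ x, √(N2 x) * volDensity M x ∂leb n ≤ B := by
    refine ge_of_tendsto (x := 𝓝[>] (0 : ℝ)) (f := fun s : ℝ => B + s *
      ∫ x in tsupport f, volDensity M x ∂leb n) ?_ ?_
    · have h1 : Tendsto (fun s : ℝ => B + s * ∫ x in tsupport f, volDensity M x ∂leb n) (𝓝 0)
          (𝓝 (B + 0 * ∫ x in tsupport f, volDensity M x ∂leb n)) :=
        Continuous.tendsto (by fun_prop) 0
      rw [zero_mul, add_zero] at h1
      exact h1.mono_left nhdsWithin_le_nhds
    · filter_upwards [self_mem_nhdsWithin] with s hs
      exact hkey s hs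
  unfold gradMass
  simp only [hgN]
  rw [← ofReal_integral_eq_lintegral_ofReal hI (Eventually.of_forall fun x =>
    mul_nonneg (Real.sqrt_nonneg _) (hvp x).le)]
  exact ENNReal.ofReal_le_ofReal hfin

end Vale.Agent.P219.Co
end
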