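import Vale.Agent.P219.H817.T7

open MeasureTheory Set Filter Topology Matrix
open scoped ENNReal ContDiff

noncomputable section

namespace Vale.Agent.P219.Co

variable {n : ℕ}

/-- The quadratic form of the metric, divided by the square of the density. -/
def Qd (M : RiemMetric n) (x v : E n) : ℝ := (old M).g x v v / volDensity M x ^ 2

theorem Qd_cont (M : RiemMetric n) : Continuous fun z : E n × E n => Qd M z.1 z.2 := by
  unfold Qd
  refine Continuous.div ?_ ?_ fun z => (pow_pos (volDensity_pos M z.1) 2).ne'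
  · exact ((((old M).smooth.continuous.comp continuous_fst).clm_apply continuous_snd).clm_apply
      continuous_snd)
  · exact ((volDensity_cont M).comp continuous_fst).pow 2

theorem Qd_smul (M : RiemMetric n) (x v : E n) (c : ℝ) : Qd M x (c • v) = c ^ 2 * Qd M x v := by
  unfold Qd
  simp only [map_smul, _root_.smul_apply, smul_eq_mul]
  ring

theorem old_nonneg (M : RiemMetric n) (x v : E n) : 0 ≤ (old M).g x v v :=
  (CH.isMetricOn (old M)).nonneg (mem_univ x) v

theorem Qd_pos (M : RiemMetric n) (x : E n) {v : E n} (hv : v ≠ 0) : 0 < Qd M x v :=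
  div_pos ((CH.isMetricOn (old M)).pos x (mem_univ x) v hv) (pow_pos (volDensity_pos M x) 2)

theorem exists_radius (M : RiemMetric n) {K : Set (E n)} (hK : IsCompact K) {c : ℝ} (hc : 1 < c) :
    ∃ ε > 0, ∀ x y : E n, y ∈ K → dist x y < ε → ∀ v : E n, Qd M x v ≤ c * Qd M y v := by
  set C : Set (E n × E n × E n) :=
    (fun z : E n × E n => (z.1, z.1, z.2)) '' (K ×ˢ Metric.sphere (0 : E n) 1) with hC
  have hCc : IsCompact C := by
    refine (hK.prod (isCompact_sphere _ _)).image ?_
    exact continuous_fst.prodMk (continuous_fst.prodMk continuous_snd)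
  set U : Set (E n × E n × E n) := {z | Qd M z.1 z.2.2 < c * Qd M z.2.1 z.2.2} with hU
  have hUo : IsOpen U := by
    have e1 : Continuous fun z : E n × E n × E n => Qd M z.1 z.2.2 :=
      Continuous.comp (g := fun z : E n × E n => Qd M z.1 z.2)
        (f := fun z : E n × E n × E n => (z.1, z.2.2)) (Qd_cont M) (by fun_prop)
    have e2 : Continuous fun z : E n × E n × E n => Qd M z.2.1 z.2.2 :=
      Continuous.comp (g := fun z : E n × E n => Qd M z.1 z.2)
        (f := fun z : E n × E n × E n => (z.2.1, z.2.2)) (Qd_cont M) (by fun_prop)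
    exact isOpen_lt e1 (continuous_const.mul e2)
  have hCU : C ⊆ U := by
    rintro z ⟨⟨y, v⟩, ⟨-, hv⟩, rfl⟩
    have hv1 : ‖v‖ = 1 := by simpa using hv
    have hv0 : v ≠ 0 := by
      rintro rfl
      simp at hv1
    show Qd M y v < c * Qd M y v
    have := Qd_pos M y hv0
    nlinarith
  obtain ⟨ε, hε, hsub⟩ := hCc.exists_thickening_subset_open hUo hCU
  refine ⟨ε, hε, fun x y hy hd v => ?_⟩
  by_cases hv : v = 0
  · rw [hv]
    unfold Qd
    simp
  have hn : 0 < ‖v‖ := norm_pos_iff.2 hv
  set u : E n := ‖v‖⁻¹ • v with hu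
  have hu1 : ‖u‖ = 1 := by
    rw [hu, norm_smul, norm_inv, norm_norm, inv_mul_cancel₀ hn.ne']
  have h1 : (x, y, u) ∈ U := by
    apply hsub
    rw [Metric.mem_thickening_iff]
    refine ⟨(y, y, u), ⟨(y, u), ⟨hy, by simpa using hu1⟩, rfl⟩, ?_⟩
    rw [Prod.dist_eq]
    simp only [dist_self]
    exact max_lt hd hε
  have h2 : Qd M x u < c * Qd M y u := h1
  have h3 : v = ‖v‖ • u := by
    rw [hu, smul_smul, mul_inv_cancel₀ hn.ne', one_smul]
  have h4 : ∀ z, Qd M z v = ‖v‖ ^ 2 * Qd M z u := fun z => by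
    conv_lhs => rw [h3]
    rw [Qd_smul]
  rw [h4, h4]
  have := mul_le_mul_of_nonneg_left h2.le (sq_nonneg ‖v‖)
  linarith

theorem convex_ball (M : RiemMetric n) (x : E n) (a : ℝ) :
    Convex ℝ {v : E n | (old M).g x v v ≤ a} := by
  intro u hu v hv s t hs ht hst
  have hu' : (old M).g x u u ≤ a := hu
  have hv' : (old M).g x v v ≤ a := hv
  show (old M).g x (s • u + t • v) (s • u + t • v) ≤ a
  have h1 := old_nonneg M x (u - v)
  have h2 : (old M).g x u v = (old M).g x v u := (old M).symm x u v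
  simp only [map_add, map_sub, map_smul, _root_.add_apply, _root_.sub_apply, _root_.smul_apply,
    smul_eq_mul] at h1 ⊢
  have h3 : t = 1 - s := by linarith
  subst h3
  have h4 := mul_nonneg (mul_nonneg hs ht) h1
  nlinarith [mul_le_mul_of_nonneg_left hu' hs, mul_le_mul_of_nonneg_left hv' ht]

/-- Averaging a field changes its norm by a factor close to one. -/
theorem average_norm (M : RiemMetric n) {K : Set (E n)} (hK : IsCompact K) {c : ℝ} (hc : 1 < c) :
    ∃ ε > 0, ∀ (ν : Measure (E n)), IsProbabilityMeasure ν → (∀ᵐ y ∂ν, ‖y‖ < ε) →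
      ∀ w : Fin n → E n → ℝ, (∀ i, Continuous (w i)) → (∀ i x, x ∉ K → w i x = 0) →
      (∀ x, (fun i => w i x) ⬝ᵥ M.g x *ᵥ (fun i => w i x) ≤ volDensity M x ^ 2) → ∀ x,
      (fun i => ∫ y, w i (x - y) ∂ν) ⬝ᵥ M.g x *ᵥ (fun i => ∫ y, w i (x - y) ∂ν) ≤
        (c * volDensity M x) ^ 2 := by
  have hc2 : 1 < c ^ 2 := by nlinarith
  obtain ⟨ε, hε, h⟩ := exists_radius M hK hc2
  refine ⟨ε, hε, fun ν hν hνε w hw hw0 hle x => ?_⟩
  set f : E n → E n := fun y => WithLp.toLp 2 fun i => w i (x - y) with hf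
  have hfc : Continuous f := by
    rw [hf]
    refine (PiLp.continuous_toLp 2 _).comp (continuous_pi fun i => ?_)
    exact (hw i).comp (continuous_const.sub continuous_id)
  have hfs : HasCompactSupport f := by
    refine HasCompactSupport.intro (hK.image (f := fun y => x - y) (by fun_prop)) fun y hy => ?_
    have h1 : x - y ∉ K := fun h2 => hy ⟨x - y, h2, by simp⟩
    simp only [hf]
    have h2 : (fun i => w i (x - y)) = 0 := funext fun i => hw0 i _ h1
    rw [h2]
    rfl
  have hfi : Integrable f ν := hfc.integrable_of_hasCompactSupport hfs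
  have hcl : IsClosed {v : E n | (old M).g x v v ≤ (c * volDensity M x) ^ 2} := by
    refine isClosed_le ?_ continuous_const
    exact (((old M).g x).continuous.clm_apply continuous_id)
  have hmem : ∫ y, f y ∂ν ∈ {v : E n | (old M).g x v v ≤ (c * volDensity M x) ^ 2} := by
    refine (convex_ball M x _).integral_mem hcl ?_ hfi
    filter_upwards [hνε] with y hy
    show (old M).g x (f y) (f y) ≤ (c * volDensity M x) ^ 2
    by_cases h1 : x - y ∈ K
    · have h2 : dist x (x - y) < ε := by
        rw [dist_eq_norm]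
        simpa using hy
      have h3 := h x (x - y) h1 h2 (f y)
      have h4 : Qd M (x - y) (f y) ≤ 1 := by
        unfold Qd
        rw [div_le_one (pow_pos (volDensity_pos M _) 2), old_apply]
        exact hle (x - y)
      have h5 : Qd M x (f y) ≤ c ^ 2 := h3.trans (by nlinarith)
      unfold Qd at h5
      rw [div_le_iff₀ (pow_pos (volDensity_pos M x) 2)] at h5
      rw [mul_pow]
      exact h5
    · have h2 : f y = 0 := by
        simp only [hf]
        have h2 : (fun i => w i (x - y)) = 0 := funext fun i => hw0 i _ h1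
        rw [h2]
        rfl
      rw [h2, map_zero]
      exact sq_nonneg _
  have hcoord : ∀ i, (∫ y, f y ∂ν) i = ∫ y, w i (x - y) ∂ν := by
    intro i
    have h1 := (EuclideanSpace.proj i : E n →L[ℝ] ℝ).integral_comp_comm hfi
    exact h1.symm
  have h1 : (old M).g x (∫ y, f y ∂ν) (∫ y, f y ∂ν) ≤ (c * volDensity M x) ^ 2 := hmem
  rw [old_apply] at h1
  have h2 : (fun i => ∫ y, w i (x - y) ∂ν) = fun i => (∫ y, f y ∂ν) i := funext fun i =>
    (hcoord i).symm
  rw [h2]
  exact h1

end Vale.Agent.P219.Co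
end
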