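import Vale.Agent.P219.H817.T4
import Vale.Agent.P219.H732.OneD

open MeasureTheory Set Filter Topology Matrix
open scoped ENNReal ContDiff

noncomputable section

namespace Vale.Agent.P219.Co

variable {n : ℕ}

/-- The inequality on a layer. -/
theorem layer_ineq (hn : 2 ≤ n) {K : ℝ} (hK : K ≤ 0) (M : RiemMetric n)
    (hM : GeodesicallyComplete M) (hs : SecLE M K) {f : E n → ℝ} (hf : ContDiff ℝ 1 f)
    (hcs : HasCompactSupport f) {a b : ℝ} (ha : 0 ≤ a) (hab : a < b) :
    ENNReal.ofReal (b - a) * isoProfile n K (riemVol M {x | b ≤ |f x|}) ≤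
      ∫⁻ x in {x | a < |f x| ∧ |f x| < b},
        ENNReal.ofReal (gradNorm M f x * volDensity M x) ∂leb n := by
  set g : E n → ℝ≥0∞ := fun x => ENNReal.ofReal (gradNorm M f x * volDensity M x) with hg
  set L : Set (E n) := {x | a < |f x| ∧ |f x| < b} with hL
  have hLm : MeasurableSet L := by
    have h1 : MeasurableSet {x | a < |f x|} :=
      measurableSet_lt measurable_const hf.continuous.abs.measurable
    have h2 : MeasurableSet {x | |f x| < b} :=
      measurableSet_lt hf.continuous.abs.measurable measurable_const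
    exact h1.inter h2
  have hgm : Measurable g :=
    ((gradNorm_cont M hf).mul (volDensity_cont M)).measurable.ennreal_ofReal
  set I : ℝ≥0∞ := isoProfile n K (riemVol M {x | b ≤ |f x|}) with hI
  have hkey : ∀ ε : ℝ, 0 < ε → ENNReal.ofReal (b - a - ε) * I ≤ ∫⁻ x in L, g x ∂leb n := by
    intro ε hε
    obtain ⟨κ, F, hκc, hκ0, hκn, hκe, hF, hF0, hF1, hFn, hFe, hint⟩ := exists_step hε
    calc ENNReal.ofReal (b - a - ε) * I = ∫⁻ _ in Ioo a (b - ε), I := by
          rw [setLIntegral_const, Real.volume_Ioo, mul_comm]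
          congr 2
          ring
      _ ≤ ∫⁻ t in Ioo a (b - ε), ∫⁻ x, ENNReal.ofReal (κ (|f x| - t)) * g x ∂leb n := by
          refine setLIntegral_mono' measurableSet_Ioo fun t ht => ?_
          refine le_trans ?_ (level hn hK M hM hs hf hcs hκc hκ0 hκn hF hF0 hF1 hFn hFe
            (ha.trans_lt ht.1))
          refine isoProfile_mono n K (lintegral_mono_set fun x hx => ?_)
          have hx' : b ≤ |f x| := hx
          have ht2 := ht.2
          show t + ε ≤ |f x|
          linarith
      _ = ∫⁻ x, (∫⁻ t in Ioo a (b - ε), ENNReal.ofReal (κ (|f x| - t)) * g x) ∂leb n := by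
          unfold leb
          refine lintegral_lintegral_swap ?_
          refine Measurable.aemeasurable ?_
          have hm1 : Measurable fun p : ℝ × E n => κ (|f p.2| - p.1) := by
            refine Continuous.measurable (hκc.comp ?_)
            exact (hf.continuous.comp continuous_snd).abs.sub continuous_fst
          exact hm1.ennreal_ofReal.mul (hgm.comp measurable_snd)
      _ ≤ ∫⁻ x, L.indicator g x ∂leb n := by
          refine lintegral_mono fun x => ?_
          by_cases hx : x ∈ L
          · rw [indicator_of_mem hx]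
            refine (setLIntegral_le_lintegral _ _).trans ?_
            have hm2 : Measurable fun t => ENNReal.ofReal (κ (|f x| - t)) :=
              (hκc.measurable.comp (measurable_const.sub measurable_id)).ennreal_ofReal
            rw [lintegral_mul_const _ hm2]
            have h3 : ∫⁻ t, ENNReal.ofReal (κ (|f x| - t)) = 1 := by
              rw [lintegral_sub_left_eq_self (fun u => ENNReal.ofReal (κ u)) |f x|, hint]
            rw [h3, one_mul]
          · rw [indicator_of_notMem hx]
            refine le_of_eq ?_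
            rw [setLIntegral_congr_fun (g := fun _ => 0) measurableSet_Ioo, lintegral_zero]
            intro t ht
            have h0 : κ (|f x| - t) = 0 := by
              by_contra h
              apply hx
              constructor
              · by_contra h4
                exact h (hκn _ (by have := ht.1; linarith))
              · by_contra h4
                exact h (hκe _ (by have := ht.2; linarith))
            show ENNReal.ofReal (κ (|f x| - t)) * g x = 0
            rw [h0, ENNReal.ofReal_zero, zero_mul]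
      _ = ∫⁻ x in L, g x ∂leb n := lintegral_indicator hLm _
  have hlim : Tendsto (fun ε : ℝ => ENNReal.ofReal (b - a - ε) * I) (𝓝[>] 0)
      (𝓝 (ENNReal.ofReal (b - a) * I)) := by
    refine ENNReal.Tendsto.mul_const ?_ (Or.inl (by simpa using hab))
    refine (ENNReal.continuous_ofReal.tendsto _).comp ?_
    have h1 : Tendsto (fun ε : ℝ => b - a - ε) (𝓝 0) (𝓝 (b - a - 0)) :=
      Continuous.tendsto (by fun_prop) 0
    rw [sub_zero] at h1
    exact h1.mono_left nhdsWithin_le_nhds
  refine le_of_tendsto hlim ?_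
  filter_upwards [self_mem_nhdsWithin] with ε hε
  exact hkey ε hε

/-! ### The rearrangement -/

section

variable (M : RiemMetric n) (K : ℝ) {f : E n → ℝ}

theorem muG_compact (M : RiemMetric n) {L : Set (E n)} (hL : IsCompact L) : muG M L < ⊤ := by
  rw [muG_apply M hL.measurableSet]
  unfold riemVol leb
  obtain ⟨C, hC⟩ := (hL.image (volDensity_cont M)).bddAbove
  refine lt_of_le_of_lt (setLIntegral_mono' (g := fun _ => ENNReal.ofReal C)
    hL.measurableSet fun x hx => ENNReal.ofReal_le_ofReal (hC (mem_image_of_mem _ hx))) ?_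
  rw [setLIntegral_const]
  exact ENNReal.mul_lt_top ENNReal.ofReal_lt_top hL.measure_lt_top

theorem riemVol_mono {S T : Set (E n)} (h : S ⊆ T) : riemVol M S ≤ riemVol M T :=
  lintegral_mono_set h

theorem level_meas (hf : Continuous f) (t : ℝ) : MeasurableSet {x | t < |f x|} :=
  measurableSet_lt measurable_const hf.abs.measurable

theorem level_fin (hf : Continuous f) (hcs : HasCompactSupport f) {t : ℝ} (ht : 0 ≤ t) :
    riemVol M {x | t < |f x|} < ⊤ := by
  rw [← muG_apply M (level_meas hf t)]
  refine (measure_mono fun x hx => ?_).trans_lt (muG_compact M hcs.isCompact)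
  refine subset_tsupport f (Function.mem_support.2 fun h0 => ?_)
  have hx' : t < |f x| := hx
  rw [h0, abs_zero] at hx'
  linarith

theorem exists_bound (hf : Continuous f) (hcs : HasCompactSupport f) :
    ∃ B, 0 ≤ B ∧ ∀ x, |f x| ≤ B := by
  obtain ⟨C, hC⟩ := hf.bounded_above_of_compact_support hcs
  exact ⟨C, (norm_nonneg _).trans (hC 0), fun x => hC x⟩

theorem rearr_bdd (hf : Continuous f) (hcs : HasCompactSupport f) (r : ℝ) :
    BddAbove {t : ℝ | 0 ≤ t ∧ ENNReal.ofReal (modelVol n K r) < riemVol M {x | t < |f x|}} := by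
  obtain ⟨B, -, hB⟩ := exists_bound hf hcs
  refine ⟨B, fun t ht => ?_⟩
  by_contra h
  push Not at h
  have h1 : {x | t < |f x|} = ∅ := by
    ext x
    simp only [mem_ofPred_eq, mem_empty_iff_false, iff_false, not_lt]
    exact (hB x).trans h.le
  have h2 := ht.2
  rw [h1] at h2
  simp [riemVol] at h2

theorem rearr_nonneg (r : ℝ) : 0 ≤ rearr M K f r := Real.sSup_nonneg fun _ ht => ht.1

/-- `F r > t` if and only if `vol {|f| > t}` is larger than the volume of the ball of radius `r`. -/
theorem lt_rearr_iff (hf : Continuous f) (hcs : HasCompactSupport f) {r t : ℝ} (ht : 0 ≤ t) :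
    t < rearr M K f r ↔ ENNReal.ofReal (modelVol n K r) < riemVol M {x | t < |f x|} := by
  constructor
  · intro h
    have hne : {t : ℝ | 0 ≤ t ∧
        ENNReal.ofReal (modelVol n K r) < riemVol M {x | t < |f x|}}.Nonempty := by
      by_contra h1
      rw [not_nonempty_iff_eq_empty] at h1
      unfold rearr at h
      rw [h1, Real.sSup_empty] at h
      linarith
    obtain ⟨t', ht', hlt⟩ := exists_lt_of_lt_csSup hne h
    refine ht'.2.trans_le (riemVol_mono M fun x hx => ?_)
    have hx' : t' < |f x| := hx
    exact hlt.trans hx'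
  · intro h
    have hU : {x | t < |f x|} = ⋃ k : ℕ, {x | t + 1 / ((k : ℝ) + 1) < |f x|} := by
      ext x
      simp only [mem_ofPred_eq, mem_iUnion]
      constructor
      · intro hx
        obtain ⟨k, hk⟩ := exists_nat_one_div_lt (sub_pos.2 hx)
        exact ⟨k, by linarith⟩
      · rintro ⟨k, hk⟩
        have : (0 : ℝ) < 1 / ((k : ℝ) + 1) := by positivity
        linarith
    have hmono : Monotone fun k : ℕ => {x | t + 1 / ((k : ℝ) + 1) < |f x|} := by
      intro a b hab x hx
      have h1 : t + 1 / ((a : ℝ) + 1) < |f x| := hx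
      have h2 : 1 / ((b : ℝ) + 1) ≤ 1 / ((a : ℝ) + 1) := by gcongr
      show t + 1 / ((b : ℝ) + 1) < |f x|
      linarith
    rw [← muG_apply M (level_meas hf t), hU, hmono.measure_iUnion, lt_iSup_iff] at h
    obtain ⟨k, hk⟩ := h
    rw [muG_apply M (level_meas hf _)] at hk
    have hk0 : (0 : ℝ) < 1 / ((k : ℝ) + 1) := by positivity
    have h1 : t + 1 / ((k : ℝ) + 1) ≤ rearr M K f r :=
      le_csSup (rearr_bdd M K hf hcs r) ⟨by linarith, hk⟩
    linarith

theorem modelVol_mono (hn : 1 ≤ n) {r s : ℝ} (hr : 0 ≤ r) (hrs : r ≤ s) :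
    modelVol n K r ≤ modelVol n K s :=
  (modelVol_co_strictMono hn K).monotoneOn (mem_Ici.2 hr) (mem_Ici.2 (hr.trans hrs)) hrs

theorem modelVol_zero : modelVol n K 0 = 0 := by
  unfold modelVol
  simp

theorem rearr_antitone (hn : 1 ≤ n) (hf : Continuous f) (hcs : HasCompactSupport f) :
    AntitoneOn (rearr M K f) (Ici 0) := by
  intro r hr s hs hrs
  by_contra h
  push Not at h
  have h1 := (lt_rearr_iff M K hf hcs (rearr_nonneg M K (f := f) r)).1 h
  have h2 : ENNReal.ofReal (modelVol n K r) <
      riemVol M {x | rearr M K f r < |f x|} :=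
    lt_of_le_of_lt (ENNReal.ofReal_le_ofReal (modelVol_mono K hn hr hrs)) h1
  exact lt_irrefl _ ((lt_rearr_iff M K hf hcs (rearr_nonneg M K (f := f) r)).2 h2)

theorem rearr_zero (hn : 1 ≤ n) {R : ℝ} (hR : 0 ≤ R)
    (hV : riemVol M {x | f x ≠ 0} ≤ ENNReal.ofReal (modelVol n K R)) {r : ℝ} (hr : R ≤ r) :
    rearr M K f r = 0 := by
  have h1 : {t : ℝ | 0 ≤ t ∧ ENNReal.ofReal (modelVol n K r) < riemVol M {x | t < |f x|}} = ∅ := by
    rw [eq_empty_iff_forall_notMem]
    rintro t ⟨ht0, ht⟩
    refine absurd ht (not_lt.2 ?_)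
    refine (riemVol_mono M fun x hx => ?_).trans
      (hV.trans (ENNReal.ofReal_le_ofReal (modelVol_mono K hn hR hr)))
    have hx' : t < |f x| := hx
    intro h0
    rw [h0, abs_zero] at hx'
    linarith
  unfold rearr
  rw [h1, Real.sSup_empty]

/-- The superlevel set at the height `F r` is at least as large as the ball of radius `r`. -/
theorem vol_ge_rearr (hf : Continuous f) (hcs : HasCompactSupport f) {r : ℝ}
    (hpos : 0 < rearr M K f r) :
    ENNReal.ofReal (modelVol n K r) ≤ riemVol M {x | rearr M K f r ≤ |f x|} := by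
  set b : ℝ := rearr M K f r with hb
  have hU : {x | b ≤ |f x|} = ⋂ k : ℕ, {x | b - b / ((k : ℝ) + 1) < |f x|} := by
    ext x
    simp only [mem_ofPred_eq, mem_iInter]
    constructor
    · intro hx k
      have : (0 : ℝ) < b / ((k : ℝ) + 1) := by positivity
      linarith
    · intro h
      have h1 : Tendsto (fun k : ℕ => b - b / ((k : ℝ) + 1)) atTop (𝓝 (b - 0)) := by
        refine tendsto_const_nhds.sub ?_
        have h2 := tendsto_one_div_add_atTop_nhds_zero_nat (𝕜 := ℝ)
        have h3 := h2.const_mul b
        rw [mul_zero] at h3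
        refine h3.congr fun k => ?_
        rw [mul_one_div]
      rw [sub_zero] at h1
      exact le_of_tendsto h1 (Eventually.of_forall fun k => (h k).le)
  have hanti : Antitone fun k : ℕ => {x | b - b / ((k : ℝ) + 1) < |f x|} := by
    intro a c hac x hx
    have h1 : b - b / ((c : ℝ) + 1) < |f x| := hx
    have h2 : b / ((c : ℝ) + 1) ≤ b / ((a : ℝ) + 1) := by gcongr
    show b - b / ((a : ℝ) + 1) < |f x|
    linarith
  have hge : ∀ k : ℕ, 0 ≤ b - b / ((k : ℝ) + 1) := by
    intro k
    rw [sub_nonneg]
    exact div_le_self hpos.le (by linarith [(Nat.cast_nonneg k : (0 : ℝ) ≤ k)])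
  have hlim := tendsto_measure_iInter_atTop (μ := muG M)
    (s := fun k : ℕ => {x | b - b / ((k : ℝ) + 1) < |f x|})
    (fun k => (level_meas hf (b - b / ((k : ℝ) + 1))).nullMeasurableSet) hanti
    ⟨0, by
      rw [muG_apply M (level_meas hf _)]
      exact (level_fin M hf hcs (hge 0)).ne⟩
  rw [← hU, muG_apply M (measurableSet_le measurable_const hf.abs.measurable)] at hlim
  refine ge_of_tendsto hlim (Eventually.of_forall fun k => ?_)
  show _ ≤ muG M {x | b - b / ((k : ℝ) + 1) < |f x|}
  rw [muG_apply M (level_meas hf _)]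
  refine ((lt_rearr_iff M K hf hcs (hge k)).1 ?_).le
  have : (0 : ℝ) < b / ((k : ℝ) + 1) := by positivity
  linarith

/-- The volume of a layer. -/
theorem vol_layer_le (hn : 1 ≤ n) (hf : Continuous f) (hcs : HasCompactSupport f) {r s : ℝ}
    (hr : 0 ≤ r) (hlt : rearr M K f s < rearr M K f r) :
    riemVol M {x | rearr M K f s < |f x| ∧ |f x| < rearr M K f r} ≤
      ENNReal.ofReal (modelVol n K s - modelVol n K r) := by
  set a : ℝ := rearr M K f s with ha
  set b : ℝ := rearr M K f r with hb
  have ha0 : 0 ≤ a := rearr_nonneg M K s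
  have hb0 : 0 < b := ha0.trans_lt hlt
  have h1 : riemVol M {x | a < |f x|} ≤ ENNReal.ofReal (modelVol n K s) := by
    by_contra h
    push Not at h
    exact lt_irrefl _ ((lt_rearr_iff M K hf hcs ha0).2 h)
  have h2 := vol_ge_rearr M K hf hcs (r := r) hb0
  rw [← hb] at h2
  have hm1 : MeasurableSet {x | b ≤ |f x|} := measurableSet_le measurable_const hf.abs.measurable
  have hm2 : MeasurableSet {x | a < |f x| ∧ |f x| < b} :=
    (level_meas hf a).inter (measurableSet_lt hf.abs.measurable measurable_const)
  have h3 : {x | a < |f x|} = {x | a < |f x| ∧ |f x| < b} ∪ {x | b ≤ |f x|} := by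
    ext x
    simp only [mem_ofPred_eq, mem_union]
    constructor
    · intro h
      rcases lt_or_ge (|f x|) b with h4 | h4
      · exact Or.inl ⟨h, h4⟩
      · exact Or.inr h4
    · rintro (h | h)
      · exact h.1
      · exact hlt.trans_le h
  have h4 : riemVol M {x | a < |f x|} = riemVol M {x | a < |f x| ∧ |f x| < b} +
      riemVol M {x | b ≤ |f x|} := by
    rw [← muG_apply M (level_meas hf a), ← muG_apply M hm1, ← muG_apply M hm2, h3]
    refine measure_union ?_ hm1
    rw [Set.disjoint_left]
    intro x hx hx'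
    exact absurd hx.2 (not_lt.2 hx')
  have h5 : riemVol M {x | a < |f x| ∧ |f x| < b} + ENNReal.ofReal (modelVol n K r) ≤
      ENNReal.ofReal (modelVol n K s) := by
    refine le_trans ?_ h1
    rw [h4]
    gcongr
  have hVr : 0 ≤ modelVol n K r := by
    rw [← modelVol_zero (n := n) K]
    exact modelVol_mono K hn le_rfl hr
  rw [ENNReal.ofReal_sub _ hVr]
  exact ENNReal.le_sub_of_add_le_right ENNReal.ofReal_ne_top h5

end

end Vale.Agent.P219.Co
end
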